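import Vale.Agent.P147.Thin.Xi

/-!
# The fat flow is independent enough of the thin escape
-/

open MeasureTheory Set Filter Topology
open scoped ENNReal

namespace Vale.Agent.P147.Thin

open Vale.Agent.P147.Proj (dsp verts iid DepOn)
open Vale.Agent.P147.Bal (lev pw cw Pre u)

variable {d b : ℕ} {e : Step d} {μ : Measure (Row d)} [IsProbabilityMeasure μ]
  {Q : Env d → Site d → Measure (ℕ → Site d)}

lemma lintegral_stayP (hQ : IsQuenchedLaw Q) (z : Site d) :
    ∫⁻ ω, stayP Q e ω z ∂iid μ = ∫⁻ ω, Q ω 0 (StayEv e) ∂iid μ := by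
  have e1 : ∀ ω, stayP Q e ω z = stayP Q e (shiftEnv z ω) 0 := fun ω => by
    have hm : Measurable fun (X : ℕ → Site d) k => X k - z := measurable_pi_lambda _ fun k =>
      (measurable_of_countable fun y : Site d => y - z).comp (measurable_pi_apply k)
    have hpre : (fun (X : ℕ → Site d) k => X k - z) ⁻¹' StayEv e = StayEv e := by
      ext X
      simp [StayEv, Bal.lev_sub]
    rw [stayP, stayP, hQ.shift ω z 0, zero_add, Measure.map_apply hm (measurableSet_stayEv e),
      hpre]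
  simp only [e1]
  exact Proj.lintegral_shift μ (measurable_stayP hQ 0) z

/-- The end of the telescope is the annealed mass of the pieces times the probability of staying. -/
lemma lintegral_hybrid_end (hQ : IsQuenchedLaw Q) (P : Par) {B : Finset (Site d)}
    (hlev : ∀ a ∈ B, lev e a = 0) (hB : B.Nonempty) {n : ℕ} {W : Env d → ℝ≥0∞} (hW : Measurable W)
    (hWd : DepOnSet W {v | 0 ≤ lev e v ∧ lev e v < (n : ℤ)}) :
    ∫⁻ ω, W ω * ENNReal.ofReal (hybrid μ Q e P B n n ω) ∂iid μ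
      = (∫⁻ ω, W ω ∂iid μ) * mass μ e P n * ∫⁻ ω, Q ω 0 (StayEv e) ∂iid μ := by
  classical
  set N := (B.card : ℝ≥0∞)⁻¹
  have hN : N ≠ ∞ := ENNReal.inv_ne_top.2 (Nat.cast_ne_zero.2 (Finset.card_pos.2 hB).ne')
  have hr : ∀ ω, W ω * ENNReal.ofReal (hybrid μ Q e P B n n ω) = ∑ a ∈ B, ∑ t : Tup e P n,
      (if t.Good then N * tupW μ t else 0) * (W ω * stayP Q e ω (a + tsumDsp t.lists)) := by
    intro ω
    rw [hybrid, ENNReal.ofReal_sum_of_nonneg fun a _ => Finset.sum_nonneg fun t _ => by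
      split_ifs <;> positivity, Finset.mul_sum]
    refine Finset.sum_congr rfl fun a _ => ?_
    rw [ENNReal.ofReal_sum_of_nonneg fun t _ => by split_ifs <;> positivity, Finset.mul_sum]
    refine Finset.sum_congr rfl fun t _ => ?_
    split_ifs
    · rw [Nat.sub_self, cont, ← ENNReal.toReal_mul, ENNReal.ofReal_toReal (ENNReal.mul_ne_top
        (ENNReal.mul_ne_top hN (tupW_ne_top _))
        (ne_top_of_le_ne_top ENNReal.one_ne_top (stayP_le_one hQ _ _)))]
      ring
    · simp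
  simp only [hr]
  have hm : ∀ (a : Site d) (t : Tup e P n),
      Measurable fun ω => W ω * stayP Q e ω (a + tsumDsp t.lists) := fun a t =>
    hW.mul (measurable_stayP hQ _)
  rw [lintegral_finsetSum _ fun a _ => Finset.measurable_sum _ fun t _ => (hm a t).const_mul _]
  have hterm : ∀ a ∈ B, ∀ t : Tup e P n,
      ∫⁻ ω, W ω * stayP Q e ω (a + tsumDsp t.lists) ∂iid μ
        = (∫⁻ ω, W ω ∂iid μ) * ∫⁻ ω, Q ω 0 (StayEv e) ∂iid μ := by
    intro a ha t
    rw [lintegral_mul_depOnSet μ hW (measurable_stayP hQ _) (S := {v | lev e v < (n : ℤ)})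
      (hWd.mono fun v hv => hv.2) ((depOnSet_stayP (stayDepOut hQ) _).mono fun v hv => ?_),
      lintegral_stayP hQ]
    have h := le_hsum t
    have hv' : lev e (a + tsumDsp t.lists) ≤ lev e v := hv
    rw [Bal.lev_add, hlev a ha, lev_tsumDsp] at hv'
    show ¬ lev e v < (n : ℤ)
    omega
  calc ∑ a ∈ B, ∫⁻ ω, ∑ t : Tup e P n,
        (if t.Good then N * tupW μ t else 0) * (W ω * stayP Q e ω (a + tsumDsp t.lists)) ∂iid μ
      = ∑ a ∈ B, N * (mass μ e P n *
          ((∫⁻ ω, W ω ∂iid μ) * ∫⁻ ω, Q ω 0 (StayEv e) ∂iid μ)) := by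
        refine Finset.sum_congr rfl fun a ha => ?_
        rw [lintegral_finsetSum _ fun t _ => (hm a t).const_mul _, mass, Finset.sum_mul,
          Finset.mul_sum]
        refine Finset.sum_congr rfl fun t _ => ?_
        rw [lintegral_const_mul _ (hm a t), hterm a ha t]
        split_ifs <;> ring
    _ = (B.card : ℝ≥0∞) * N * (mass μ e P n *
          ((∫⁻ ω, W ω ∂iid μ) * ∫⁻ ω, Q ω 0 (StayEv e) ∂iid μ)) := by
        rw [Finset.sum_const, nsmul_eq_mul]; ring
    _ = _ := by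
        rw [ENNReal.mul_inv_cancel (Nat.cast_ne_zero.2 (Finset.card_pos.2 hB).ne')
          (ENNReal.natCast_ne_top _)]
        ring

/-- A lateral segment. -/
lemma exists_base (hd : 2 ≤ d) (e : Step d) (N : ℕ) :
    ∃ B : Finset (Site d), B.card = N ∧ ∀ a ∈ B, lev e a = 0 := by
  obtain ⟨j, hj⟩ : ∃ j : Fin d, j ≠ e.1 := by
    by_contra hno
    push Not at hno
    have h := (hno ⟨0, by omega⟩).trans (hno ⟨1, by omega⟩).symm
    simp [Fin.ext_iff] at h
  have hinj : Function.Injective fun k : ℕ => (Pi.single j (k : ℤ) : Site d) := fun k l h => by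
    simpa using congrFun h j
  refine ⟨(Finset.range N).image fun k : ℕ => (Pi.single j (k : ℤ) : Site d),
    by rw [Finset.card_image_of_injective _ hinj, Finset.card_range], ?_⟩
  intro a ha
  obtain ⟨k, -, rfl⟩ := Finset.mem_image.1 ha
  simp [lev, Pi.single_eq_of_ne hj.symm]

/-- The bound on the squared error at level `s` for a base of `N` sites. -/
noncomputable def errSq (A₁ : ℝ) (d b C A N s : ℕ) : ℝ :=
  72 * (4 * (C : ℝ) ^ 2 * ((A : ℝ) + 1) * ((s : ℝ) + 1) ^ (2 * b + 2) *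
    min ((N : ℝ) + 1)⁻¹ (A₁ / ((s : ℝ) + 1) ^ ((d - 1) / 2)))

lemma errSq_pos {A₁ : ℝ} (hA : 0 < A₁) {C : ℕ} (hC : 1 ≤ C) (A N s : ℕ) :
    0 < errSq A₁ d b C A N s := by
  have : (0 : ℝ) < C := by exact_mod_cast hC
  have h1 : (0 : ℝ) < ((N : ℝ) + 1)⁻¹ := by positivity
  have h2 : (0 : ℝ) < A₁ / ((s : ℝ) + 1) ^ ((d - 1) / 2) := by positivity
  have := lt_min h1 h2
  unfold errSq
  positivity

lemma exists_err_small (hd : 4 * b + 11 ≤ d) {A₁ : ℝ} (hA : 0 < A₁) {C : ℕ} (hC : 1 ≤ C) (A : ℕ)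
    {ε : ℝ} (hε : 0 < ε) :
    ∃ N : ℕ, Summable (fun s => √(errSq A₁ d b C A N s)) ∧ ∑' s, √(errSq A₁ d b C A N s) < ε := by
  set q := (d - 1) / 2
  set c₀ := 72 * (4 * (C : ℝ) ^ 2 * ((A : ℝ) + 1))
  have hc₀ : 0 ≤ c₀ := by positivity
  set g : ℕ → ℝ := fun s => √(c₀ * A₁) * (1 / ((s + 1 : ℕ) : ℝ) ^ (3 / 2 : ℝ))
  have hg : Summable g :=
    ((summable_nat_add_iff (f := fun n : ℕ => 1 / (n : ℝ) ^ (3 / 2 : ℝ)) 1).2
      (Real.summable_one_div_nat_rpow.2 (by norm_num))).mul_left _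
  have hbound : ∀ N s, √(errSq A₁ d b C A N s) ≤ g s := by
    intro N s
    set x : ℝ := ((s + 1 : ℕ) : ℝ)
    have hx1 : 1 ≤ x := by
      show (1 : ℝ) ≤ ((s + 1 : ℕ) : ℝ)
      exact_mod_cast Nat.succ_pos s
    have hxs : (s : ℝ) + 1 = x := by simp [x]
    calc √(errSq A₁ d b C A N s)
        ≤ √(c₀ * A₁ * (1 / x ^ (3 / 2 : ℝ)) ^ 2) := by
          refine Real.sqrt_le_sqrt ?_
          have e3 : (1 / x ^ (3 / 2 : ℝ)) ^ 2 = 1 / x ^ 3 := by
            rw [div_pow, one_pow, ← Real.rpow_natCast, ← Real.rpow_mul (by linarith)]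
            norm_num
          rw [e3]
          calc errSq A₁ d b C A N s
              ≤ c₀ * x ^ (2 * b + 2) * (A₁ / x ^ q) := by
                rw [errSq, hxs, ← mul_assoc, ← mul_assoc, ← mul_assoc, ← mul_assoc]
                simp only [c₀, ← mul_assoc]
                exact mul_le_mul_of_nonneg_left (min_le_right _ _) (by positivity)
            _ ≤ c₀ * A₁ * (1 / x ^ 3) := by
                rw [mul_assoc c₀, mul_assoc c₀]
                refine mul_le_mul_of_nonneg_left ?_ hc₀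
                rw [mul_div_assoc', mul_one_div, div_le_div_iff₀ (by positivity) (by positivity),
                  mul_comm (x ^ (2 * b + 2)) A₁, mul_assoc, ← pow_add]
                exact mul_le_mul_of_nonneg_left (pow_le_pow_right₀ hx1 (by omega)) hA.le
      _ = g s := by
          rw [Real.sqrt_mul (mul_nonneg hc₀ hA.le), Real.sqrt_sq (by positivity)]
  have hlim : ∀ s, Tendsto (fun N => √(errSq A₁ d b C A N s)) atTop (𝓝 0) := by
    intro s
    have h1 : Tendsto (fun N => errSq A₁ d b C A N s) atTop (𝓝 0) := by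
      refine squeeze_zero (fun N => (errSq_pos hA hC A N s).le)
        (fun N => le_of_eq_of_le rfl (show errSq A₁ d b C A N s ≤
          c₀ * ((s : ℝ) + 1) ^ (2 * b + 2) * ((N : ℝ) + 1)⁻¹ from ?_)) ?_
      · simp only [errSq, c₀, ← mul_assoc]
        exact mul_le_mul_of_nonneg_left (min_le_left _ _) (by positivity)
      · have h3 : Tendsto (fun N : ℕ => ((N : ℝ) + 1)⁻¹) atTop (𝓝 0) := by
          simpa [one_div] using tendsto_one_div_add_atTop_nhds_zero_nat (𝕜 := ℝ)
        simpa using h3.const_mul (c₀ * ((s : ℝ) + 1) ^ (2 * b + 2))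
    simpa using h1.sqrt
  have hsum : ∀ N, Summable fun s => √(errSq A₁ d b C A N s) := fun N =>
    Summable.of_nonneg_of_le (fun s => Real.sqrt_nonneg _) (hbound N) hg
  have ht := tendsto_tsum_of_dominated_convergence
    (f := fun N s => √(errSq A₁ d b C A N s)) (g := fun _ => (0 : ℝ)) (bound := g) hg hlim
    (Eventually.of_forall fun N s => by
      rw [Real.norm_eq_abs, abs_of_nonneg (Real.sqrt_nonneg _)]
      exact hbound N s)
  rw [tsum_zero] at ht
  obtain ⟨N, hN⟩ := (ht.eventually (gt_mem_nhds hε)).exists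
  exact ⟨N, hsum N, hN⟩

/-- Elementary splitting of a value by a power. -/
lemma abs_le_split {x δ : ℝ} (hδ : 0 < δ) {m : ℕ} (hm : m ≠ 0) :
    |x| ≤ δ + x ^ (2 * m) * δ / (δ ^ 2) ^ m := by
  rcases le_total |x| δ with h | h
  · refine h.trans (le_add_of_nonneg_right ?_)
    rw [pow_mul]
    positivity
  · refine le_trans ?_ (le_add_of_nonneg_left hδ.le)
    have h1 : 1 ≤ |x| / δ := by rw [le_div_iff₀ hδ]; linarith
    have h2 : |x| / δ ≤ (|x| / δ) ^ (2 * m) := le_self_pow₀ h1 (by omega)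
    calc |x| = |x| / δ * δ := by field_simp
      _ ≤ (|x| / δ) ^ (2 * m) * δ := by gcongr
      _ = x ^ (2 * m) * δ / (δ ^ 2) ^ m := by
          rw [div_pow, pow_mul |x|, sq_abs, ← pow_mul, ← pow_mul]
          ring

open Classical in
/-- The fat flow into `-vec e` and the staying thin walk from a lateral base meet with a probability
bounded below. -/
theorem core (hd : 4 * b + 11 ≤ d) (hQ : IsQuenchedLaw Q) (hloc : LocalOut μ e)
    (htrail : TrailOut μ e) {p : ℝ≥0∞} (hp : p ≠ 0)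
    (hps : p ≤ ∫⁻ ω, Q ω 0 (StayEv e) ∂iid μ) (hu : ∀ J, p ≤ u μ e J) {pf : ℝ≥0∞} (hpf : pf ≠ 0)
    (huf : ∀ J, pf ≤ u μ (opp e) J) {C K : ℕ} (hC : 1 ≤ C) (hK : 1 ≤ K) {c : ℝ≥0∞} (hc : c ≠ 0)
    (hmass : ∀ n, ∃ M, 3 ≤ M ∧ c ≤ mass μ e ⟨b, C, K, M⟩ n) :
    ∃ B : Finset (Site d), (∀ a ∈ B, lev e a = 0) ∧ ∃ c' : ℝ≥0∞, c' ≠ 0 ∧ ∀ J, c' ≤ ∑ a ∈ B,
      ∫⁻ ω, (∑' γ, if Pre (opp e) J γ then pw ω (-vec e - dsp γ) γ else 0) * stayP Q e ω a
        ∂iid μ := by
  set q := (d - 1) / 2 with hq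
  obtain ⟨A₀, hA₀⟩ := hloc
  set A₀' := max A₀ 0
  have hA₀' : ∀ P : Par, 3 ≤ P.M → ∀ k y, pointMass μ e P k y ≤
      ENNReal.ofReal (A₀' / ((k : ℝ) + 1) ^ q) := fun P hM k y =>
    (hA₀ P hM k y).trans (ENNReal.ofReal_le_ofReal (div_le_div_of_nonneg_right (le_max_left _ _)
      (by positivity)))
  obtain ⟨A, hA⟩ := htrail pf hpf huf
  set A₁ := A₀' * (2 * (K : ℝ)) ^ q + 1
  have hA₁ : 0 < A₁ := by
    have : (0 : ℝ) ≤ A₀' := le_max_right _ _
    positivity
  set c₁ := pf / 2 * c * p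
  have hc₁ : c₁ ≠ 0 := mul_ne_zero (mul_ne_zero (ENNReal.div_ne_zero.2 ⟨hpf, by norm_num⟩) hc) hp
  obtain ⟨δ₁, hδ₁, hδc⟩ : ∃ δ₁ : ℝ, 0 < δ₁ ∧ δ₁ ≤ 1 ∧ ENNReal.ofReal (2 * δ₁) ≤ c₁ / 2 := by
    rcases eq_or_ne c₁ ∞ with h | h
    · exact ⟨1, one_pos, le_rfl, by rw [h, ENNReal.top_div_of_ne_top (by norm_num)]; exact le_top⟩
    · have h2 : 0 < c₁.toReal := ENNReal.toReal_pos hc₁ h
      refine ⟨min 1 (c₁.toReal / 4), lt_min one_pos (by positivity), min_le_left _ _, ?_⟩
      refine (ENNReal.ofReal_le_ofReal (q := c₁.toReal / 2) ?_).trans (le_of_eq ?_)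
      · linarith [min_le_right (1 : ℝ) (c₁.toReal / 4)]
      · rw [ENNReal.ofReal_div_of_pos two_pos, ENNReal.ofReal_toReal h]
        simp
  obtain ⟨N, hsum, hN⟩ := exists_err_small (b := b) hd hA₁ hC A hδ₁
  obtain ⟨B, hBc, hlev⟩ := exists_base (by omega) e (N + 1)
  have hB : B.Nonempty := Finset.card_pos.1 (by omega)
  refine ⟨B, hlev, c₁ / 2, by simp [hc₁], fun J => ?_⟩
  obtain ⟨M, hM, hmassJ⟩ := hmass J
  set P : Par := ⟨b, C, K, M⟩
  obtain ⟨W, hWm, hWd, hWlow, hW1, hWle, hWsplit⟩ := hA J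
  set δ : ℕ → ℝ := fun s => √(errSq A₁ d b C A N s)
  have hδpos : ∀ s, 0 < δ s := fun s => Real.sqrt_pos.2 (errSq_pos hA₁ hC A N s)
  have hδ2 : ∀ s, δ s ^ 2 = errSq A₁ d b C A N s := fun s =>
    Real.sq_sqrt (errSq_pos hA₁ hC A N s).le
  have hδsum : ∀ s, δ s ≤ δ₁ := fun s =>
    (hsum.le_tsum s fun j _ => Real.sqrt_nonneg _).trans hN.le
  set m : ℕ → ℕ := fun s => (A + 1) * (s + 1)
  have hX : ∀ s, 36 * (meetBound A₀' d B.card P s * ((2 * m s * range' P s : ℕ) : ℝ≥0∞))
      ≤ ENNReal.ofReal (δ s ^ 2 / 2) := by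
    intro s
    rcases Nat.eq_zero_or_pos s with hs | hs
    · subst hs
      simp [meetBound]
    have hU : usup A₀' d B.card K s ≤
        ENNReal.ofReal (min ((N : ℝ) + 1)⁻¹ (A₁ / ((s : ℝ) + 1) ^ q)) := by
      rw [ENNReal.ofReal_min]
      refine min_le_min (le_of_eq ?_) (ENNReal.ofReal_le_ofReal ?_)
      · rw [hBc, ENNReal.ofReal_inv_of_pos (by positivity)]
        congr 1
        rw [show (N : ℝ) + 1 = ((N + 1 : ℕ) : ℝ) by push_cast; ring, ENNReal.ofReal_natCast]
      · have hs' : (0 : ℝ) < s := by exact_mod_cast hs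
        have hss : (s : ℝ) + 1 ≤ 2 * s := by
          have : (1 : ℝ) ≤ s := by exact_mod_cast hs
          linarith
        have hpw : ((s : ℝ) + 1) ^ q ≤ (2 : ℝ) ^ q * (s : ℝ) ^ q := by
          rw [← mul_pow]; exact pow_le_pow_left₀ (by positivity) hss q
        rw [← hq, div_le_div_iff₀ (by positivity) (by positivity)]
        calc A₀' * (K : ℝ) ^ q * ((s : ℝ) + 1) ^ q
            ≤ A₀' * (K : ℝ) ^ q * ((2 : ℝ) ^ q * (s : ℝ) ^ q) :=
              mul_le_mul_of_nonneg_left hpw (mul_nonneg (le_max_right _ _) (by positivity))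
          _ ≤ A₁ * (s : ℝ) ^ q := by
              simp only [A₁, mul_pow]
              nlinarith [show (0 : ℝ) ≤ (s : ℝ) ^ q by positivity]
    have hℓ : range' P s + 1 ≤ 2 * (C * (s + 1) ^ b) := by
      have : 1 ≤ C * (s + 1) ^ b := Nat.one_le_iff_ne_zero.2 (by positivity)
      show C * (s + 1) ^ b + 1 ≤ _
      omega
    calc 36 * (meetBound A₀' d B.card P s * ((2 * m s * range' P s : ℕ) : ℝ≥0∞))
        ≤ 36 * (((s + 1 : ℕ) : ℝ≥0∞) *
            ENNReal.ofReal (min ((N : ℝ) + 1)⁻¹ (A₁ / ((s : ℝ) + 1) ^ q)) *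
            ((2 * (C * (s + 1) ^ b) : ℕ) : ℝ≥0∞) *
            ((2 * ((A + 1) * (s + 1)) * (C * (s + 1) ^ b) : ℕ) : ℝ≥0∞)) := by
          refine mul_le_mul_right (mul_le_mul' ?_ le_rfl) _
          unfold meetBound
          gcongr
          exact Nat.le_succ s
      _ = ENNReal.ofReal (δ s ^ 2 / 2) := by
          rw [hδ2, errSq, show (36 : ℝ≥0∞) = ENNReal.ofReal 36 by simp, ← ENNReal.ofReal_natCast,
            ← ENNReal.ofReal_natCast (2 * (C * (s + 1) ^ b)),
            ← ENNReal.ofReal_natCast (2 * ((A + 1) * (s + 1)) * (C * (s + 1) ^ b)),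
            ← ENNReal.ofReal_mul (by positivity), ← ENNReal.ofReal_mul (by positivity),
            ← ENNReal.ofReal_mul (by positivity), ← ENNReal.ofReal_mul (by positivity)]
          congr 1
          push_cast
          rw [hq]
          ring
  have hX1 : ∀ s, meetBound A₀' d B.card P s * ((2 * m s * range' P s : ℕ) : ℝ≥0∞) ≤ 1 := fun s =>
    (le_mul_of_one_le_left' (by norm_num)).trans ((hX s).trans (ENNReal.ofReal_le_one.2 (by
      have h1 := pow_le_one₀ (hδpos s).le ((hδsum s).trans hδc.1) (n := 2)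
      linarith)))
  have hxi : ∀ s, ∫⁻ ω, W ω * ENNReal.ofReal |xi μ Q e P B J s ω| ∂iid μ
      ≤ ENNReal.ofReal (2 * δ s) := by
    intro s
    obtain ⟨Ds, hDs, V, hV, hWV⟩ := hWsplit s
    have hxm : Measurable fun ω => xi μ Q e P B J s ω := Finset.measurable_sum _ fun i _ =>
      ((measurable_cont hQ _ _ _ _).ennreal_toReal.const_mul _).mul
        ((Bal.measurable_pw _ _).ennreal_toReal.sub_const _)
    have hpowm : Measurable fun ω => ENNReal.ofReal (xi μ Q e P B J s ω ^ (2 * m s)) :=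
      (hxm.pow_const _).ennreal_ofReal
    set r := ENNReal.ofReal (δ s / (δ s ^ 2) ^ m s)
    have hmom : ∫⁻ ω, W ω * ENNReal.ofReal (xi μ Q e P B J s ω ^ (2 * m s)) ∂iid μ
        ≤ ENNReal.ofReal ((δ s ^ 2) ^ m s) := by
      refine (lintegral_mono fun ω => mul_le_mul_left (hWV ω) _).trans ?_
      simp only [Finset.sum_mul]
      rw [lintegral_finsetSum' (μ := iid μ) Ds
        (f := fun D ω => V D ω * ENNReal.ofReal (xi μ Q e P B J s ω ^ (2 * m s)))
        fun D hD => ((hV D hD).1.mul hpowm).aemeasurable]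
      calc ∑ D ∈ Ds, ∫⁻ ω, V D ω * ENNReal.ofReal (xi μ Q e P B J s ω ^ (2 * m s)) ∂iid μ
          ≤ ∑ _D ∈ Ds, ENNReal.ofReal (δ s ^ 2 / 2) ^ m s := by
            refine Finset.sum_le_sum fun D hD => ?_
            refine (xi_moment (P := P) hQ hp hu (le_max_right _ _) (hA₀' P hM) hB (hX1 s)
              (hV D hD).1 ((hV D hD).2.1.mono fun v hv => ?_) hlev).trans ?_
            · have hv' : (s : ℤ) + 1 ≤ lev e v := hv
              show (s : ℤ) ≤ lev e v
              omega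
            · exact (mul_le_mul' (hV D hD).2.2 (pow_le_pow_left₀ zero_le (hX s) _)).trans_eq
                (one_mul _)
        _ ≤ ((2 ^ m s : ℕ) : ℝ≥0∞) * ENNReal.ofReal (δ s ^ 2 / 2) ^ m s := by
            rw [Finset.sum_const, nsmul_eq_mul]
            refine mul_le_mul_left (Nat.cast_le.2 (hDs.trans ?_)) _
            refine Nat.pow_le_pow_right two_pos ?_
            show A * (s + 1) ≤ (A + 1) * (s + 1)
            exact Nat.mul_le_mul_right _ (Nat.le_succ A)
        _ = ENNReal.ofReal ((δ s ^ 2) ^ m s) := by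
            rw [← ENNReal.ofReal_natCast, ← ENNReal.ofReal_pow (by positivity),
              ← ENNReal.ofReal_mul (by positivity)]
            congr 1
            push_cast
            rw [← mul_pow]
            congr 1
            ring
    calc ∫⁻ ω, W ω * ENNReal.ofReal |xi μ Q e P B J s ω| ∂iid μ
        ≤ ∫⁻ ω, (ENNReal.ofReal (δ s) * W ω +
            r * (W ω * ENNReal.ofReal (xi μ Q e P B J s ω ^ (2 * m s)))) ∂iid μ := by
          refine lintegral_mono fun ω => ?_
          refine (mul_le_mul_right (ENNReal.ofReal_le_ofReal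
            (abs_le_split (x := xi μ Q e P B J s ω) (hδpos s) (m := m s) (by positivity))) _).trans
              (le_of_eq ?_)
          rw [ENNReal.ofReal_add (hδpos s).le (by rw [pow_mul]; positivity), mul_add, mul_comm]
          congr 1
          rw [mul_div_assoc, ENNReal.ofReal_mul (by rw [pow_mul]; positivity)]
          ring
      _ = ENNReal.ofReal (δ s) * ∫⁻ ω, W ω ∂iid μ +
            r * ∫⁻ ω, W ω * ENNReal.ofReal (xi μ Q e P B J s ω ^ (2 * m s)) ∂iid μ := by
          rw [lintegral_add_left (hWm.const_mul _), lintegral_const_mul _ hWm,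
            lintegral_const_mul (μ := iid μ) r
              (f := fun ω => W ω * ENNReal.ofReal (xi μ Q e P B J s ω ^ (2 * m s))) (hWm.mul hpowm)]
      _ ≤ ENNReal.ofReal (δ s) * 1 + r * ENNReal.ofReal ((δ s ^ 2) ^ m s) := by gcongr
      _ = ENNReal.ofReal (2 * δ s) := by
          rw [mul_one, ← ENNReal.ofReal_mul (div_nonneg (hδpos s).le (by positivity)),
            div_mul_cancel₀ _ (by have := hδpos s; positivity),
            ← ENNReal.ofReal_add (hδpos s).le (hδpos s).le, two_mul]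
  have hψm : ∀ a, Measurable fun ω => stayP Q e ω a := measurable_stayP hQ
  have hxim : ∀ s, Measurable fun ω => W ω * ENNReal.ofReal |xi μ Q e P B J s ω| := fun s =>
    hWm.mul ((Finset.measurable_sum _ fun i _ =>
      ((measurable_cont hQ _ _ _ _).ennreal_toReal.const_mul _).mul
        ((Bal.measurable_pw _ _).ennreal_toReal.sub_const _)).abs.ennreal_ofReal)
  have hkey : c₁ ≤ (∑ a ∈ B, ∫⁻ ω, W ω * stayP Q e ω a ∂iid μ)
      + ∑ s ∈ Finset.range (K * J + 1), ∫⁻ ω, W ω * ENNReal.ofReal |xi μ Q e P B J s ω| ∂iid μ := by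
    calc c₁ ≤ (∫⁻ ω, W ω ∂iid μ) * mass μ e P J * ∫⁻ ω, Q ω 0 (StayEv e) ∂iid μ := by
          simp only [c₁]; gcongr
      _ = ∫⁻ ω, W ω * ENNReal.ofReal (hybrid μ Q e P B J J ω) ∂iid μ :=
          (lintegral_hybrid_end hQ P hlev hB hWm hWd).symm
      _ ≤ ∫⁻ ω, ((∑ a ∈ B, W ω * stayP Q e ω a) + ∑ s ∈ Finset.range (K * J + 1),
            W ω * ENNReal.ofReal |xi μ Q e P B J s ω|) ∂iid μ := by
          refine lintegral_mono fun ω => ?_
          rw [← Finset.mul_sum, ← Finset.mul_sum, ← mul_add]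
          refine mul_le_mul_right ?_ _
          have h := hybrid_telescope (μ := μ) (e := e) (P := P) (B := B) hQ J ω
          refine le_trans (ENNReal.ofReal_le_ofReal (q := hybrid μ Q e P B J 0 ω
            + ∑ s ∈ Finset.range (K * J + 1), |xi μ Q e P B J s ω|) ?_) ?_
          · have h2 := Finset.abs_sum_le_sum_abs (fun s => xi μ Q e P B J s ω)
              (Finset.range (K * J + 1))
            have h3 := neg_abs_le (∑ s ∈ Finset.range (K * J + 1), xi μ Q e P B J s ω)
            show hybrid μ Q e P B J J ω ≤ _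
            linarith
          · refine ENNReal.ofReal_add_le.trans (add_le_add ((hybrid_zero_le hQ J ω).trans
              (mul_le_of_le_one_left zero_le ?_)) (le_of_eq ?_))
            · exact ENNReal.inv_le_one.2 (Nat.one_le_cast.2 (Finset.card_pos.2 hB))
            · exact ENNReal.ofReal_sum_of_nonneg fun s _ => abs_nonneg _
      _ = _ := by
          rw [lintegral_add_left (Finset.measurable_sum _ fun a _ => hWm.fun_mul (hψm a)),
            lintegral_finsetSum _ fun a _ => hWm.fun_mul (hψm a),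
            lintegral_finsetSum _ fun s _ => hxim s]
  have herr : ∑ s ∈ Finset.range (K * J + 1), ∫⁻ ω, W ω * ENNReal.ofReal |xi μ Q e P B J s ω| ∂iid μ
      ≤ c₁ / 2 := by
    refine (Finset.sum_le_sum fun s _ => hxi s).trans ?_
    rw [← ENNReal.ofReal_sum_of_nonneg fun s _ => (mul_pos two_pos (hδpos s)).le, ← Finset.mul_sum]
    refine (ENNReal.ofReal_le_ofReal (mul_le_mul_of_nonneg_left ?_ two_pos.le)).trans hδc.2
    exact (hsum.sum_le_tsum _ fun s _ => Real.sqrt_nonneg _).trans hN.le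
  calc c₁ / 2 ≤ ∑ a ∈ B, ∫⁻ ω, W ω * stayP Q e ω a ∂iid μ := by
        refine ENNReal.le_of_add_le_add_right (a := c₁ / 2) ?_ ?_
        · refine ne_top_of_le_ne_top ENNReal.one_ne_top ?_
          refine ENNReal.half_le_self.trans ((le_of_eq rfl).trans ?_)
          calc c₁ ≤ (∫⁻ ω, W ω ∂iid μ) * mass μ e P J * ∫⁻ ω, Q ω 0 (StayEv e) ∂iid μ := by
                simp only [c₁]; gcongr
            _ ≤ 1 * 1 * 1 := by
                gcongr
                · refine le_trans (Finset.sum_le_sum fun t _ => ?_)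
                    (sum_tupW_le (P := P) hp hu J)
                  split_ifs <;> simp
                · refine (lintegral_mono (g := fun _ => (1 : ℝ≥0∞)) fun ω => ?_).trans_eq (by simp)
                  have := hQ.prob ω 0
                  exact prob_le_one
            _ = 1 := by simp
        · rw [ENNReal.add_halves]
          exact hkey.trans (add_le_add le_rfl herr)
    _ ≤ _ := Finset.sum_le_sum fun a _ => lintegral_mono fun ω => mul_le_mul_left (hWle ω) _

end Vale.Agent.P147.Thin
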