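import Vale.Agent.P147.Bal.Oscillate.Few
import Vale.Agent.P147.Bal.Limit

/-!
# Escape with polynomial range: basic objects (see DESIGN.md)
-/

open MeasureTheory Set Filter Topology
open scoped ENNReal

namespace Vale.Agent.P147.Thin

open Vale.Agent.P147.Proj (dsp verts iid)
open Vale.Agent.P147.Bal (lev pw cw Irr hgt Pre Adm)

variable {d : ℕ}

/-- The opposite signed axis. -/
def opp (e : Step d) : Step d := (e.1, !e.2)

/-- The number of distinct sites visited before reaching relative level `J` along `e` is at most
`C (J + 1) ^ b`. -/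
def RangeBound (e : Step d) (b C : ℕ) : Set (ℕ → Site d) :=
  {X | ∀ n J : ℕ, (∀ k < n, lev e (X k) - lev e (X 0) < (J : ℤ)) →
    ((Finset.range n).image X).card ≤ C * (J + 1) ^ b}

/-- Escape along `e` with polynomially bounded range. -/
def thinEscape (e : Step d) (b : ℕ) : Set (ℕ → Site d) :=
  {X | Tendsto (fun n => (lev e (X n) : ℝ)) atTop atTop ∧ ∃ C : ℕ, X ∈ RangeBound e b C}

/-- The paths which never go below the level of their start. -/
def StayEv (e : Step d) : Set (ℕ → Site d) := {X | ∀ k, lev e (X 0) ≤ lev e (X k)}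

/-- `f` reads only the rows at the sites of `S`. -/
def DepOnSet {α : Type*} (f : Env d → α) (S : Set (Site d)) : Prop :=
  ∀ ω ω', (∀ x ∈ S, ω x = ω' x) → f ω = f ω'

/-- The rows of `ω` on `S` and of `ω'` elsewhere. -/
noncomputable def merge (S : Set (Site d)) (z : Env d × Env d) : Env d :=
  open Classical in fun x => if x ∈ S then z.1 x else z.2 x

open Classical in
/-- The irreducible prefixes of length less than `M`. -/
noncomputable def capPieces (e : Step d) (M : ℕ) : Finset (List (Step d)) :=
  (Proj.short M).filter fun γ => Irr e γ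

/-- The total height of finitely many step lists. -/
def hsum (e : Step d) {k : ℕ} (t : Fin k → List (Step d)) : ℕ := ∑ i, hgt e (t i)

/-- The total displacement of finitely many step lists. -/
def tsumDsp {k : ℕ} (t : Fin k → List (Step d)) : Site d := ∑ i, dsp (t i)

/-- The piece `η` may follow `k` pieces of total height `r`. -/
def Ok (e : Step d) (b C K k r : ℕ) (η : List (Step d)) : Prop :=
  (verts 0 η).toFinset.card ≤ C * (r + hgt e η + 1) ^ b ∧ r + hgt e η ≤ K * (k + 1)

/-- Finitely many pieces each of which may follow the earlier ones. -/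
def GoodSeq (e : Step d) (b C K : ℕ) : ∀ {k : ℕ}, (Fin k → List (Step d)) → Prop
  | 0, _ => True
  | k + 1, t => GoodSeq e b C K (Fin.init t) ∧
      Ok e b C K k (hsum e (Fin.init t)) (t (Fin.last k))

/-- The parameters of a truncated flow of pieces. -/
structure Par where
  b : ℕ
  C : ℕ
  K : ℕ
  M : ℕ

/-- `k` capped pieces. -/
abbrev Tup (e : Step d) (P : Par) (k : ℕ) : Type := Fin k → ↥(capPieces e P.M)

/-- The lists of a tuple of capped pieces. -/
def Tup.lists {e : Step d} {P : Par} {k : ℕ} (t : Tup e P k) : Fin k → List (Step d) :=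
  fun i => (t i).1

/-- The annealed weight of a tuple of pieces. -/
noncomputable def tupW (μ : Measure (Row d)) {e : Step d} {P : Par} {k : ℕ} (t : Tup e P k) : ℝ≥0∞ :=
  ∏ i, cw μ (t i).1

/-- The good tuples. -/
def Tup.Good {e : Step d} {P : Par} {k : ℕ} (t : Tup e P k) : Prop :=
  GoodSeq e P.b P.C P.K t.lists

open Classical in
/-- The mass of `n` good capped pieces. -/
noncomputable def mass (μ : Measure (Row d)) (e : Step d) (P : Par) (n : ℕ) : ℝ≥0∞ :=
  ∑ t : Tup e P n, if t.Good then tupW μ t else 0

open Classical in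
/-- The mass of `k` capped pieces with displacement `y`. -/
noncomputable def pointMass (μ : Measure (Row d)) (e : Step d) (P : Par) (k : ℕ) (y : Site d) :
    ℝ≥0∞ :=
  ∑ t : Tup e P k, if tsumDsp t.lists = y then tupW μ t else 0

end Vale.Agent.P147.Thin
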