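import Vale.Agent.P147.Thin.Out

/-!
# Invariant events at the ends of prefixes, and the rows read by staying events
-/

open MeasureTheory Set Filter Topology
open scoped ENNReal symmDiff

namespace Vale.Agent.P147.Thin

open Vale.Agent.P147.Proj (dsp verts iid Invariant)
open Vale.Agent.P147.Bal (lev pw pq Pre lcyl)

variable {d : ℕ} {μ : Measure (Row d)} {Q : Env d → Site d → Measure (ℕ → Site d)}

lemma lcyl_take_eq {x : Site d} {γ γ' : List (Step d)} {X : ℕ → Site d} (h : X ∈ lcyl x γ)
    (h' : X ∈ lcyl x γ') : ∀ k, k ≤ γ.length → k ≤ γ'.length → γ.take k = γ'.take k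
  | 0, _, _ => by simp
  | k + 1, hk, hk' => by
      have ih := lcyl_take_eq h h' k (by omega) (by omega)
      have e1 := List.take_concat_get' γ k hk
      have e2 := List.take_concat_get' γ' k hk'
      have a1 := h (k + 1) hk
      rw [h' (k + 1) hk', ← e1, ← e2, ih, Proj.dsp_append, Proj.dsp_append] at a1
      have a3 : vec γ[k] = vec γ'[k] := by
        simpa [dsp] using (add_left_cancel (add_left_cancel a1)).symm
      rw [← e1, ← e2, ih, Bal.vec_inj a3]

/-- A family of step lists without proper extensions has disjoint cylinders. -/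
lemma pairwiseDisjoint_lcyl {x : Site d} {A : Set (List (Step d))}
    (hA : ∀ γ δ, γ ∈ A → γ ++ δ ∈ A → δ = []) : A.PairwiseDisjoint (lcyl x) := by
  intro γ hγ γ' hγ' hne
  refine Set.disjoint_left.2 fun X h h' => hne ?_
  rcases le_total γ.length γ'.length with hl | hl
  · have e := lcyl_take_eq h h' γ.length le_rfl hl
    rw [List.take_length] at e
    have e2 : γ'.drop γ.length = [] :=
      hA γ _ hγ (by rw [e, List.length_take_of_le hl, List.take_append_drop]; exact hγ')
    rw [e, List.take_of_length_le (List.drop_eq_nil_iff.1 e2)]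
  · have e := lcyl_take_eq h' h γ'.length le_rfl hl
    rw [List.take_length] at e
    have e2 : γ.drop γ'.length = [] :=
      hA γ' _ hγ' (by rw [e, List.length_take_of_le hl, List.take_append_drop]; exact hγ)
    rw [e, List.take_of_length_le (List.drop_eq_nil_iff.1 e2)]

/-- The Markov property at the end of a step list. -/
lemma apply_lcyl_inter (hQ : IsQuenchedLaw Q) (ω : Env d) {S : Set (ℕ → Site d)}
    (hS : MeasurableSet S) (γ : List (Step d)) :
    ∀ x : Site d, Q ω x (lcyl x γ ∩ (ptail^[γ.length]) ⁻¹' S)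
      = pw ω x γ * Q ω (x + dsp γ) S := by
  induction γ with
  | nil =>
      intro x
      have e : (lcyl x ([] : List (Step d)) ∩ (ptail^[0]) ⁻¹' S : Set (ℕ → Site d))
          =ᵐ[Q ω x] S := by
        refine Filter.eventuallyEq_set.2 ?_
        filter_upwards [hQ.ae_start ω x] with X hX
        simp [lcyl, hX]
      rw [List.length_nil, measure_congr e]
      simp [pw, Proj.wt]
  | cons a γ ih =>
      intro x
      have hm : MeasurableSet (lcyl (x + vec a) γ ∩ (ptail^[γ.length]) ⁻¹' S) :=
        (Bal.measurableSet_lcyl _ _).inter ((measurable_ptail.iterate _) hS)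
      have e : (lcyl x (a :: γ) ∩ (ptail^[(a :: γ).length]) ⁻¹' S : Set (ℕ → Site d))
          =ᵐ[Q ω x] ptail ⁻¹' (lcyl (x + vec a) γ ∩ (ptail^[γ.length]) ⁻¹' S) := by
        refine Filter.eventuallyEq_set.2 ?_
        filter_upwards [hQ.ae_start ω x] with X hX
        have hl : X ∈ lcyl x (a :: γ) ↔ ptail X ∈ lcyl (x + vec a) γ := by
          constructor
          · intro h k hk
            have := h (k + 1) (by simp; omega)
            simpa [ptail, add_assoc] using this
          · intro h k hk
            cases k with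
            | zero => simpa using hX
            | succ k =>
                have := h k (by simpa using hk)
                simpa [ptail, add_assoc] using this
        simp only [mem_inter_iff, mem_preimage, hl, List.length_cons, Function.iterate_succ_apply]
      rw [measure_congr e, Bal.apply_ptail hQ ω x hm, Finset.sum_eq_single a]
      · rw [ih, Proj.dsp_cons, ← add_assoc]
        simp [pw, Proj.wt, mul_assoc]
      · intro b _ hb
        refine mul_eq_zero_of_right _ ?_
        rw [measure_eq_zero_iff_ae_notMem]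
        filter_upwards [hQ.ae_start ω (x + vec b)] with X hX h
        have h0 := h.1 0 (Nat.zero_le _)
        rw [hX] at h0
        simp at h0
        exact hb (Bal.vec_inj h0)
      · simp

lemma ptail_mem_iff {A : Set (ℕ → Site d)} (hinv : Invariant A) (X : ℕ → Site d) :
    ptail X ∈ A ↔ X ∈ A := by
  have e : pcons (X 0) (ptail X) = X := by
    funext k
    cases k <;> rfl
  calc ptail X ∈ A ↔ ptail X ∈ pcons (X 0) ⁻¹' A := by rw [hinv.1]
    _ ↔ X ∈ A := by rw [mem_preimage, e]

lemma iterate_mem_iff {A : Set (ℕ → Site d)} (hinv : Invariant A) :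
    ∀ (n : ℕ) (X : ℕ → Site d), (ptail^[n]) X ∈ A ↔ X ∈ A
  | 0, _ => Iff.rfl
  | n + 1, X => by
      rw [Function.iterate_succ_apply, iterate_mem_iff hinv n (ptail X), ptail_mem_iff hinv]

/-- Prefixes reach their level in no fewer steps. -/
lemma le_length_of_pre {g : Step d} {J : ℕ} {γ : List (Step d)} (h : Pre g J γ) :
    J ≤ γ.length := by
  have := Bal.lev_dsp_le_length g γ
  rw [h.2] at this
  exact_mod_cast this

open Classical in
theorem flatEndOut [IsProbabilityMeasure μ] (hQ : IsQuenchedLaw Q) : FlatEndOut μ Q := by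
  intro g S hS hinv
  set P : Measure (ℕ → Site d) := (iid μ).bind (fun ω => Q ω 0) with hP_def
  have hP : ∀ T, MeasurableSet T → P T = ∫⁻ ω, Q ω 0 T ∂iid μ := fun T hT =>
    Measure.bind_apply hT (hQ.measurable 0).aemeasurable
  have : IsProbabilityMeasure P := ⟨by
    rw [hP _ MeasurableSet.univ, lintegral_congr fun ω => (hQ.prob ω 0).measure_univ]
    simp⟩
  refine ENNReal.tendsto_atTop_zero.2 fun ε hε => ?_
  obtain ⟨B, hB, hBS⟩ := exists_measure_symmDiff_lt_of_generateFrom_isSetRing (μ := P)
    (C := measurableCylinders fun _ : ℕ => Site d) isSetRing_measurableCylinders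
    ⟨{univ}, countable_singleton _, singleton_subset_iff.2 (univ_mem_measurableCylinders _), by simp⟩
    generateFrom_measurableCylinders.symm hS hε
  have hBm : MeasurableSet B := MeasurableSet.of_mem_measurableCylinders hB
  obtain ⟨s, T, hT, rfl⟩ := (mem_measurableCylinders _).1 hB
  refine ⟨s.sup id, fun J hJ => ?_⟩
  have hdec : ∀ γ, Pre g J γ → ∀ X Y, X ∈ lcyl (0 : Site d) γ → Y ∈ lcyl (0 : Site d) γ →
      X ∈ cylinder s T → Y ∈ cylinder s T := by
    intro γ hγ X Y hX hY h
    have e : s.restrict X = s.restrict Y := funext fun k => by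
      have hk : (k : ℕ) ≤ γ.length :=
        ((Finset.le_sup (f := id) k.2).trans hJ).trans (le_length_of_pre hγ)
      simp only [Finset.restrict]
      rw [hX k hk, hY k hk]
    rw [mem_cylinder] at h ⊢
    rwa [← e]
  have hmD : MeasurableSet (cylinder s T ∆ S) := hBm.symmDiff hS
  have hmark : ∀ (ω : Env d) γ, ∀ A, MeasurableSet A → Invariant A →
      pw ω 0 γ * Q ω (dsp γ) A = Q ω 0 (lcyl 0 γ ∩ A) := by
    intro ω γ A hA hinvA
    have := apply_lcyl_inter hQ ω hA γ 0
    rw [zero_add] at this
    rw [← this]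
    congr 1
    ext X
    simp [iterate_mem_iff hinvA]
  have hinvc : Invariant Sᶜ := ⟨fun x => by rw [preimage_compl, hinv.1],
    fun z => by rw [preimage_compl, hinv.2]⟩
  have hbound : ∀ ω, ∑' γ, (if Pre g J γ then
      pw ω 0 γ * (Q ω (dsp γ) S * Q ω (dsp γ) Sᶜ) else 0) ≤ Q ω 0 (cylinder s T ∆ S) := by
    intro ω
    refine le_trans (ENNReal.tsum_le_tsum (g := fun γ =>
      {γ | Pre g J γ}.indicator (fun γ => Q ω 0 (lcyl 0 γ ∩ (cylinder s T ∆ S))) γ) fun γ => ?_) ?_
    · by_cases h : Pre g J γ
      swap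
      · simp [h]
      rw [if_pos h, indicator_of_mem (show γ ∈ {γ | Pre g J γ} from h)]
      have := hQ.prob ω (dsp γ)
      show _ ≤ Q ω 0 (lcyl 0 γ ∩ (cylinder s T ∆ S))
      by_cases hin : ∃ X ∈ lcyl (0 : Site d) γ, X ∈ cylinder s T
      · obtain ⟨X, hX, hXB⟩ := hin
        calc pw ω 0 γ * (Q ω (dsp γ) S * Q ω (dsp γ) Sᶜ)
            ≤ pw ω 0 γ * Q ω (dsp γ) Sᶜ :=
              mul_le_mul_right (mul_le_of_le_one_left zero_le prob_le_one) _
          _ = Q ω 0 (lcyl 0 γ ∩ Sᶜ) := hmark ω γ _ hS.compl hinvc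
          _ ≤ Q ω 0 (lcyl 0 γ ∩ (cylinder s T ∆ S)) := measure_mono fun Y hY =>
              ⟨hY.1, Or.inl ⟨hdec γ h X Y hX hY.1 hXB, hY.2⟩⟩
      · push Not at hin
        calc pw ω 0 γ * (Q ω (dsp γ) S * Q ω (dsp γ) Sᶜ)
            ≤ pw ω 0 γ * Q ω (dsp γ) S :=
              mul_le_mul_right (mul_le_of_le_one_right zero_le prob_le_one) _
          _ = Q ω 0 (lcyl 0 γ ∩ S) := hmark ω γ _ hS hinv
          _ ≤ Q ω 0 (lcyl 0 γ ∩ (cylinder s T ∆ S)) := measure_mono fun Y hY => ⟨hY.1, Or.inr ⟨hY.2, hin Y hY.1⟩⟩
    · rw [← tsum_subtype {γ | Pre g J γ}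
        (fun γ => Q ω 0 (lcyl 0 γ ∩ (cylinder s T ∆ S))),
        ← measure_biUnion (f := fun γ => lcyl 0 γ ∩ (cylinder s T ∆ S))
          (Set.to_countable {γ | Pre g J γ}) ?_
          (fun γ _ => (Bal.measurableSet_lcyl _ _).inter hmD)]
      · exact measure_mono (iUnion₂_subset fun γ _ => inter_subset_right)
      · exact (pairwiseDisjoint_lcyl (A := {γ | Pre g J γ})
          fun γ δ (h : Pre g J γ) (h' : Pre g J (γ ++ δ)) => Bal.pre_prefix_free h h').mono_on
          fun γ _ => inter_subset_left
  refine (lintegral_mono hbound).trans ?_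
  rw [← hP _ hmD]
  exact hBS.le

open Classical in
theorem stayDepOut (hQ : IsQuenchedLaw Q) : StayDepOut Q := by
  intro g x S hS ω ω' hag
  have hmE : MeasurableSet (StayEv (d := d) g) := by
    simp only [StayEv, ofPred_forall]
    exact MeasurableSet.iInter fun k => measurableSet_le
      ((measurable_of_countable (lev g)).comp (measurable_pi_apply 0))
      ((measurable_of_countable (lev g)).comp (measurable_pi_apply k))
  have key : ∀ (n : ℕ) (v : ℕ → Site d),
      Q ω x (cyl n v ∩ StayEv g) = Q ω' x (cyl n v ∩ StayEv g) := by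
    intro n v
    set B : ℕ → Set (ℕ → Site d) := fun M =>
      cyl n v ∩ {X | ∀ k ≤ n + M, lev g (X 0) ≤ lev g (X k)} with hB
    have hmB : ∀ M, MeasurableSet (B M) := fun M => by
      refine (measurableSet_cyl n v).inter ?_
      simp only [ofPred_forall]
      exact MeasurableSet.iInter fun k => MeasurableSet.iInter fun _ => measurableSet_le
        ((measurable_of_countable (lev g)).comp (measurable_pi_apply 0))
        ((measurable_of_countable (lev g)).comp (measurable_pi_apply k))
    have hanti : Antitone B := fun a b hab X hX =>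
      ⟨hX.1, fun k hk => hX.2 k (hk.trans (by omega))⟩
    have heq : cyl n v ∩ StayEv g = ⋂ M, B M := by
      ext X
      simp only [hB, StayEv, mem_inter_iff, mem_iInter, mem_ofPred_eq]
      exact ⟨fun h M => ⟨h.1, fun k _ => h.2 k⟩,
        fun h => ⟨(h 0).1, fun k => (h k).2 k (by omega)⟩⟩
    have hfin : ∀ (η : Env d) M, Q η x (B M) = ∑ γ ∈ (Proj.short (n + M + 1)).filter fun γ =>
        γ.length = n + M ∧ (∀ k ≤ n, x + dsp (γ.take k) = v k) ∧
          ∀ k ≤ n + M, lev g x ≤ lev g (x + dsp (γ.take k)), pw η x γ := by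
      intro η M
      rw [← Finset.sum_congr rfl fun γ _ => Bal.apply_lcyl hQ η γ x,
        ← measure_biUnion_finset ((pairwiseDisjoint_lcyl (A := {γ | γ.length = n + M}) ?_).subset
          ?_) fun γ _ => Bal.measurableSet_lcyl _ _]
      · refine measure_congr (Filter.eventuallyEq_set.2 ?_)
        filter_upwards [hQ.ae_start η x, Bal.ae_nnPaths hQ η x] with X h0 hnn
        obtain ⟨γ, hl, hγ⟩ := Bal.exists_steps (n + M) X hnn
        rw [h0] at hγ
        simp only [hB, cyl, mem_inter_iff, mem_ofPred_eq, mem_iUnion, Finset.mem_filter,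
          exists_prop]
        constructor
        · rintro ⟨h1, h2⟩
          refine ⟨γ, ⟨Proj.mem_short.2 (by omega), hl, fun k hk => ?_, fun k hk => ?_⟩, hγ⟩
          · rw [← hγ k (by omega)]
            exact h1 k hk
          · rw [← hγ k (by omega), ← h0]
            exact h2 k hk
        · rintro ⟨δ, ⟨-, hδl, hδv, hδs⟩, hδ⟩
          refine ⟨fun k hk => ?_, fun k hk => ?_⟩
          · rw [hδ k (by omega)]
            exact hδv k hk
          · rw [h0, hδ k (by omega)]
            exact hδs k hk
      · intro γ δ h h'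
        simp only [mem_ofPred_eq, List.length_append] at h h'
        exact List.length_eq_zero_iff.1 (by omega)
      · intro γ hγ
        exact (Finset.mem_filter.1 hγ).2.1
    have := hQ.prob ω x
    have := hQ.prob ω' x
    rw [heq, hanti.measure_iInter (fun M => (hmB M).nullMeasurableSet) ⟨0, measure_ne_top _ _⟩,
      hanti.measure_iInter (fun M => (hmB M).nullMeasurableSet) ⟨0, measure_ne_top _ _⟩]
    refine iInf_congr fun M => ?_
    rw [hfin, hfin]
    refine Finset.sum_congr rfl fun γ hγ => Proj.wt_congr _ _ _ fun w hw => ?_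
    obtain ⟨-, hl, -, hs⟩ := Finset.mem_filter.1 hγ
    refine hag w ?_
    have hw2 : w - x ∈ verts 0 γ := by
      rw [← Bal.mem_verts_shift, zero_add]
      exact hw
    obtain ⟨k, hk, hke⟩ := Bal.exists_of_mem_verts γ 0 _ hw2
    have hwk : w = x + dsp (γ.take k) := by
      rw [← sub_add_cancel w x, hke, zero_add, add_comm]
    rw [mem_ofPred_eq, hwk]
    exact hs k (by omega)
  have := hQ.prob ω x
  have := hQ.prob ω' x
  have hfull : Q ω x (StayEv g) = Q ω' x (StayEv g) := by
    have e : ∀ η, Q η x (StayEv g) = Q η x (cyl 0 (fun _ => x) ∩ StayEv g) := fun η => by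
      refine measure_congr (Filter.eventuallyEq_set.2 ?_)
      filter_upwards [hQ.ae_start η x] with X hX
      simp [cyl, hX]
    rw [e ω, e ω', key]
  have hext : (Q ω x).restrict (StayEv g) = (Q ω' x).restrict (StayEv g) := by
    refine ext_of_generate_finite (cyls d) generateFrom_cyls isPiSystem_cyls ?_ ?_
    · rintro _ ⟨n, v, rfl⟩
      rw [Measure.restrict_apply (measurableSet_cyl n v),
        Measure.restrict_apply (measurableSet_cyl n v)]
      exact key n v
    · simpa using hfull
  show Q ω x (S ∩ StayEv g) = Q ω' x (S ∩ StayEv g)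
  rw [← Measure.restrict_apply hS, ← Measure.restrict_apply hS, hext]

end Vale.Agent.P147.Thin
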