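import Vale.Agent.P147.Thin.Out

/-!
# Confinement in a slab

From every new lateral record a straight line of fresh steps leaves the slab, so confinement is
geometric in the number of records. A finite box is left almost surely by ellipticity (maximum
principle), hence slabs are left almost surely.
-/

open MeasureTheory Set Filter Topology
open scoped ENNReal

namespace Vale.Agent.P147.Thin

open Vale.Agent.P147.Proj (dsp verts iid)
open Vale.Agent.P147.Bal (lev pw pq cw Hit1 lcyl)

variable {d : ℕ} {μ : Measure (Row d)} [IsProbabilityMeasure μ]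
  {Q : Env d → Site d → Measure (ℕ → Site d)}

omit [IsProbabilityMeasure μ] in
lemma dsp_replicate (g : Step d) (H : ℕ) : dsp (List.replicate H g) = H • vec g := by
  simp [dsp]

omit [IsProbabilityMeasure μ] in
lemma mem_verts_replicate {g : Step d} :
    ∀ {H : ℕ} {x v : Site d}, v ∈ verts x (List.replicate H g) ↔ ∃ i < H, v = x + i • vec g := by
  intro H
  induction H with
  | zero => simp [verts]
  | succ H ih =>
      intro x v
      rw [List.replicate_succ]
      simp only [verts, List.mem_cons, ih]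
      constructor
      · rintro (rfl | ⟨i, hi, rfl⟩)
        · exact ⟨0, by omega, by simp⟩
        · exact ⟨i + 1, by omega, by rw [add_smul, one_smul]; abel⟩
      · rintro ⟨i, hi, rfl⟩
        cases i with
        | zero => simp
        | succ i => exact Or.inr ⟨i, by omega, by rw [add_smul, one_smul]; abel⟩

omit [IsProbabilityMeasure μ] in
lemma lev_nsmul (g : Step d) (i : ℕ) (x : Site d) : lev g (i • x) = i * lev g x := by
  induction i with
  | zero => simp
  | succ i ih => rw [succ_nsmul, Bal.lev_add, ih]; push_cast; ring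

omit [IsProbabilityMeasure μ] in
lemma pq_le_one (r : Row d) (g : Step d) : pq r g ≤ 1 :=
  (Finset.single_le_sum (f := fun a => pq r a) (fun _ _ => bot_le) (Finset.mem_univ g)).trans
    (Bal.sum_pq r).le

lemma qstep_le_one (g : Step d) : qstep μ g ≤ 1 :=
  (lintegral_mono fun r => pq_le_one r g).trans (by simp)

lemma qstep_ne_zero (hell : ∀ᵐ r ∂μ, ∀ a : Step d, 0 < r.1 a) (g : Step d) : qstep μ g ≠ 0 := by
  intro h
  rw [qstep, lintegral_eq_zero_iff (Bal.measurable_pq g)] at h
  obtain ⟨r, hr, hr0⟩ := (hell.and h).exists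
  simp [pq, not_le.2 (hr g)] at hr0

lemma cw_single (g : Step d) : cw μ [g] = qstep μ g := by
  have h : ∀ ω : Env d, pw ω 0 [g] = pq (ω 0) g := fun ω => by simp [pw, Proj.wt]
  simp only [cw, h, qstep]
  exact (measurePreserving_eval_infinitePi (fun _ : Site d => μ) 0).lintegral_comp
    (Bal.measurable_pq g)

lemma cw_replicate (g : Step d) : ∀ H, cw μ (List.replicate H g) = qstep μ g ^ H
  | 0 => by simp [Bal.cw_nil]
  | H + 1 => by
      rw [pow_succ', ← cw_replicate g H, ← cw_single g, ← Bal.lintegral_pw_mul_disjoint (μ := μ)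
        (x := (0 : Site d)) (y := 0 + dsp [g]) (γ := [g]) (δ := List.replicate H g) ?_, cw]
      · refine lintegral_congr fun ω => ?_
        rw [← Bal.pw_append]
        rfl
      · intro v hv hv'
        simp only [verts, List.mem_singleton] at hv
        obtain ⟨i, -, hi⟩ := mem_verts_replicate.1 hv'
        subst hv
        have := congrArg (lev g) hi
        rw [Bal.lev_add, lev_nsmul, Bal.lev_add, Bal.lev_zero, Proj.dsp_cons, Proj.dsp_nil,
          add_zero, Bal.lev_vec_self] at this
        omega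

omit [IsProbabilityMeasure μ] in
lemma confSet_prefix_free (g a : Step d) (lo : ℤ) (H m : ℕ) (γ δ : List (Step d))
    (h : γ ∈ confSet g a lo H m) (h' : γ ++ δ ∈ confSet g a lo H m) : δ = [] :=
  Bal.hit1_prefix_free h.1 h'.1

lemma conf_zero_le (g a : Step d) (lo : ℤ) (H : ℕ) :
    ∑' γ, (confSet g a lo H 0).indicator (cw μ) γ ≤ 1 := by
  rw [Bal.tsum_cw_le_lintegral]
  refine (lintegral_mono fun ω =>
    Bal.tsum_pw_le_one _ (confSet_prefix_free g a lo H 0) ω 0).trans ?_
  simp

lemma conf_succ (g a : Step d) (ha : a.1 ≠ g.1) (lo : ℤ) (H m : ℕ) :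
    (∑' γ, (confSet g a lo H (m + 1)).indicator (cw μ) γ)
        + qstep μ g ^ H * ∑' γ, (confSet g a lo H m).indicator (cw μ) γ
      ≤ ∑' γ, (confSet g a lo H m).indicator (cw μ) γ := by
  classical
  set A := confSet g a lo H m
  set S := confSet g a lo H (m + 1)
  set R := List.replicate H g
  set B := (fun η => η ++ R) '' A
  have hperp : lev a (vec g) = 0 := Bal.lev_vec_ne a g (Ne.symm ha)
  -- the first arrival at the record `m`
  have hsplit : ∀ γ ∈ S, ∃ η δ, γ = η ++ δ ∧ η ∈ A ∧ δ ≠ [] ∧
      lo ≤ lev g (dsp η) ∧ lev g (dsp η) < lo + H := by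
    intro γ hγ
    obtain ⟨η, δ, rfl, h1, h2⟩ := Bal.exists_climb γ (e := a) (t := (m : ℤ)) (0 : Site d)
      (by simp) (by rw [hγ.1.2]; omega)
    have hδ : δ ≠ [] := by
      rintro rfl
      have := hγ.1.2
      rw [List.append_nil, h2] at this
      omega
    refine ⟨η, δ, rfl, ⟨⟨h1, h2⟩, fun v hv => hγ.2 v (Bal.mem_verts_append.2 (Or.inl hv))⟩,
      hδ, hγ.2 _ (Bal.mem_verts_append.2 (Or.inr ?_))⟩
    rw [sub_self]
    exact Bal.self_mem_verts 0 hδ
  have heq : ∀ η η' δ δ', η ∈ A → η' ∈ A → η ++ δ = η' ++ δ' → η = η' := by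
    intro η η' δ δ' h h' he
    rcases List.append_eq_append_iff.1 he with ⟨x, rfl, -⟩ | ⟨x, rfl, -⟩
    · rw [confSet_prefix_free g a lo H m η x h h', List.append_nil]
    · rw [confSet_prefix_free g a lo H m η' x h' h, List.append_nil]
  have hRlev : ∀ η ∈ A, lev a (dsp (η ++ R)) = m := by
    intro η hη
    have := hη.1.2
    rw [zero_add] at this
    rw [Proj.dsp_append, dsp_replicate, Bal.lev_add, lev_nsmul, hperp, this]
    simp
  have hSB : ∀ γ, γ ∈ S → γ ∉ B := by
    rintro γ hγ ⟨η, hη, rfl⟩
    have := hγ.1.2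
    rw [zero_add, hRlev η hη] at this
    omega
  -- the family is prefix-free
  have hfree : ∀ γ δ, γ ∈ S ∪ B → γ ++ δ ∈ S ∪ B → δ = [] := by
    rintro γ δ (hγ | ⟨η, hη, rfl⟩) (h' | ⟨η', hη', he⟩)
    · exact confSet_prefix_free g a lo H (m + 1) γ δ hγ h'
    · -- a path to `m + 1` followed by more would have to be inside the straight line
      simp only at he
      obtain ⟨η₀, δ₀, rfl, h0, -, -, -⟩ := hsplit γ hγ
      rw [List.append_assoc] at he
      obtain rfl := heq η₀ η' _ _ h0 hη' he.symm
      have hR := (List.append_cancel_left he).symm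
      obtain ⟨n, hn⟩ : ∃ n, δ₀ = List.replicate n g := ⟨δ₀.length, List.eq_replicate_iff.2
        ⟨rfl, fun b hb => List.eq_of_mem_replicate
          (show b ∈ R by rw [← hR]; exact List.mem_append_left _ hb)⟩⟩
      have := hγ.1.2
      rw [hn, zero_add, Proj.dsp_append, dsp_replicate, Bal.lev_add, lev_nsmul, hperp] at this
      have h2 := h0.1.2
      rw [zero_add] at h2
      omega
    · -- the straight line leaves the slab
      obtain ⟨η₀, δ₀, he, h0, -, hlo, -⟩ := hsplit _ h'
      simp only [List.append_assoc] at he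
      obtain rfl := heq η η₀ _ _ hη h0 he
      by_contra hδ
      have hv := h'.2 (dsp (η ++ R)) (Bal.mem_verts_append.2 (Or.inr (by
        rw [sub_self]; exact Bal.self_mem_verts 0 hδ)))
      rw [Proj.dsp_append, dsp_replicate, Bal.lev_add, lev_nsmul, Bal.lev_vec_self] at hv
      omega
    · simp only [List.append_assoc] at he
      obtain rfl := heq η' η _ _ hη' hη he
      simpa using List.append_cancel_left he
  have hcut := Bal.tsum_cut_le (μ := μ) (F := fun _ => (1 : ℝ≥0∞)) measurable_const (0 : Site d)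
    (S ∪ B) A hfree (by
      rintro γ (hγ | ⟨η, hη, rfl⟩)
      · obtain ⟨η, δ, rfl, h0, -⟩ := hsplit γ hγ
        exact ⟨η, δ, rfl, h0⟩
      · exact ⟨η, R, rfl, hη⟩)
  simp only [one_mul] at hcut
  have hB : qstep μ g ^ H * ∑' γ, A.indicator (cw μ) γ ≤ ∑' κ, B.indicator (cw μ) κ := by
    rw [← ENNReal.tsum_mul_left]
    refine le_trans (ENNReal.tsum_le_tsum fun η => ?_)
      (ENNReal.tsum_comp_le_tsum_of_injective (f := fun η => η ++ R)
        (fun x y h => List.append_cancel_right h) _)
    by_cases hη : η ∈ A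
    swap
    · simp [hη]
    rw [indicator_of_mem hη, indicator_of_mem (show η ++ R ∈ B from ⟨η, hη, rfl⟩)]
    refine le_of_eq ?_
    rw [mul_comm, ← cw_replicate, ← Bal.lintegral_pw_mul_disjoint (μ := μ) (x := (0 : Site d))
      (y := 0 + dsp η) (γ := η) (δ := R) ?_]
    · exact lintegral_congr fun ω => (Bal.pw_append ω 0 η R).symm
    · intro v hv hv'
      obtain ⟨i, -, hi⟩ := mem_verts_replicate.1 hv'
      have h1 := hη.1.1 v hv
      have h2 := hη.1.2
      rw [zero_add] at h2
      rw [hi, zero_add, Bal.lev_add, lev_nsmul, hperp, h2] at h1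
      omega
  refine (add_le_add le_rfl hB).trans (le_trans (le_of_eq ?_) hcut)
  rw [← ENNReal.tsum_add]
  refine tsum_congr fun γ => ?_
  by_cases h1 : γ ∈ S
  · rw [indicator_of_mem h1, indicator_of_notMem (hSB γ h1),
      indicator_of_mem (show γ ∈ S ∪ B from Or.inl h1), add_zero]
    rfl
  · by_cases h2 : γ ∈ B
    · rw [indicator_of_notMem h1, indicator_of_mem h2,
        indicator_of_mem (show γ ∈ S ∪ B from Or.inr h2), zero_add]
      rfl
    · rw [indicator_of_notMem h1, indicator_of_notMem h2,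
        indicator_of_notMem (show γ ∉ S ∪ B from fun h => h.elim h1 h2), zero_add]

theorem confOut : ConfOut μ := by
  intro g a ha lo H m
  induction m with
  | zero => simpa using conf_zero_le g a lo H
  | succ m ih =>
      set A := ∑' γ, (confSet g a lo H m).indicator (cw μ) γ
      have hA : A ≠ ∞ := ne_top_of_le_ne_top ENNReal.one_ne_top
        (ih.trans (pow_le_one₀ bot_le tsub_le_self))
      have hq : qstep μ g ^ H ≠ ∞ :=
        ne_top_of_le_ne_top ENNReal.one_ne_top (pow_le_one₀ bot_le (qstep_le_one g))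
      refine (ENNReal.le_sub_of_add_le_right (ENNReal.mul_ne_top hq hA)
        (conf_succ g a ha lo H m)).trans ?_
      change A - qstep μ g ^ H * A ≤ _
      nth_rewrite 1 [← one_mul A]
      rw [pow_succ', ← ENNReal.sub_mul fun _ _ => hA]
      exact mul_le_mul_right ih _

omit [IsProbabilityMeasure μ] in
/-- An elliptic walk leaves every finite set. -/
lemma finite_left (hQ : IsQuenchedLaw Q) {ω : Env d} (g : Step d)
    (hpos : ∀ x, ∀ a : Step d, 0 < (ω x).1 a) (Z : Finset (Site d)) (x : Site d) :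
    Q ω x {X | ∀ k, X k ∈ Z} = 0 := by
  set E : Set (ℕ → Site d) := {X | ∀ k, X k ∈ Z}
  have hE : MeasurableSet E := by
    simp only [E, ofPred_forall]
    exact MeasurableSet.iInter fun k => measurableSet_at k fun y => y ∈ Z
  set f : Site d → ℝ := fun y => (Q ω y).real E
  have hout : ∀ y, y ∉ Z → f y = 0 := fun y hy => by
    simp only [f]
    rw [hQ.real_step ω y hE]
    refine Finset.sum_eq_zero fun a _ => ?_
    rw [show pcons y ⁻¹' E = ∅ from eq_empty_of_forall_notMem fun X hX => hy (hX 0)]
    simp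
  have hin : ∀ y ∈ Z, f y = ∑ a, (ω y).1 a * f (y + vec a) := fun y hy => by
    simp only [f]
    rw [hQ.real_step ω y hE]
    refine Finset.sum_congr rfl fun a _ => ?_
    congr 2
    ext X
    refine ⟨fun h k => h (k + 1), fun h k => ?_⟩
    cases k with
    | zero => exact hy
    | succ k => exact h k
  have hle : ∀ y, f y ≤ 0 := by
    by_contra! h
    obtain ⟨y₀, hy₀⟩ := h
    have hy₀Z : y₀ ∈ Z := by by_contra hc; rw [hout y₀ hc] at hy₀; exact lt_irrefl _ hy₀
    obtain ⟨y₁, hy₁, hmax⟩ := Z.exists_max_image f ⟨y₀, hy₀Z⟩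
    set Zmax := Z.filter fun y => f y = f y₁
    obtain ⟨y, hy, hlev⟩ := Zmax.exists_max_image (fun y => lev g y)
      ⟨y₁, Finset.mem_filter.2 ⟨hy₁, rfl⟩⟩
    obtain ⟨hyZ, hyv⟩ := Finset.mem_filter.1 hy
    have hM : 0 < f y₁ := hy₀.trans_le (hmax y₀ hy₀Z)
    have hall : ∀ z, f z ≤ f y₁ := fun z => by
      by_cases hz : z ∈ Z
      · exact hmax z hz
      · rw [hout z hz]; exact hM.le
    have hz : f (y + vec g) = f y₁ := by
      refine (hall _).antisymm (not_lt.1 fun hlt => ?_)
      have : ∑ a, (ω y).1 a * f (y + vec a) < ∑ a, (ω y).1 a * f y₁ :=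
        Finset.sum_lt_sum (fun a _ => mul_le_mul_of_nonneg_left (hall _) (hpos y a).le)
          ⟨g, Finset.mem_univ _, mul_lt_mul_of_pos_left hlt (hpos y g)⟩
      rw [← hin y hyZ, ← Finset.sum_mul, (ω y).2.2, one_mul, hyv] at this
      exact lt_irrefl _ this
    have hzZ : y + vec g ∈ Z := by
      by_contra hc
      rw [hout _ hc] at hz
      linarith
    have := hlev _ (Finset.mem_filter.2 ⟨hzZ, hz⟩)
    rw [Bal.lev_add, Bal.lev_vec_self] at this
    omega
  have := hQ.prob ω x
  exact (measureReal_eq_zero_iff).1 (le_antisymm (hle x) measureReal_nonneg)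

theorem slabOut (_hd : 2 ≤ d) (hQ : IsQuenchedLaw Q)
    (hell : ∀ᵐ r ∂μ, ∀ a : Step d, 0 < r.1 a) : SlabOut μ Q := by
  classical
  intro g lo hi
  set E : Set (ℕ → Site d) := {X | ∀ k, lo ≤ lev g (X k) ∧ lev g (X k) ≤ hi}
  have hE : MeasurableSet E := by
    simp only [E, ofPred_forall]
    exact MeasurableSet.iInter fun k => measurableSet_at k fun y => lo ≤ lev g y ∧ lev g y ≤ hi
  have hm : Measurable fun ω => Q ω 0 E := (Measure.measurable_coe hE).comp (hQ.measurable 0)
  set H := (hi - lo + 1).toNat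
  set ρ := 1 - qstep μ g ^ H
  set L : Finset (Step d) := Finset.univ.filter fun a => a.1 ≠ g.1
  have hall : ∀ᵐ ω ∂iid μ, ∀ x, ∀ a : Step d, 0 < (ω x).1 a := ae_all_iff.2 fun x =>
    (measurePreserving_eval_infinitePi (fun _ : Site d => μ) x).quasiMeasurePreserving.ae hell
  have key : ∀ m : ℕ, ∫⁻ ω, Q ω 0 E ∂iid μ ≤ L.card * ρ ^ m := by
    intro m
    have hq : ∀ᵐ ω ∂iid μ, Q ω 0 E ≤
        ∑ a ∈ L, ∑' γ, (confSet g a lo H m).indicator (pw ω 0) γ := by
      filter_upwards [hall] with ω hω
      set Z := ((finite_slab g.1 m (min lo (-hi)) (max hi (-lo))).toFinset)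
      have hnull := finite_left hQ g hω Z (0 : Site d)
      refine le_trans (b := Q ω 0 ((⋃ a ∈ L, ⋃ γ : confSet g a lo H m, lcyl 0 γ.1)
          ∪ {X | ∀ k, X k ∈ Z})) (measure_mono_ae ?_) ?_
      · filter_upwards [hQ.ae_start ω 0, Bal.ae_nnPaths hQ ω 0] with X h0 hnn hX
        by_cases hZ : ∀ k, X k ∈ Z
        · exact Or.inr hZ
        refine Or.inl ?_
        push Not at hZ
        obtain ⟨k, hk⟩ := hZ
        have hk' : ¬ InBox g.1 m (X k) := fun hb => hk ((Finite.mem_toFinset _).2 (by
          have h1 := hX k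
          simp only [lev] at h1
          refine ⟨hb, ?_, ?_⟩ <;> split_ifs at h1 <;> omega))
        simp only [InBox, not_forall, not_le] at hk'
        obtain ⟨j, hj, hjk⟩ := hk'
        obtain ⟨a, ha, hak⟩ : ∃ a : Step d, a.1 ≠ g.1 ∧ (m : ℤ) ≤ lev a (X k) := by
          rcases le_total 0 (X k j) with h | h
          · exact ⟨(j, true), hj, by simp [lev]; rw [abs_of_nonneg h] at hjk; omega⟩
          · exact ⟨(j, false), hj, by simp [lev]; rw [abs_of_nonpos h] at hjk; omega⟩
        obtain ⟨γ, hγ, hγc⟩ : ∃ γ, γ ∈ confSet g a lo H m ∧ X ∈ lcyl 0 γ := by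
          have hex : ∃ T, (m : ℤ) ≤ lev a (X T) := ⟨k, hak⟩
          obtain ⟨γ, hl, hγ⟩ := Bal.exists_steps (Nat.find hex) X hnn
          rw [h0] at hγ
          have hT : X (Nat.find hex) = dsp γ := by
            have := hγ _ le_rfl
            rwa [List.take_length, zero_add, hl] at this
          refine ⟨γ, ⟨⟨fun v hv => ?_, ?_⟩, fun v hv => ?_⟩, hγ⟩
          · obtain ⟨i, hi', rfl⟩ := Bal.exists_of_mem_verts γ 0 v hv
            rw [← hγ i hi'.le]
            exact not_le.1 (Nat.find_min hex (hl ▸ hi'))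
          · rw [zero_add, ← hT]
            refine le_antisymm ?_ (Nat.find_spec hex)
            rcases Nat.eq_zero_or_pos (Nat.find hex) with h | h
            · rw [h, h0]; simp
            · obtain ⟨b, hb⟩ := hnn (Nat.find hex - 1)
              rw [Nat.sub_add_cancel h] at hb
              have h1 := not_le.1 (Nat.find_min hex (Nat.sub_one_lt (by omega)))
              have h2 := abs_le.1 (Bal.abs_lev_vec_le a b)
              rw [hb, Bal.lev_add]
              omega
          · obtain ⟨i, hi', rfl⟩ := Bal.exists_of_mem_verts γ 0 v hv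
            rw [← hγ i hi'.le]
            have := hX i
            simp only [H]
            omega
        exact mem_biUnion (x := a) (by simp [L, ha]) (mem_iUnion.2 ⟨⟨γ, hγ⟩, hγc⟩)
      · refine (measure_union_le _ _).trans ?_
        rw [hnull, add_zero]
        refine (measure_biUnion_finset_le _ _).trans (Finset.sum_le_sum fun a _ => ?_)
        refine (measure_iUnion_le _).trans (le_of_eq ?_)
        rw [← tsum_subtype (confSet g a lo H m) (pw ω 0)]
        exact tsum_congr fun γ => Bal.apply_lcyl hQ ω γ.1 0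
    refine (lintegral_mono_ae hq).trans ?_
    rw [lintegral_finsetSum' _ fun a _ => ?_]
    · refine (Finset.sum_le_sum fun a ha => ?_).trans (le_of_eq ?_) (b := ∑ _a ∈ L, ρ ^ m)
      · rw [← Bal.tsum_cw_le_lintegral]
        exact confOut g a (Finset.mem_filter.1 ha).2 lo H m
      · rw [Finset.sum_const, nsmul_eq_mul]
    · refine (Measurable.tsum fun γ => ?_).aemeasurable
      by_cases h : γ ∈ confSet g a lo H m
      · simpa [h] using Bal.measurable_pw 0 γ
      · simp [h]
  have hρ : ρ < 1 := ENNReal.sub_lt_self ENNReal.one_ne_top one_ne_zero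
    (pow_ne_zero _ (qstep_ne_zero hell g))
  have hlim : Tendsto (fun m : ℕ => (L.card : ℝ≥0∞) * ρ ^ m) atTop (𝓝 0) := by
    simpa using ENNReal.Tendsto.const_mul (ENNReal.tendsto_pow_atTop_nhds_zero_of_lt_one hρ)
      (Or.inr (ENNReal.natCast_ne_top L.card))
  exact (lintegral_eq_zero_iff hm).1 (le_antisymm (ge_of_tendsto' hlim key) bot_le)

end Vale.Agent.P147.Thin
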