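import Vale.Agent.P147.Thin.Indep

/-!
# High moments of centred sums of functions with small footprints

Only index tuples without an isolated footprint contribute, such a tuple has a dominating set of at
most half its size, and every dominated index pays a factor `v`.
-/

open MeasureTheory Set Filter Topology
open scoped ENNReal

namespace Vale.Agent.P147.Thin

open Vale.Agent.P147.Proj (iid DepOn)

variable {d : ℕ} {ι : Type*}

/-- In a graph without isolated vertices some dominating set has at most half of the vertices. -/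
lemma exists_dominating {α : Type*} [Fintype α] [DecidableEq α] (R : α → α → Prop)
    (hsymm : ∀ x y, R x y → R y x) (h : ∀ x, ∃ y, y ≠ x ∧ R x y) :
    ∃ D : Finset α, 2 * D.card ≤ Fintype.card α ∧ ∀ x ∉ D, ∃ y ∈ D, R x y := by
  classical
  set Dom : Finset (Finset α) :=
    Finset.univ.powerset.filter fun D => ∀ x ∉ D, ∃ y ∈ D, R x y
  have hne : Dom.Nonempty := ⟨Finset.univ, by simp [Dom]⟩
  obtain ⟨D, hD, hmin⟩ := Dom.exists_min_image Finset.card hne
  have hdom : ∀ x ∉ D, ∃ y ∈ D, R x y := (Finset.mem_filter.1 hD).2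
  have hcompl : ∀ x ∉ Dᶜ, ∃ y ∈ Dᶜ, R x y := by
    intro x hx
    have hxD : x ∈ D := by simpa using hx
    by_contra hno
    push Not at hno
    have hmem : D.erase x ∈ Dom := by
      refine Finset.mem_filter.2 ⟨by simp, fun z hz => ?_⟩
      by_cases hzx : z = x
      · subst hzx
        obtain ⟨y, hy, hR⟩ := h z
        refine ⟨y, Finset.mem_erase.2 ⟨hy, ?_⟩, hR⟩
        by_contra hyD
        exact hno y (by simpa using hyD) hR
      · have hzD : z ∉ D := fun h' => hz (Finset.mem_erase.2 ⟨hzx, h'⟩)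
        obtain ⟨y, hyD, hR⟩ := hdom z hzD
        refine ⟨y, Finset.mem_erase.2 ⟨?_, hyD⟩, hR⟩
        rintro rfl
        exact hno z (by simpa using hzD) (hsymm _ _ hR)
    have := hmin _ hmem
    rw [Finset.card_erase_of_mem hxD] at this
    have := Finset.card_pos.2 ⟨x, hxD⟩
    omega
  have hc := Finset.card_add_card_compl D
  by_cases hle : 2 * D.card ≤ Fintype.card α
  · exact ⟨D, hle, hdom⟩
  · exact ⟨Dᶜ, by omega, hcompl⟩

/-- Every flagged footprint meets `U` or an earlier footprint. -/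
def Linked (V : ι → Finset (Site d)) (U : Finset (Site d)) {n : ℕ} (flag : Fin n → Bool)
    (f : Fin n → ι) : Prop :=
  ∀ j, flag j = true → ∃ x ∈ V (f j), x ∈ U ∨ ∃ l < j, x ∈ V (f l)

variable {μ : Measure (Row d)} [IsProbabilityMeasure μ] [Fintype ι]
  {V : ι → Finset (Site d)} {P : ι → Env d → ℝ≥0∞} {a : ι → ℝ≥0∞} {ℓ L : ℕ} {v1 : ℝ≥0∞}

open Classical in
/-- The hypotheses of the moment bound. -/
structure Spread (μ : Measure (Row d)) (V : ι → Finset (Site d)) (P : ι → Env d → ℝ≥0∞)
    (a : ι → ℝ≥0∞) (ℓ : ℕ) (v1 : ℝ≥0∞) : Prop where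
  meas : ∀ i, Measurable (P i)
  dep : ∀ i, DepOn (P i) (V i)
  le_one : ∀ i ω, P i ω ≤ 1
  a_top : ∀ i, a i ≠ ∞
  small : ∀ i, (V i).card ≤ ℓ
  total : ∑ i, a i * ∫⁻ ω, P i ω ∂iid μ ≤ 1
  meet : ∀ (U : Finset (Site d)) (Y : Env d → ℝ≥0∞), Measurable Y → DepOn Y U →
    ∫⁻ ω, Y ω * ∑ i, (if (∃ x ∈ V i, x ∈ U) then a i * P i ω else 0) ∂iid μ
      ≤ (∫⁻ ω, Y ω ∂iid μ) * (v1 * U.card)

/-- A weighted function plus its mean. -/
noncomputable def plusMean (μ : Measure (Row d)) (P : ι → Env d → ℝ≥0∞) (a : ι → ℝ≥0∞) (i : ι)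
    (ω : Env d) : ℝ≥0∞ :=
  a i * (P i ω + ∫⁻ η, P i η ∂iid μ)

omit [Fintype ι] [IsProbabilityMeasure μ] in
lemma measurable_plusMean (hm : ∀ i, Measurable (P i)) (i : ι) :
    Measurable (plusMean μ P a i) :=
  ((hm i).add_const _).const_mul _

open Classical in
lemma sum_plusMean_le (h : Spread μ V P a ℓ v1) (hv : v1 * L ≤ 1) (must : Bool)
    {U : Finset (Site d)} (hU : U.card ≤ L) {Y : Env d → ℝ≥0∞} (hY : Measurable Y)
    (hYU : DepOn Y U) :
    ∑ i, (if must = true → (∃ x ∈ V i, x ∈ U) then ∫⁻ ω, Y ω * plusMean μ P a i ω ∂iid μ else 0)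
      ≤ (∫⁻ ω, Y ω ∂iid μ) * (if must then 2 * (v1 * L) else 3) := by
  set EY := ∫⁻ ω, Y ω ∂iid μ
  set p : ι → ℝ≥0∞ := fun i => ∫⁻ ω, P i ω ∂iid μ
  set near : ι → Prop := fun i => ∃ x ∈ V i, x ∈ U
  have hm : ∀ i, Measurable fun ω => Y ω * P i ω := fun i => hY.mul (h.meas i)
  have e1 : ∀ i, ∫⁻ ω, Y ω * plusMean μ P a i ω ∂iid μ
      = a i * ∫⁻ ω, Y ω * P i ω ∂iid μ + a i * p i * EY := by
    intro i
    have e : ∀ ω, Y ω * plusMean μ P a i ω = a i * (Y ω * P i ω) + a i * p i * Y ω := fun ω => by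
      simp only [plusMean, p]; ring
    simp only [e]
    rw [lintegral_add_left ((hm i).const_mul _), lintegral_const_mul _ (hm i),
      lintegral_const_mul _ hY]
  have hnear : ∀ (Z : Env d → ℝ≥0∞), Measurable Z → DepOn Z U →
      ∑ i, (if near i then a i * ∫⁻ ω, Z ω * P i ω ∂iid μ else 0)
        ≤ (∫⁻ ω, Z ω ∂iid μ) * (v1 * L) := by
    intro Z hZ hZU
    refine le_trans (le_of_eq ?_) ((h.meet U Z hZ hZU).trans (by gcongr))
    simp only [Finset.mul_sum]
    rw [lintegral_finsetSum _ fun i _ => ?_]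
    · refine Finset.sum_congr rfl fun i _ => ?_
      by_cases hi : near i
      · simp only [near] at hi
        simp only [near, if_pos hi]
        rw [← lintegral_const_mul (μ := iid μ) (a i) (f := fun ω => Z ω * P i ω)
          (hZ.mul (h.meas i))]
        exact lintegral_congr fun ω => by ring
      · simp only [near] at hi
        simp [near, hi]
    · refine hZ.mul ?_
      split_ifs
      · exact (h.meas i).const_mul _
      · exact measurable_const
  have hnearY := hnear Y hY hYU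
  cases must with
  | true =>
    simp only [forall_const, if_true]
    have h1 := hnear (fun _ => 1) measurable_const (fun _ _ _ => rfl)
    simp only [one_mul, lintegral_const, measure_univ, mul_one] at h1
    calc ∑ i, (if near i then ∫⁻ ω, Y ω * plusMean μ P a i ω ∂iid μ else 0)
        = (∑ i, if near i then a i * ∫⁻ ω, Y ω * P i ω ∂iid μ else 0)
          + (∑ i, if near i then a i * p i else 0) * EY := by
          rw [Finset.sum_mul, ← Finset.sum_add_distrib]
          refine Finset.sum_congr rfl fun i _ => ?_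
          rw [e1]
          split_ifs <;> simp
      _ ≤ EY * (v1 * L) + v1 * L * EY := add_le_add hnearY (mul_le_mul_left h1 _)
      _ = EY * (2 * (v1 * L)) := by ring
  | false =>
    simp only [Bool.false_eq_true, IsEmpty.forall_iff, if_true, if_false]
    calc ∑ i, ∫⁻ ω, Y ω * plusMean μ P a i ω ∂iid μ
        = (∑ i, a i * ∫⁻ ω, Y ω * P i ω ∂iid μ) + (∑ i, a i * p i) * EY := by
          rw [Finset.sum_mul, ← Finset.sum_add_distrib]
          exact Finset.sum_congr rfl fun i _ => e1 i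
      _ ≤ ((∑ i, if near i then a i * ∫⁻ ω, Y ω * P i ω ∂iid μ else 0)
            + (∑ i, a i * p i) * EY) + (∑ i, a i * p i) * EY := by
          refine add_le_add ?_ le_rfl
          rw [Finset.sum_mul, ← Finset.sum_add_distrib]
          refine Finset.sum_le_sum fun i _ => ?_
          by_cases hi : near i
          · rw [if_pos hi]; exact le_self_add
          · rw [if_neg hi, zero_add, Proj.lintegral_mul_disjoint μ hY (h.meas i) hYU (h.dep i)
              (Finset.disjoint_right.2 fun x hx hx' => hi ⟨x, hx, hx'⟩)]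
            exact le_of_eq (by simp only [p, EY]; ring)
      _ ≤ EY * (v1 * L) + 1 * EY + 1 * EY := by gcongr <;> exact h.total
      _ ≤ EY * 3 := by
          calc _ ≤ EY * 1 + 1 * EY + 1 * EY := by gcongr
            _ = EY * 3 := by ring

open Classical in
lemma chain_le (h : Spread μ V P a ℓ v1) (hv : v1 * L ≤ 1) :
    ∀ (n : ℕ) (flag : Fin n → Bool) (U : Finset (Site d)) (Y : Env d → ℝ≥0∞), Measurable Y →
      DepOn Y U → U.card + n * ℓ ≤ L →
      ∑ f : Fin n → ι, (if Linked V U flag f then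
          ∫⁻ ω, Y ω * ∏ j, plusMean μ P a (f j) ω ∂iid μ else 0)
        ≤ (∫⁻ ω, Y ω ∂iid μ) * ∏ j, (if flag j then 2 * (v1 * L) else 3) := by
  intro n
  induction n with
  | zero =>
    intro flag U Y _ _ _
    simp [Linked]
  | succ n ih =>
    intro flag U Y hY hYU hcard
    rw [← (Fin.consEquiv fun _ : Fin (n + 1) => ι).sum_comp, Fintype.sum_prod_type]
    simp only [show ∀ i : ι, ∀ g : Fin n → ι,
      (Fin.consEquiv fun _ : Fin (n + 1) => ι) (i, g) = Fin.cons i g from fun _ _ => rfl]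
    rw [Fin.prod_univ_succ, ← mul_assoc]
    refine le_trans ?_
      (mul_le_mul_left (sum_plusMean_le h hv (flag 0) (show U.card ≤ L by omega) hY hYU) _)
    rw [Finset.sum_mul]
    refine Finset.sum_le_sum fun i _ => ?_
    set U' := U ∪ V i
    set Y' : Env d → ℝ≥0∞ := fun ω => Y ω * plusMean μ P a i ω
    have hY' : Measurable Y' := hY.mul (measurable_plusMean h.meas i)
    have hYU' : DepOn Y' U' := by
      intro ω ω' hx
      simp only [Y', plusMean]
      rw [hYU ω ω' fun x hxU => hx x (Finset.mem_union_left _ hxU),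
        h.dep i ω ω' fun x hxV => hx x (Finset.mem_union_right _ hxV)]
    have hc' : U'.card + n * ℓ ≤ L := by
      have h1 := Finset.card_union_le U (V i)
      have h2 := h.small i
      rw [Nat.succ_mul] at hcard
      show (U ∪ V i).card + n * ℓ ≤ L
      omega
    by_cases hi : flag 0 = true → ∃ x ∈ V i, x ∈ U
    · rw [if_pos hi]
      refine le_trans (Finset.sum_le_sum fun g _ => ?_)
        (ih (fun j => flag j.succ) U' Y' hY' hYU' hc')
      by_cases hl : Linked V U flag (Fin.cons i g)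
      swap
      · simp [hl]
      have hl' : Linked V U' (fun j => flag j.succ) g := by
        intro j hj
        obtain ⟨x, hx, hor⟩ := hl j.succ hj
        rw [Fin.cons_succ] at hx
        refine ⟨x, hx, ?_⟩
        rcases hor with hxU | ⟨l, hl1, hl2⟩
        · exact Or.inl (Finset.mem_union_left _ hxU)
        · induction l using Fin.cases with
          | zero => exact Or.inl (Finset.mem_union_right _ (by simpa using hl2))
          | succ l => exact Or.inr ⟨l, Fin.succ_lt_succ_iff.1 hl1, by simpa using hl2⟩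
      rw [if_pos hl, if_pos hl']
      refine le_of_eq (lintegral_congr fun ω => ?_)
      simp only [Y', Fin.prod_univ_succ, Fin.cons_zero, Fin.cons_succ]
      rw [mul_assoc]
    · rw [if_neg hi, zero_mul]
      refine le_of_eq (Finset.sum_eq_zero fun g _ => if_neg fun hl => hi fun h0 => ?_)
      obtain ⟨x, hx, hor⟩ := hl 0 h0
      refine ⟨x, by simpa using hx, ?_⟩
      rcases hor with hxU | ⟨l, hl1, -⟩
      · exact hxU
      · exact absurd hl1 (Fin.not_lt_zero l)

open Classical in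
lemma dominated_le (h : Spread μ V P a ℓ v1) {n : ℕ} (hL : n * ℓ ≤ L) (hv : v1 * L ≤ 1)
    (D : Finset (Fin n)) :
    ∑ f : Fin n → ι, (if ∀ j ∉ D, ∃ l ∈ D, ∃ x ∈ V (f j), x ∈ V (f l) then
        ∫⁻ ω, ∏ j, plusMean μ P a (f j) ω ∂iid μ else 0)
      ≤ 3 ^ D.card * (2 * (v1 * L)) ^ (n - D.card) := by
  set k := D.card
  have hkn : k + (n - k) = n := by
    have := Finset.card_le_univ D
    simp only [Fintype.card_fin] at this
    omega
  have hc : Fintype.card {x // x ∉ D} = n - k := by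
    rw [Fintype.card_subtype_compl, Fintype.card_coe, Fintype.card_fin]
  set σ : Fin n ≃ Fin n := (finCongr hkn.symm).trans (finSumFinEquiv.symm.trans
    ((Equiv.sumCongr D.equivFin.symm (Fintype.equivFinOfCardEq hc).symm).trans
      (Equiv.sumCompl (· ∈ D))))
  have hσ : ∀ j : Fin n, σ j ∈ D ↔ (j : ℕ) < k := by
    intro j
    obtain ⟨x, rfl⟩ : ∃ x, finCongr hkn (finSumFinEquiv x) = j :=
      ⟨finSumFinEquiv.symm (finCongr hkn.symm j), by simp⟩
    rcases x with x | x
    · simp [σ, k]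
    · have := ((Fintype.equivFinOfCardEq hc).symm x).2
      simp [σ, this]
  set flag : Fin n → Bool := fun j => decide (σ j ∉ D)
  have hmain := chain_le h hv n flag ∅ (fun _ => 1) measurable_const (fun _ _ _ => rfl)
    (by simpa using hL)
  simp only [one_mul, lintegral_const, measure_univ, mul_one] at hmain
  rw [← (Equiv.arrowCongr σ (Equiv.refl ι)).sum_comp]
  refine le_trans (Finset.sum_le_sum fun f _ => ?_) (hmain.trans (le_of_eq ?_))
  · set g : Fin n → ι := Equiv.arrowCongr σ (Equiv.refl ι) f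
    have hg : ∀ j, g (σ j) = f j := fun j => by simp [g]
    split_ifs with h1 h2
    · refine le_of_eq (lintegral_congr fun ω => ?_)
      rw [← σ.prod_comp fun j => plusMean μ P a (g j) ω]
      simp only [hg]
    · refine absurd ?_ h2
      intro j hj
      simp only [flag, decide_eq_true_eq] at hj
      obtain ⟨l, hl, x, hx, hxl⟩ := h1 (σ j) hj
      obtain ⟨l', rfl⟩ := σ.surjective l
      rw [hg] at hx hxl
      refine ⟨x, hx, Or.inr ⟨l', ?_, hxl⟩⟩
      have h3 := (hσ l').1 hl
      have h4 : ¬ (j : ℕ) < k := fun h5 => hj ((hσ j).2 h5)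
      show (l' : ℕ) < (j : ℕ)
      omega
    · exact zero_le
    · exact zero_le
  · calc ∏ j, (if flag j then 2 * (v1 * (L : ℝ≥0∞)) else 3)
        = ∏ j, (if σ j ∈ D then 3 else 2 * (v1 * (L : ℝ≥0∞))) := by
          refine Finset.prod_congr rfl fun j _ => ?_
          by_cases hj : σ j ∈ D <;> simp [flag, hj]
      _ = ∏ x, (if x ∈ D then 3 else 2 * (v1 * (L : ℝ≥0∞))) :=
          σ.prod_comp fun x => if x ∈ D then 3 else 2 * (v1 * (L : ℝ≥0∞))
      _ = _ := by
          rw [Finset.prod_ite, Finset.prod_const, Finset.prod_const, Finset.filter_mem_eq_inter,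
            Finset.univ_inter]
          congr 2
          rw [show (Finset.univ.filter fun x => x ∉ D) = Dᶜ by ext x; simp, Finset.card_compl,
            Fintype.card_fin]

/-- A weighted centred function. -/
noncomputable def centred (μ : Measure (Row d)) (P : ι → Env d → ℝ≥0∞) (w : ι → ℝ) (i : ι)
    (ω : Env d) : ℝ :=
  w i * ((P i ω).toReal - (∫⁻ η, P i η ∂iid μ).toReal)

open Classical in
/-- The centred sum has small moments. -/
theorem moment_le (h : Spread μ V P a ℓ v1) {m : ℕ} (hL : 2 * m * ℓ ≤ L) (hv : v1 * L ≤ 1)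
    (w : ι → ℝ) (hw : ∀ i, 0 ≤ w i ∧ w i ≤ (a i).toReal) :
    ∫⁻ ω, ENNReal.ofReal ((∑ i, centred μ P w i ω) ^ (2 * m)) ∂iid μ
      ≤ (36 * (v1 * L)) ^ m := by
  set n := 2 * m with hn
  set X := centred μ P w with hX
  have hp1 : ∀ i, ∫⁻ η, P i η ∂iid μ ≤ 1 := fun i =>
    (lintegral_mono fun η => h.le_one i η).trans_eq (by simp)
  have hXm : ∀ i, Measurable (X i) := fun i =>
    ((h.meas i).ennreal_toReal.sub_const _).const_mul _
  have hXb : ∀ i ω, ENNReal.ofReal |X i ω| ≤ plusMean μ P a i ω := by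
    intro i ω
    have hPf : P i ω ≠ ∞ := ne_top_of_le_ne_top ENNReal.one_ne_top (h.le_one i ω)
    have hpf : ∫⁻ η, P i η ∂iid μ ≠ ∞ := ne_top_of_le_ne_top ENNReal.one_ne_top (hp1 i)
    refine le_trans (ENNReal.ofReal_le_ofReal
      (q := (a i).toReal * ((P i ω).toReal + (∫⁻ η, P i η ∂iid μ).toReal)) ?_) (le_of_eq ?_)
    · simp only [hX, centred, abs_mul, abs_of_nonneg (hw i).1]
      refine mul_le_mul (hw i).2 ?_ (abs_nonneg _) ENNReal.toReal_nonneg
      refine abs_le.2 ⟨?_, ?_⟩ <;>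
        linarith [ENNReal.toReal_nonneg (a := P i ω),
          ENNReal.toReal_nonneg (a := ∫⁻ η, P i η ∂iid μ)]
    · rw [← ENNReal.toReal_add hPf hpf, ← ENNReal.toReal_mul,
        ENNReal.ofReal_toReal (ENNReal.mul_ne_top (h.a_top i) (ENNReal.add_ne_top.2 ⟨hPf, hpf⟩)),
        plusMean]
  have hXbd : ∀ i ω, |X i ω| ≤ 2 * |w i| := by
    intro i ω
    simp only [hX, centred, abs_mul]
    rw [mul_comm 2 |w i|]
    refine mul_le_mul_of_nonneg_left ?_ (abs_nonneg _)
    have h1 : (P i ω).toReal ≤ 1 := ENNReal.toReal_le_of_le_ofReal zero_le_one (by simpa using h.le_one i ω)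
    have h2 : (∫⁻ η, P i η ∂iid μ).toReal ≤ 1 :=
      ENNReal.toReal_le_of_le_ofReal zero_le_one (by simpa using hp1 i)
    refine abs_le.2 ⟨?_, ?_⟩ <;>
      linarith [ENNReal.toReal_nonneg (a := P i ω), ENNReal.toReal_nonneg (a := ∫⁻ η, P i η ∂iid μ)]
  have hint : ∀ f : Fin n → ι, Integrable (fun ω => ∏ j, X (f j) ω) (iid μ) := fun f =>
    Integrable.mono' (integrable_const (∏ j, 2 * |w (f j)|))
      (Finset.measurable_prod _ fun j _ => hXm (f j)).aestronglyMeasurable
      (ae_of_all _ fun ω => by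
        rw [Real.norm_eq_abs, Finset.abs_prod]
        exact Finset.prod_le_prod (fun j _ => abs_nonneg _) fun j _ => hXbd _ _)
  have hzero : ∀ f : Fin n → ι, ∀ j, (∀ l, l ≠ j → ∀ x ∈ V (f j), x ∉ V (f l)) →
      ∫ ω, ∏ l, X (f l) ω ∂iid μ = 0 := by
    intro f j hj
    simp only [← Finset.mul_prod_erase Finset.univ _ (Finset.mem_univ j)]
    rw [integral_mul_depOnSet μ (hXm _) (Finset.measurable_prod _ fun l _ => hXm _)
      (S := (V (f j) : Set (Site d))) ?_ ?_]
    · refine mul_eq_zero_of_left ?_ _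
      simp only [hX, centred]
      rw [integral_const_mul, integral_sub ?_ (integrable_const _), integral_const, probReal_univ,
        one_smul, integral_toReal (h.meas _).aemeasurable
          (ae_of_all _ fun ω => (h.le_one _ ω).trans_lt ENNReal.one_lt_top), sub_self, mul_zero]
      exact integrable_toReal_of_lintegral_ne_top (h.meas _).aemeasurable
        (ne_top_of_le_ne_top ENNReal.one_ne_top (hp1 _))
    · exact (depOnSet_of_depOn (h.dep (f j))).comp fun r => w (f j) * (r.toReal - _)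
    · intro ω ω' hx
      refine Finset.prod_congr rfl fun l hl => ?_
      simp only [hX, centred]
      rw [h.dep (f l) ω ω' fun x hxl => hx x fun hxj => hj l (Finset.ne_of_mem_erase hl) x hxj hxl]
  set Ds : Finset (Finset (Fin n)) := Finset.univ.powerset.filter fun D => 2 * D.card ≤ n
  set dom : Finset (Fin n) → (Fin n → ι) → Prop := fun D f =>
    ∀ j ∉ D, ∃ l ∈ D, ∃ x ∈ V (f j), x ∈ V (f l)
  have hterm : ∀ f : Fin n → ι, ENNReal.ofReal (∫ ω, ∏ j, X (f j) ω ∂iid μ) ≤
      ∑ D ∈ Ds, if dom D f then ∫⁻ ω, ∏ j, plusMean μ P a (f j) ω ∂iid μ else 0 := by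
    intro f
    by_cases hiso : ∃ j, ∀ l, l ≠ j → ∀ x ∈ V (f j), x ∉ V (f l)
    · obtain ⟨j, hj⟩ := hiso
      rw [hzero f j hj, ENNReal.ofReal_zero]
      exact zero_le
    push Not at hiso
    obtain ⟨D, hD, hdom⟩ := exists_dominating (fun j l => ∃ x ∈ V (f j), x ∈ V (f l))
      (fun j l ⟨x, h1, h2⟩ => ⟨x, h2, h1⟩) hiso
    rw [Fintype.card_fin] at hD
    refine le_trans ?_ (Finset.single_le_sum (fun _ _ => zero_le)
      (show D ∈ Ds from Finset.mem_filter.2 ⟨by simp, hD⟩))
    rw [if_pos (show dom D f from hdom)]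
    calc ENNReal.ofReal (∫ ω, ∏ j, X (f j) ω ∂iid μ)
        ≤ ENNReal.ofReal (∫ ω, |∏ j, X (f j) ω| ∂iid μ) :=
          ENNReal.ofReal_le_ofReal (integral_mono (hint f) (hint f).abs fun ω => le_abs_self _)
      _ = ∫⁻ ω, ENNReal.ofReal |∏ j, X (f j) ω| ∂iid μ :=
          ofReal_integral_eq_lintegral_ofReal (hint f).abs (ae_of_all _ fun ω => abs_nonneg _)
      _ ≤ _ := lintegral_mono fun ω => by
          rw [Finset.abs_prod, ENNReal.ofReal_prod_of_nonneg fun j _ => abs_nonneg _]
          exact Finset.prod_le_prod' fun j _ => hXb _ _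
  have hpoly : ∀ ω, (∑ i, X i ω) ^ n = ∑ f : Fin n → ι, ∏ j, X (f j) ω := fun ω =>
    Fintype.sum_pow _ n
  calc ∫⁻ ω, ENNReal.ofReal ((∑ i, X i ω) ^ n) ∂iid μ
      = ENNReal.ofReal (∫ ω, (∑ i, X i ω) ^ n ∂iid μ) := by
        rw [ofReal_integral_eq_lintegral_ofReal]
        · simp only [hpoly]
          exact integrable_finsetSum _ fun f _ => hint f
        · exact ae_of_all _ fun ω => (even_two_mul m).pow_nonneg _
    _ = ENNReal.ofReal (∑ f : Fin n → ι, ∫ ω, ∏ j, X (f j) ω ∂iid μ) := by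
        simp only [hpoly]
        rw [integral_finsetSum _ fun f _ => hint f]
    _ ≤ ∑ f : Fin n → ι, ENNReal.ofReal (∫ ω, ∏ j, X (f j) ω ∂iid μ) :=
        Finset.le_sum_of_subadditive (fun x : ℝ => ENNReal.ofReal x) (le_of_eq ENNReal.ofReal_zero)
          (fun x y => ENNReal.ofReal_add_le) _ _
    _ ≤ ∑ f : Fin n → ι, ∑ D ∈ Ds,
          if dom D f then ∫⁻ ω, ∏ j, plusMean μ P a (f j) ω ∂iid μ else 0 :=
        Finset.sum_le_sum fun f _ => hterm f
    _ ≤ ∑ _D ∈ Ds, (9 * (v1 * L)) ^ m := by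
        rw [Finset.sum_comm]
        refine Finset.sum_le_sum fun D hD => (dominated_le h hL hv D).trans ?_
        have hk := (Finset.mem_filter.1 hD).2
        set k := D.card
        rw [mul_pow 2 (v1 * (L : ℝ≥0∞)), mul_pow 9 (v1 * (L : ℝ≥0∞)), ← mul_assoc]
        refine mul_le_mul' ?_ (pow_le_pow_of_le_one zero_le hv (by omega))
        calc (3 : ℝ≥0∞) ^ k * 2 ^ (n - k) ≤ 3 ^ k * 3 ^ (n - k) := by gcongr; norm_num
          _ = 9 ^ m := by
              rw [← pow_add, show k + (n - k) = 2 * m by omega, pow_mul]; norm_num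
    _ ≤ (36 * (v1 * L)) ^ m := by
        rw [Finset.sum_const, nsmul_eq_mul, show (36 : ℝ≥0∞) * (v1 * L) = 4 * (9 * (v1 * L)) by ring,
          mul_pow 4 (9 * (v1 * L))]
        refine mul_le_mul_left ?_ _
        calc (Ds.card : ℝ≥0∞) ≤ ((2 ^ n : ℕ) : ℝ≥0∞) := by
              refine Nat.cast_le.2 ((Finset.card_filter_le _ _).trans (le_of_eq ?_))
              rw [Finset.card_powerset, Finset.card_univ, Fintype.card_fin]
          _ = 4 ^ m := by rw [Nat.cast_pow, pow_mul]; norm_num

end Vale.Agent.P147.Thin
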