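import Vale.Agent.P147.Thin.Events
import Vale.Agent.P147.Thin.Moment

/-!
# The flow of good pieces and its telescope
-/

open MeasureTheory Set Filter Topology
open scoped ENNReal

namespace Vale.Agent.P147.Thin

open Vale.Agent.P147.Proj (dsp verts iid DepOn)
open Vale.Agent.P147.Bal (lev pw pq cw Irr hgt Pre Adm u lcyl)

variable {d : ℕ} {e : Step d} {P : Par} {μ : Measure (Row d)}
  {Q : Env d → Site d → Measure (ℕ → Site d)}

/-! ## Tuples of pieces -/

lemma mem_capPieces {M : ℕ} {γ : List (Step d)} :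
    γ ∈ capPieces e M ↔ γ.length < M ∧ Irr e γ := by
  simp [capPieces, Proj.mem_short]

lemma irr_piece (η : ↥(capPieces e P.M)) : Irr e η.1 := (mem_capPieces.1 η.2).2

lemma lists_snoc {k : ℕ} (t : Tup e P k) (η : ↥(capPieces e P.M)) :
    Tup.lists (Fin.snoc t η : Tup e P (k + 1)) = Fin.snoc t.lists η.1 := by
  funext i
  induction i using Fin.lastCases with
  | last => simp [Tup.lists]
  | cast i => simp [Tup.lists]

lemma good_snoc {k : ℕ} (t : Tup e P k) (η : ↥(capPieces e P.M)) :
    Tup.Good (Fin.snoc t η : Tup e P (k + 1)) ↔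
      t.Good ∧ Ok e P.b P.C P.K k (hsum e t.lists) η.1 := by
  simp [Tup.Good, GoodSeq, lists_snoc]

lemma hsum_snoc {k : ℕ} (t : Fin k → List (Step d)) (η : List (Step d)) :
    hsum e (Fin.snoc t η : Fin (k + 1) → List (Step d)) = hsum e t + hgt e η := by
  simp [hsum, Fin.sum_univ_castSucc]

lemma tsumDsp_snoc {k : ℕ} (t : Fin k → List (Step d)) (η : List (Step d)) :
    tsumDsp (Fin.snoc t η : Fin (k + 1) → List (Step d)) = tsumDsp t + dsp η := by
  simp [tsumDsp, Fin.sum_univ_castSucc]

lemma tupW_snoc {k : ℕ} (t : Tup e P k) (η : ↥(capPieces e P.M)) :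
    tupW μ (Fin.snoc t η : Tup e P (k + 1)) = tupW μ t * cw μ η.1 := by
  simp [tupW, Fin.prod_univ_castSucc]

lemma sum_snoc {α : Type*} [AddCommMonoid α] {k : ℕ} (F : Tup e P (k + 1) → α) :
    ∑ t : Tup e P (k + 1), F t = ∑ t : Tup e P k, ∑ η, F (Fin.snoc t η : Tup e P (k + 1)) := by
  rw [← (Fin.snocEquiv fun _ : Fin (k + 1) => ↥(capPieces e P.M)).sum_comp F,
    Fintype.sum_prod_type, Finset.sum_comm]
  rfl

lemma lev_dsp_of_adm {γ : List (Step d)} (h : Adm e γ) : lev e (dsp γ) = hgt e γ := h.2

lemma lev_tsumDsp {k : ℕ} (t : Tup e P k) : lev e (tsumDsp t.lists) = hsum e t.lists := by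
  induction k with
  | zero => simp [tsumDsp, hsum]
  | succ k ih =>
    rw [← Fin.snoc_init_self t, lists_snoc, tsumDsp_snoc, hsum_snoc, Bal.lev_add, ih,
      lev_dsp_of_adm (irr_piece (t (Fin.last k))).2.1]
    push_cast
    rfl

lemma le_hsum {k : ℕ} (t : Tup e P k) : k ≤ hsum e t.lists := by
  have h : ∀ i, 1 ≤ hgt e (t.lists i) := fun i => (irr_piece (t i)).one_le_hgt
  simpa [hsum] using Finset.sum_le_sum (s := (Finset.univ : Finset (Fin k))) fun i _ => h i

/-- The last piece of a good tuple is small and its height is bounded. -/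
lemma Tup.Good.last {k : ℕ} {t : Tup e P (k + 1)} (h : t.Good) :
    (verts 0 (t (Fin.last k)).1).toFinset.card ≤ P.C * (hsum e t.lists + 1) ^ P.b ∧
      hsum e t.lists ≤ P.K * (k + 1) := by
  rw [← Fin.snoc_init_self t] at h
  have h2 := ((good_snoc _ _).1 h).2
  conv => lhs; rhs; rw [← Fin.snoc_init_self t, lists_snoc, hsum_snoc]
  conv => rhs; lhs; rw [← Fin.snoc_init_self t, lists_snoc, hsum_snoc]
  exact h2

/-! ## Masses -/

lemma cw_ne_top [IsProbabilityMeasure μ] (γ : List (Step d)) : cw μ γ ≠ ∞ := by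
  refine ne_top_of_le_ne_top ENNReal.one_ne_top ?_
  have h1 := Bal.tsum_free_le (μ := μ) (F := fun _ => (1 : ℝ≥0∞)) measurable_const (0 : Site d)
    {γ} (fun η δ h h' => by
      simp only [mem_singleton_iff] at h h'
      subst h
      simpa using h')
  rw [tsum_eq_single γ fun η hη => indicator_of_notMem (by simpa using hη) _] at h1
  simpa [cw] using h1

lemma tupW_ne_top [IsProbabilityMeasure μ] {k : ℕ} (t : Tup e P k) : tupW μ t ≠ ∞ :=
  ENNReal.prod_ne_top fun _ _ => cw_ne_top _

variable [IsProbabilityMeasure μ] {p : ℝ≥0∞}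

lemma sum_pieces_le (hp : p ≠ 0) (hu : ∀ J, p ≤ u μ e J) (M : ℕ) :
    ∑ η : ↥(capPieces e M), cw μ η.1 ≤ 1 := by
  classical
  rw [Finset.sum_coe_sort (capPieces e M) (cw μ)]
  have h := Bal.tsum_hlaw_mul (μ := μ) (e := e) fun _ => 1
  simp only [mul_one] at h
  rw [Bal.tsum_hlaw hp hu] at h
  refine le_trans (le_of_eq ?_) ((ENNReal.sum_le_tsum (capPieces e M)).trans h.ge)
  exact Finset.sum_congr rfl fun γ hγ => by rw [if_pos (mem_capPieces.1 hγ).2]

lemma sum_tupW_le (hp : p ≠ 0) (hu : ∀ J, p ≤ u μ e J) (k : ℕ) :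
    ∑ t : Tup e P k, tupW μ t ≤ 1 := by
  simp only [tupW]
  rw [← Fintype.sum_pow fun η : ↥(capPieces e P.M) => cw μ η.1]
  exact pow_le_one₀ zero_le (sum_pieces_le hp hu P.M)

open Classical in
/-- The masses of tuples of a given total height sum to at most one over all lengths. -/
lemma sum_height_le (hp : p ≠ 0) (hu : ∀ J, p ≤ u μ e J) :
    ∀ (n s : ℕ), ∑ k ∈ Finset.range n, ∑ t : Tup e P k,
      (if hsum e t.lists = s then tupW μ t else 0) ≤ 1 := by
  intro n
  induction n with
  | zero => intro s; simp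
  | succ n ih =>
    intro s
    rw [Finset.sum_range_succ']
    set g : ℕ → ℝ≥0∞ := fun r => ∑ k ∈ Finset.range n, ∑ t : Tup e P k,
      if hsum e t.lists = r then tupW μ t else 0
    have hfirst : (∑ t : Tup e P 0, if hsum e t.lists = s then tupW μ t else 0)
        = if s = 0 then 1 else 0 := by
      simp [hsum, tupW, eq_comm]
    have hstep : (∑ k ∈ Finset.range n, ∑ t : Tup e P (k + 1),
        if hsum e t.lists = s then tupW μ t else 0)
        ≤ ∑ η : ↥(capPieces e P.M), (if hgt e η.1 ≤ s then cw μ η.1 * g (s - hgt e η.1) else 0) := by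
      have e1 : ∀ k, (∑ t : Tup e P (k + 1), if hsum e t.lists = s then tupW μ t else 0)
          ≤ ∑ η : ↥(capPieces e P.M), (if hgt e η.1 ≤ s then cw μ η.1 *
              ∑ t : Tup e P k, (if hsum e t.lists = s - hgt e η.1 then tupW μ t else 0) else 0) := by
        intro k
        rw [sum_snoc, Finset.sum_comm]
        refine Finset.sum_le_sum fun η _ => ?_
        simp only [lists_snoc, hsum_snoc, tupW_snoc]
        split_ifs with hle
        · rw [Finset.mul_sum]
          refine le_of_eq (Finset.sum_congr rfl fun t _ => ?_)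
          by_cases h : hsum e t.lists = s - hgt e η.1
          · rw [if_pos h, if_pos (by omega), mul_comm]
          · rw [if_neg h, if_neg (fun h' => h (by omega)), mul_zero]
        · exact le_of_eq (Finset.sum_eq_zero fun t _ => if_neg fun h => hle (by omega))
      refine (Finset.sum_le_sum fun k _ => e1 k).trans (le_of_eq ?_)
      rw [Finset.sum_comm]
      refine Finset.sum_congr rfl fun η _ => ?_
      split_ifs with h
      · rw [← Finset.mul_sum]
      · simp
    rw [hfirst]
    rcases Nat.eq_zero_or_pos s with rfl | hs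
    · rw [if_pos rfl]
      refine le_trans (add_le_add (hstep.trans (le_of_eq (Finset.sum_eq_zero fun η _ => ?_))) le_rfl)
        (zero_add (1 : ℝ≥0∞)).le
      rw [if_neg]
      have := (irr_piece η).one_le_hgt
      omega
    · rw [if_neg hs.ne', add_zero]
      refine hstep.trans ((Finset.sum_le_sum fun η _ => ?_).trans (sum_pieces_le hp hu P.M))
      split_ifs
      · exact mul_le_of_le_one_right zero_le (ih _)
      · exact zero_le

/-! ## Continuations -/

/-- The probability of staying above the start. -/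
noncomputable def stayP (Q : Env d → Site d → Measure (ℕ → Site d)) (e : Step d) (ω : Env d)
    (z : Site d) : ℝ≥0∞ :=
  Q ω z (StayEv e)

open Classical in
/-- The quenched mass of `j` further good pieces followed by staying above the last level. -/
noncomputable def cont (Q : Env d → Site d → Measure (ℕ → Site d)) (e : Step d) (P : Par) :
    ℕ → ℕ → ℕ → Env d → Site d → ℝ≥0∞
  | 0, _, _, ω, z => stayP Q e ω z
  | j + 1, k, r, ω, z => ∑ η : ↥(capPieces e P.M),
      if Ok e P.b P.C P.K k r η.1 then
        pw ω z η.1 * cont Q e P j (k + 1) (r + hgt e η.1) ω (z + dsp η.1)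
      else 0

omit [IsProbabilityMeasure μ] in
lemma measurableSet_stayEv (e : Step d) : MeasurableSet (StayEv (d := d) e) := by
  simp only [StayEv, ofPred_forall]
  exact MeasurableSet.iInter fun k => measurableSet_le
    ((measurable_of_countable fun x : Site d => lev e x).comp (measurable_pi_apply 0))
    ((measurable_of_countable fun x : Site d => lev e x).comp (measurable_pi_apply k))

omit [IsProbabilityMeasure μ] in
lemma measurable_stayP (hQ : IsQuenchedLaw Q) (z : Site d) :
    Measurable fun ω => stayP Q e ω z :=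
  (Measure.measurable_coe (measurableSet_stayEv e)).comp (hQ.measurable z)

omit [IsProbabilityMeasure μ] in
lemma measurable_cont (hQ : IsQuenchedLaw Q) :
    ∀ (j k r : ℕ) (z : Site d), Measurable fun ω => cont Q e P j k r ω z
  | 0, _, _, z => measurable_stayP hQ z
  | j + 1, k, r, z => by
      classical
      simp only [cont]
      refine Finset.measurable_sum _ fun η _ => ?_
      split_ifs
      · exact (Bal.measurable_pw z η.1).mul (measurable_cont hQ j _ _ _)
      · exact measurable_const

omit [IsProbabilityMeasure μ] in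
lemma lev_verts {z v : Site d} {γ : List (Step d)} (h : Adm e γ) (hv : v ∈ verts z γ) :
    lev e z ≤ lev e v ∧ lev e v < lev e z + hgt e γ := by
  have h2 : v - z ∈ verts 0 γ := by
    have : v ∈ verts (0 + z) γ := by rwa [zero_add]
    exact Bal.mem_verts_shift.1 this
  have h3 := h.1 _ h2
  rw [Bal.lev_sub] at h3
  omega

omit [IsProbabilityMeasure μ] in
lemma depOnSet_stayP (hdep : StayDepOut Q) (z : Site d) :
    DepOnSet (fun ω => stayP Q e ω z) {v | lev e z ≤ lev e v} := by
  have := hdep e z univ MeasurableSet.univ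
  simpa only [univ_inter, stayP] using this

omit [IsProbabilityMeasure μ] in
lemma depOnSet_cont (hdep : StayDepOut Q) : ∀ (j k r : ℕ) (z : Site d),
    DepOnSet (fun ω => cont Q e P j k r ω z) {v | lev e z ≤ lev e v} := by
  intro j
  induction j with
  | zero => exact fun _ _ z => depOnSet_stayP hdep z
  | succ j ih =>
    intro k r z ω ω' hx
    simp only [cont]
    refine Finset.sum_congr rfl fun η _ => ?_
    split_ifs
    · have hη := (irr_piece η).2.1
      congr 1
      · exact Proj.wt_congr _ z η.1 fun v hv => hx v (lev_verts hη hv).1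
      · refine ih _ _ _ ω ω' fun v hv => hx v ?_
        simp only [mem_ofPred_eq, Bal.lev_add, lev_dsp_of_adm hη] at hv ⊢
        omega
    · rfl

omit [IsProbabilityMeasure μ] in
lemma mem_lcyl_dsp {X : ℕ → Site d} {z : Site d} {γ : List (Step d)} (h : X ∈ lcyl z γ) :
    X γ.length = z + dsp γ := by
  simpa using h γ.length le_rfl

omit [IsProbabilityMeasure μ] in
/-- One piece followed by staying is a way to stay. -/
lemma sum_pw_stayP_le (hQ : IsQuenchedLaw Q) (ω : Env d) (z : Site d) :
    ∑ η : ↥(capPieces e P.M), pw ω z η.1 * stayP Q e ω (z + dsp η.1) ≤ stayP Q e ω z := by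
  classical
  set E : ↥(capPieces e P.M) → Set (ℕ → Site d) := fun η =>
    lcyl z η.1 ∩ ptail^[η.1.length] ⁻¹' StayEv e
  have hm : ∀ η, MeasurableSet (E η) := fun η =>
    (Bal.measurableSet_lcyl _ _).inter ((measurable_ptail.iterate _) (measurableSet_stayEv e))
  have hstay : ∀ {X : ℕ → Site d} {γ : List (Step d)}, X ∈ ptail^[γ.length] ⁻¹' StayEv e →
      ∀ k, γ.length ≤ k → lev e (X γ.length) ≤ lev e (X k) := by
    intro X γ h k hk
    have := h (k - γ.length)
    rwa [Bal.iterate_ptail, Bal.iterate_ptail, zero_add, Nat.sub_add_cancel hk] at this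
  have hdisj : ∀ η η' : ↥(capPieces e P.M), η.1.length ≤ η'.1.length →
      ∀ X, X ∈ E η → X ∈ E η' → η = η' := by
    intro η η' hl X h h'
    obtain ⟨ρ, hρ⟩ : η.1 <+: η'.1 := by
      have h5 := lcyl_take_eq h.1 h'.1 η.1.length le_rfl hl
      rw [List.take_length] at h5
      exact ⟨η'.1.drop η.1.length, by conv => lhs; arg 1; rw [h5]
                                      exact List.take_append_drop _ _⟩
    have hadm : Adm e ρ := by
      refine Bal.head_ext_stay (δ := []) (irr_piece η).2.1 (hρ.symm ▸ (irr_piece η').2.1) ?_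
      intro v hv
      rw [List.append_nil] at hv
      obtain ⟨i, hi, rfl⟩ := Bal.exists_of_mem_verts ρ 0 v hv
      have hlen : (η.1 ++ ρ.take i).length = η.1.length + i := by simp; omega
      have h3 := h'.1 (η.1.length + i) (by rw [← hρ, List.length_append]; omega)
      rw [← hρ, List.take_length_add_append, Proj.dsp_append] at h3
      have h4 := hstay h.2 (η.1.length + i) (by omega)
      rw [h3, mem_lcyl_dsp h.1, Bal.lev_add, Bal.lev_add, Bal.lev_add] at h4
      rw [zero_add]
      omega
    rcases (irr_piece η').2.2 η.1 ρ hρ.symm (irr_piece η).2.1 hadm with h0 | h0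
    · exact absurd h0 (irr_piece η).1
    · exact Subtype.ext (by rw [← hρ, h0, List.append_nil])
  calc ∑ η : ↥(capPieces e P.M), pw ω z η.1 * stayP Q e ω (z + dsp η.1)
      = ∑ η, Q ω z (E η) :=
        Finset.sum_congr rfl fun η _ => (apply_lcyl_inter hQ ω (measurableSet_stayEv e) η.1 z).symm
    _ = Q ω z (⋃ η ∈ (Finset.univ : Finset _), E η) := by
        refine (measure_biUnion_finset (fun η _ η' _ hne => Set.disjoint_left.2 fun X h h' => ?_)
          fun η _ => hm η).symm
        rcases le_total η.1.length η'.1.length with hl | hl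
        · exact hne (hdisj η η' hl X h h')
        · exact hne (hdisj η' η hl X h' h).symm
    _ ≤ stayP Q e ω z := by
        refine measure_mono_ae ?_
        filter_upwards [hQ.ae_start ω z] with X hX hmem k
        obtain ⟨η, -, hη⟩ := mem_iUnion₂.1 hmem
        have hadm := (irr_piece η).2.1
        rcases lt_or_ge k η.1.length with hk | hk
        · have := (Bal.lev_take_mem hadm hk).1
          rw [hη.1 k hk.le, hX, Bal.lev_add]
          omega
        · have := hstay hη.2 k hk
          rw [mem_lcyl_dsp hη.1, Bal.lev_add, lev_dsp_of_adm hadm] at this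
          rw [hX]
          omega

omit [IsProbabilityMeasure μ] in
lemma cont_le_stayP (hQ : IsQuenchedLaw Q) (ω : Env d) :
    ∀ (j k r : ℕ) (z : Site d), cont Q e P j k r ω z ≤ stayP Q e ω z := by
  intro j
  induction j with
  | zero => exact fun _ _ _ => le_rfl
  | succ j ih =>
    intro k r z
    refine le_trans (Finset.sum_le_sum fun η _ => ?_) (sum_pw_stayP_le (P := P) hQ ω z)
    split_ifs
    · exact mul_le_mul_right (ih _ _ _) _
    · exact zero_le

omit [IsProbabilityMeasure μ] in
lemma stayP_le_one (hQ : IsQuenchedLaw Q) (ω : Env d) (z : Site d) : stayP Q e ω z ≤ 1 := by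
  have := hQ.prob ω z
  exact prob_le_one

omit [IsProbabilityMeasure μ] in
lemma cont_ne_top (hQ : IsQuenchedLaw Q) (ω : Env d) (j k r : ℕ) (z : Site d) :
    cont Q e P j k r ω z ≠ ∞ :=
  ne_top_of_le_ne_top ENNReal.one_ne_top ((cont_le_stayP hQ ω j k r z).trans (stayP_le_one hQ ω z))

/-! ## The telescope -/

open Classical in
/-- The hybrid flow: `k` annealed pieces, then `n - k` quenched ones. -/
noncomputable def hybrid (μ : Measure (Row d)) (Q : Env d → Site d → Measure (ℕ → Site d))
    (e : Step d) (P : Par) (B : Finset (Site d)) (n k : ℕ) (ω : Env d) : ℝ :=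
  ∑ a ∈ B, ∑ t : Tup e P k, if t.Good then ((B.card : ℝ≥0∞)⁻¹ * tupW μ t).toReal *
    (cont Q e P (n - k) k (hsum e t.lists) ω (a + tsumDsp t.lists)).toReal else 0

/-- The pieces ending at level `s`, with their pasts. -/
abbrev Idx (e : Step d) (P : Par) (B : Finset (Site d)) (n s : ℕ) : Type :=
  {i : (k : Fin n) × (↥B × Tup e P ((k : ℕ) + 1)) // i.2.2.Good ∧ hsum e i.2.2.lists = s}

variable {B : Finset (Site d)} {n s : ℕ}

noncomputable instance : Fintype (Idx e P B n s) := by classical exact inferInstance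

/-- The last piece. -/
def Idx.piece (i : Idx e P B n s) : List (Step d) := (i.1.2.2 (Fin.last _)).1

/-- The start of the last piece. -/
def Idx.start (i : Idx e P B n s) : Site d := i.1.2.1.1 + tsumDsp (Tup.lists (Fin.init i.1.2.2))

/-- The end of the last piece. -/
def Idx.stop (i : Idx e P B n s) : Site d := i.1.2.1.1 + tsumDsp i.1.2.2.lists

/-- The annealed weight of the past. -/
noncomputable def Idx.past (μ : Measure (Row d)) (i : Idx e P B n s) : ℝ≥0∞ :=
  (B.card : ℝ≥0∞)⁻¹ * tupW μ (Fin.init i.1.2.2)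

/-- The weight of a centred term. -/
noncomputable def Idx.wgt (μ : Measure (Row d)) (Q : Env d → Site d → Measure (ℕ → Site d))
    (ω : Env d) (i : Idx e P B n s) : ℝ :=
  (i.past μ).toReal * (cont Q e P (n - ((i.1.1 : ℕ) + 1)) ((i.1.1 : ℕ) + 1) s ω i.stop).toReal

/-- The error made by the pieces which end at level `s`. -/
noncomputable def xi (μ : Measure (Row d)) (Q : Env d → Site d → Measure (ℕ → Site d))
    (e : Step d) (P : Par) (B : Finset (Site d)) (n s : ℕ) (ω : Env d) : ℝ :=
  ∑ i : Idx e P B n s,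
    centred μ (fun (i : Idx e P B n s) η => pw η i.start i.piece) (Idx.wgt μ Q ω) i ω

open Classical in
/-- The summand of the telescope. -/
noncomputable def term (μ : Measure (Row d)) (Q : Env d → Site d → Measure (ℕ → Site d))
    (n k : ℕ) (ω : Env d) (a : Site d) (t : Tup e P (k + 1)) (N : ℝ≥0∞) : ℝ :=
  if t.Good then (N * tupW μ (Fin.init t)).toReal *
    (cont Q e P (n - (k + 1)) (k + 1) (hsum e t.lists) ω (a + tsumDsp t.lists)).toReal *
    ((pw ω (a + tsumDsp (Tup.lists (Fin.init t))) (t (Fin.last k)).1).toReal -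
      (cw μ (t (Fin.last k)).1).toReal)
  else 0

omit [IsProbabilityMeasure μ] in
lemma pw_le_one (ω : Env d) (z : Site d) (γ : List (Step d)) : pw ω z γ ≤ 1 := by
  have h := Bal.tsum_pw_le_one ({γ} : Set (List (Step d))) (fun η δ h h' => by
    simp only [mem_singleton_iff] at h h'
    subst h
    simpa using h') ω z
  rwa [tsum_eq_single γ fun η hη => indicator_of_notMem (by simpa using hη) _,
    indicator_of_mem (mem_singleton γ)] at h

omit [IsProbabilityMeasure μ] in
lemma hybrid_sub (hQ : IsQuenchedLaw Q) {n k : ℕ} (hk : k < n) (ω : Env d) :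
    hybrid μ Q e P B n k ω - hybrid μ Q e P B n (k + 1) ω
      = ∑ a ∈ B, ∑ t : Tup e P (k + 1), term μ Q n k ω a t (B.card : ℝ≥0∞)⁻¹ := by
  classical
  simp only [hybrid]
  rw [← Finset.sum_sub_distrib]
  refine Finset.sum_congr rfl fun a _ => ?_
  set N := (B.card : ℝ≥0∞)⁻¹
  rw [sum_snoc, sum_snoc (F := fun t => term μ Q n k ω a t N), ← Finset.sum_sub_distrib]
  refine Finset.sum_congr rfl fun t _ => ?_
  simp only [term, Fin.init_snoc, Fin.snoc_last, good_snoc, lists_snoc, hsum_snoc, tsumDsp_snoc,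
    tupW_snoc, ← add_assoc]
  by_cases hg : t.Good
  swap
  · simp [hg]
  simp only [hg, true_and, if_true]
  have hc : cont Q e P (n - k) k (hsum e t.lists) ω (a + tsumDsp t.lists) = ∑ η : ↥(capPieces e P.M),
      if Ok e P.b P.C P.K k (hsum e t.lists) η.1 then pw ω (a + tsumDsp t.lists) η.1 *
        cont Q e P (n - (k + 1)) (k + 1) (hsum e t.lists + hgt e η.1) ω
          (a + tsumDsp t.lists + dsp η.1) else 0 := by
    rw [show n - k = (n - (k + 1)) + 1 by omega]
    rfl
  rw [hc, ENNReal.toReal_sum ?_, Finset.mul_sum, ← Finset.sum_sub_distrib]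
  · refine Finset.sum_congr rfl fun η _ => ?_
    split_ifs
    · simp only [ENNReal.toReal_mul]
      ring
    · simp
  · intro η _
    split_ifs
    · exact ENNReal.mul_ne_top (ne_top_of_le_ne_top ENNReal.one_ne_top (pw_le_one _ _ _))
        (cont_ne_top hQ _ _ _ _ _)
    · exact ENNReal.zero_ne_top

lemma xi_eq (n s : ℕ) (ω : Env d) :
    xi μ Q e P B n s ω = ∑ k ∈ Finset.range n, ∑ a ∈ B, ∑ t : Tup e P (k + 1),
      (open Classical in if hsum e t.lists = s then term μ Q n k ω a t (B.card : ℝ≥0∞)⁻¹ else 0) := by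
  classical
  set F : (i : (k : Fin n) × (↥B × Tup e P ((k : ℕ) + 1))) → ℝ := fun i =>
    if hsum e i.2.2.lists = s then term μ Q n i.1 ω i.2.1.1 i.2.2 (B.card : ℝ≥0∞)⁻¹ else 0
  have e1 : xi μ Q e P B n s ω = ∑ i : Idx e P B n s, F i.1 := by
    refine Finset.sum_congr rfl fun i _ => ?_
    simp only [F, term, if_pos i.2.1, if_pos i.2.2, centred, Bal.lintegral_pw, Idx.wgt, Idx.past,
      Idx.start, Idx.stop, Idx.piece, i.2.2]
  rw [e1, ← Finset.sum_subtype (p := fun i : (k : Fin n) × (↥B × Tup e P ((k : ℕ) + 1)) =>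
      i.2.2.Good ∧ hsum e i.2.2.lists = s)
    (Finset.univ.filter fun i => i.2.2.Good ∧ hsum e i.2.2.lists = s)
    (fun i => by simp) F, Finset.sum_filter_of_ne, Fintype.sum_sigma,
    ← Fin.sum_univ_eq_sum_range (fun k => ∑ a ∈ B, ∑ t : Tup e P (k + 1),
      if hsum e t.lists = s then term μ Q n k ω a t (B.card : ℝ≥0∞)⁻¹ else 0) n]
  · refine Finset.sum_congr rfl fun k _ => ?_
    rw [Fintype.sum_prod_type]
    exact Finset.sum_coe_sort B fun a => ∑ t : Tup e P ((k : ℕ) + 1),
      if hsum e t.lists = s then term μ Q n k ω a t (B.card : ℝ≥0∞)⁻¹ else 0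
  · intro i _ hi
    simp only [F, term] at hi
    refine ⟨?_, ?_⟩
    · by_contra h
      simp [h] at hi
    · by_contra h
      simp [h] at hi

/-- The quenched and the annealed flow differ by the errors. -/
theorem hybrid_telescope (hQ : IsQuenchedLaw Q) (n : ℕ) (ω : Env d) :
    hybrid μ Q e P B n 0 ω
      = hybrid μ Q e P B n n ω + ∑ s ∈ Finset.range (P.K * n + 1), xi μ Q e P B n s ω := by
  classical
  rw [← sub_eq_iff_eq_add', ← Finset.sum_range_sub' (fun k => hybrid μ Q e P B n k ω) n,
    Finset.sum_congr rfl fun s _ => xi_eq n s ω, Finset.sum_comm]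
  refine Finset.sum_congr rfl fun k hk => ?_
  rw [hybrid_sub hQ (Finset.mem_range.1 hk)]
  conv_rhs => rw [Finset.sum_comm]
  refine Finset.sum_congr rfl fun a _ => ?_
  conv_rhs => rw [Finset.sum_comm]
  refine Finset.sum_congr rfl fun t _ => ?_
  by_cases hg : t.Good
  · rw [Finset.sum_eq_single (hsum e t.lists) (fun s _ hs => if_neg hs.symm) fun hn =>
      absurd (Finset.mem_range.2 ?_) hn]
    · rw [if_pos rfl]
    · have := hg.last.2
      have : P.K * (k + 1) ≤ P.K * n := Nat.mul_le_mul_left P.K (Finset.mem_range.1 hk)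
      omega
  · simp [term, hg]

omit [IsProbabilityMeasure μ] in
lemma hybrid_zero_le (hQ : IsQuenchedLaw Q) (n : ℕ) (ω : Env d) :
    ENNReal.ofReal (hybrid μ Q e P B n 0 ω) ≤ (B.card : ℝ≥0∞)⁻¹ * ∑ a ∈ B, stayP Q e ω a := by
  rw [hybrid, ENNReal.ofReal_sum_of_nonneg fun a _ => Finset.sum_nonneg fun t _ => by
    split_ifs <;> positivity, Finset.mul_sum]
  refine Finset.sum_le_sum fun a _ => ?_
  rw [Fintype.sum_unique, if_pos (show Tup.Good (default : Tup e P 0) from trivial)]
  simp only [tupW, Finset.univ_eq_empty, Finset.prod_empty, mul_one, hsum, tsumDsp, Finset.sum_empty,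
    add_zero, Nat.sub_zero, ← ENNReal.toReal_mul]
  exact ENNReal.ofReal_toReal_le.trans (mul_le_mul_right (cont_le_stayP hQ ω _ _ _ _) _)

end Vale.Agent.P147.Thin
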