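import Vale.Agent.P147.Thin.Defs

/-!
# Polynomial growth of the level implies escape with polynomial range
-/

open MeasureTheory Set Filter Topology

namespace Vale.Agent.P147.Thin

open Vale.Agent.P147.Bal (lev)

variable {d : ℕ}

/-- A level eventually at least `c n ^ γ` gives escape with range exponent `b` when `1 ≤ γ b`. -/
lemma growth_subset (e : Step d) {γ : ℝ} (b : ℕ) (hγ : 0 < γ) (hγb : 1 ≤ γ * b) :
    {X : ℕ → Site d | ∃ c : ℝ, 0 < c ∧ ∀ᶠ n : ℕ in atTop, c * (n : ℝ) ^ γ ≤ (lev e (X n) : ℝ)}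
      ⊆ thinEscape e b := by
  rintro X ⟨c, hc, hev⟩
  refine ⟨tendsto_atTop_mono' _ hev
    (((tendsto_rpow_atTop hγ).comp tendsto_natCast_atTop_atTop).const_mul_atTop hc), ?_⟩
  obtain ⟨N, hN⟩ := eventually_atTop.1 hev
  set A : ℝ := max 1 ((|(lev e (X 0) : ℝ)| + 1) / c)
  have hA : 1 ≤ A := le_max_left _ _
  refine ⟨N + 1 + ⌈A ^ b⌉₊, fun n J hJ => ?_⟩
  refine le_trans (Finset.card_image_le.trans (le_of_eq (Finset.card_range n))) ?_
  have h1 : 1 ≤ (J + 1) ^ b := Nat.one_le_pow _ _ (by omega)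
  rcases le_or_gt n (N + 1) with hn | hn
  · calc n ≤ N + 1 + ⌈A ^ b⌉₊ := by omega
      _ ≤ _ := Nat.le_mul_of_pos_right _ h1
  obtain ⟨m, rfl⟩ : ∃ m, n = m + 1 := ⟨n - 1, by omega⟩
  have hg := hN m (by omega)
  have hl : (lev e (X m) : ℝ) ≤ J + |(lev e (X 0) : ℝ)| := by
    have h := hJ m (by omega)
    have h' : ((lev e (X m) - lev e (X 0) : ℤ) : ℝ) ≤ ((J : ℤ) : ℝ) := by exact_mod_cast h.le
    push_cast at h'
    linarith [le_abs_self (lev e (X 0) : ℝ)]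
  have hx : (m : ℝ) ^ γ ≤ A * (J + 1) := by
    have h2 : ((|(lev e (X 0) : ℝ)| + 1) / c) * (J + 1) ≤ A * (J + 1) :=
      mul_le_mul_of_nonneg_right (le_max_right _ _) (by positivity)
    refine le_trans ?_ h2
    rw [div_mul_eq_mul_div, le_div_iff₀ hc]
    have h0 : (0 : ℝ) ≤ |(lev e (X 0) : ℝ)| * J := by positivity
    nlinarith [hg.trans hl]
  have hm : (m : ℝ) ≤ A ^ b * ((J : ℝ) + 1) ^ b := by
    rw [← mul_pow, ← Real.rpow_natCast]
    calc (m : ℝ) = ((m : ℝ) ^ γ) ^ γ⁻¹ := (Real.rpow_rpow_inv (Nat.cast_nonneg m) hγ.ne').symm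
      _ ≤ (A * (J + 1)) ^ γ⁻¹ := Real.rpow_le_rpow (by positivity) hx (by positivity)
      _ ≤ _ := Real.rpow_le_rpow_of_exponent_le (one_le_mul_of_one_le_of_one_le hA (by simp))
          ((inv_le_iff_one_le_mul₀ hγ).2 (by rwa [mul_comm]))
  have h2 : m ≤ ⌈A ^ b⌉₊ * (J + 1) ^ b := by
    have : (m : ℝ) ≤ ((⌈A ^ b⌉₊ * (J + 1) ^ b : ℕ) : ℝ) := by
      push_cast
      exact hm.trans (mul_le_mul_of_nonneg_right (Nat.le_ceil _) (by positivity))
    exact_mod_cast this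
  calc m + 1 ≤ ⌈A ^ b⌉₊ * (J + 1) ^ b + (N + 1) * (J + 1) ^ b := by
        have := Nat.le_mul_of_pos_right (N + 1) h1
        omega
    _ = _ := by ring

end Vale.Agent.P147.Thin
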