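import Vale.Agent.P147.Thin.Defs

/-!
# Resampling the rows off a set of sites
-/

open MeasureTheory Set Filter Topology
open scoped ENNReal

namespace Vale.Agent.P147.Thin

open Vale.Agent.P147.Proj (dsp verts wt iid DepOn)
open Vale.Agent.P147.Bal (pw)

variable {d : ℕ} {α : Type*}

lemma DepOnSet.mono {f : Env d → α} {S T : Set (Site d)} (h : DepOnSet f S) (hST : S ⊆ T) :
    DepOnSet f T := fun ω ω' hx => h ω ω' fun x hxS => hx x (hST hxS)

lemma depOnSet_of_depOn {f : Env d → ℝ≥0∞} {F : Finset (Site d)} (h : DepOn f F) :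
    DepOnSet f (F : Set (Site d)) := fun ω ω' hx => h ω ω' fun x hxF => hx x hxF

lemma depOnSet_pw {S : Set (Site d)} (x : Site d) (γ : List (Step d))
    (h : ∀ v ∈ verts x γ, v ∈ S) : DepOnSet (fun ω => pw ω x γ) S :=
  fun _ _ hx => Proj.wt_congr _ x γ fun v hv => hx v (h v hv)

lemma depOnSet_const (c : α) (S : Set (Site d)) : DepOnSet (fun _ : Env d => c) S :=
  fun _ _ _ => rfl

lemma DepOnSet.comp {β : Type*} {f : Env d → α} {S : Set (Site d)} (h : DepOnSet f S) (g : α → β) :
    DepOnSet (fun ω => g (f ω)) S := fun ω ω' hx => congrArg g (h ω ω' hx)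

lemma DepOnSet.map₂ {β γ : Type*} {f : Env d → α} {g : Env d → β} {S : Set (Site d)}
    (hf : DepOnSet f S) (hg : DepOnSet g S) (op : α → β → γ) :
    DepOnSet (fun ω => op (f ω) (g ω)) S := fun ω ω' hx => congrArg₂ op (hf ω ω' hx) (hg ω ω' hx)

lemma measurable_merge (S : Set (Site d)) : Measurable (merge (d := d) S) := by
  classical
  refine measurable_pi_lambda _ fun x => ?_
  by_cases h : x ∈ S
  · simp only [merge, if_pos h]
    exact (measurable_pi_apply x).comp measurable_fst
  · simp only [merge, if_neg h]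
    exact (measurable_pi_apply x).comp measurable_snd

lemma merge_left {f : Env d → α} {S : Set (Site d)} (h : DepOnSet f S) (z : Env d × Env d) :
    f (merge S z) = f z.1 := h _ _ fun x hx => by simp [merge, hx]

lemma merge_right {f : Env d → α} {S : Set (Site d)} (h : DepOnSet f Sᶜ) (z : Env d × Env d) :
    f (merge S z) = f z.2 := h _ _ fun x hx => by simp [merge, show x ∉ S from hx]

variable (μ : Measure (Row d)) [IsProbabilityMeasure μ]

lemma map_merge (S : Set (Site d)) :
    ((iid μ).prod (iid μ)).map (merge S) = iid μ := by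
  classical
  refine Measure.eq_infinitePi _ fun s t ht => ?_
  rw [Measure.map_apply (measurable_merge S) (MeasurableSet.pi s.countable_toSet fun x _ => ht x)]
  have e : merge S ⁻¹' (s : Set (Site d)).pi t
      = ((s.filter (· ∈ S) : Finset (Site d)) : Set (Site d)).pi t ×ˢ
        ((s.filter (· ∉ S) : Finset (Site d)) : Set (Site d)).pi t := by
    ext z
    simp only [mem_preimage, Set.mem_pi, Finset.mem_coe, mem_prod, Finset.mem_filter, merge]
    constructor
    · exact fun h => ⟨fun x hx => by simpa [hx.2] using h x hx.1,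
        fun x hx => by simpa [hx.2] using h x hx.1⟩
    · intro h x hx
      by_cases hS : x ∈ S
      · simpa [hS] using h.1 x ⟨hx, hS⟩
      · simpa [hS] using h.2 x ⟨hx, hS⟩
  rw [e, Measure.prod_prod, Measure.infinitePi_pi _ (fun x _ => ht x),
    Measure.infinitePi_pi _ (fun x _ => ht x), Finset.prod_filter_mul_prod_filter_not]

lemma lintegral_merge {F : Env d → ℝ≥0∞} (hF : Measurable F) (S : Set (Site d)) :
    ∫⁻ ω, F ω ∂iid μ = ∫⁻ η, ∫⁻ ξ, F (merge S (ξ, η)) ∂iid μ ∂iid μ := by
  conv_lhs => rw [← map_merge μ S, lintegral_map hF (measurable_merge S)]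
  exact lintegral_prod_symm _ (hF.comp (measurable_merge S)).aemeasurable

/-- Functions of the rows on `S` and off `S` are independent. -/
lemma lintegral_mul_depOnSet {f g : Env d → ℝ≥0∞} (hf : Measurable f) (hg : Measurable g)
    {S : Set (Site d)} (hfS : DepOnSet f S) (hgS : DepOnSet g Sᶜ) :
    ∫⁻ ω, f ω * g ω ∂iid μ = (∫⁻ ω, f ω ∂iid μ) * ∫⁻ ω, g ω ∂iid μ := by
  rw [lintegral_merge μ (F := fun ω => f ω * g ω) (hf.mul hg) S]
  simp only [merge_left hfS, merge_right hgS]
  rw [← lintegral_const_mul _ hg]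
  exact lintegral_congr fun η => lintegral_mul_const _ hf

lemma integral_mul_depOnSet {f g : Env d → ℝ} (hf : Measurable f) (hg : Measurable g)
    {S : Set (Site d)} (hfS : DepOnSet f S) (hgS : DepOnSet g Sᶜ) :
    ∫ ω, f ω * g ω ∂iid μ = (∫ ω, f ω ∂iid μ) * ∫ ω, g ω ∂iid μ := by
  conv_lhs => rw [← map_merge μ S, integral_map (measurable_merge S).aemeasurable
    (f := fun ω => f ω * g ω) (hf.mul hg).aestronglyMeasurable]
  simp only [merge_left hfS, merge_right hgS]
  exact integral_prod_mul f g

end Vale.Agent.P147.Thin
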