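import Vale.Agent.P147.Thin.Out

/-!
# The local bound for the displacement of `k` capped pieces

The transform `φ` of the capped pieces satisfies `1 - |φ|² ≥ c ∑ θ_j²` over the transverse
coordinates, since the pieces `[e]` and `[a, e]` differ by a transverse unit vector. Fourier
inversion and a Gaussian integral give the bound, uniformly in the cap.
-/

open MeasureTheory Set Filter Topology
open scoped ENNReal

namespace Vale.Agent.P147.Thin

open Vale.Agent.P147.Proj (dsp verts iid)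
open Vale.Agent.P147.Bal (lev pw pq cw u Irr hgt)
open Vale.Agent.P147.Bal.Fourier (dot chr box phi)

variable {d : ℕ} {μ : Measure (Row d)} {e : Step d}

lemma mem_capPieces_iff {M : ℕ} {γ : List (Step d)} :
    γ ∈ capPieces e M ↔ γ.length < M ∧ Irr e γ := by
  simp [capPieces, Proj.mem_short]

lemma sum_capPieces_le [IsProbabilityMeasure μ] {p : ℝ≥0∞} (hp : p ≠ 0)
    (hu : ∀ J, p ≤ u μ e J) (M : ℕ) : ∑ γ ∈ capPieces e M, cw μ γ ≤ 1 := by
  classical
  have h := Bal.tsum_hlaw_mul (μ := μ) (e := e) fun _ => 1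
  simp only [mul_one] at h
  rw [Bal.tsum_hlaw hp hu] at h
  rw [h]
  refine le_of_eq_of_le (Finset.sum_congr rfl fun γ hγ => ?_) (ENNReal.sum_le_tsum _)
  rw [if_pos (mem_capPieces_iff.1 hγ).2]

lemma chr_sum {ι : Type*} (s : Finset ι) (z : ι → Site d) (θ : Fin d → ℝ) :
    chr (∑ i ∈ s, z i) θ = ∏ i ∈ s, chr (z i) θ := by
  classical
  induction s using Finset.induction with
  | empty => simp [Bal.Fourier.chr_zero]
  | insert a s ha ih =>
      rw [Finset.sum_insert ha, Finset.prod_insert ha, Bal.Fourier.chr_add, ih]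

lemma sq_norm_sum_chr {ι : Type*} (s : Finset ι) (w : ι → ℝ) (z : ι → Site d) (θ : Fin d → ℝ) :
    ‖∑ i ∈ s, (w i : ℂ) * chr (z i) θ‖ ^ 2
      = ∑ i ∈ s, ∑ j ∈ s, w i * w j * Real.cos (dot (z i) θ - dot (z j) θ) := by
  rw [← Complex.normSq_eq_norm_sq, Complex.normSq_apply]
  simp only [Complex.re_sum, Complex.im_sum, Complex.re_ofReal_mul, Complex.im_ofReal_mul,
    Bal.Fourier.re_chr, Bal.Fourier.im_chr, Finset.sum_mul_sum, ← Finset.sum_add_distrib,
    Real.cos_sub]
  exact Finset.sum_congr rfl fun i _ => Finset.sum_congr rfl fun j _ => by ring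

lemma one_sub_sq_norm_ge {ι : Type*} (s : Finset ι) (w : ι → ℝ) (z : ι → Site d)
    (hw : ∀ i ∈ s, 0 ≤ w i) (hs : ∑ i ∈ s, w i ≤ 1) {q : ℝ} (hq : 0 ≤ q) {a b : ι}
    (ha : a ∈ s) (hb : b ∈ s) (hqa : q ≤ w a) (hqb : q ≤ w b) (θ : Fin d → ℝ) :
    q ^ 2 * (1 - Real.cos (dot (z a) θ - dot (z b) θ))
      ≤ 1 - ‖∑ i ∈ s, (w i : ℂ) * chr (z i) θ‖ ^ 2 := by
  set T := fun i j => w i * w j * (1 - Real.cos (dot (z i) θ - dot (z j) θ))
  have hT : ∀ i ∈ s, ∀ j ∈ s, 0 ≤ T i j := fun i hi j hj =>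
    mul_nonneg (mul_nonneg (hw i hi) (hw j hj)) (sub_nonneg.2 (Real.cos_le_one _))
  have h1 : ∑ i ∈ s, ∑ j ∈ s, T i j ≤ 1 - ‖∑ i ∈ s, (w i : ℂ) * chr (z i) θ‖ ^ 2 := by
    rw [sq_norm_sum_chr]
    simp only [T, mul_sub, mul_one, Finset.sum_sub_distrib, ← Finset.sum_mul_sum]
    have h0 : 0 ≤ ∑ i ∈ s, w i := Finset.sum_nonneg hw
    nlinarith
  refine le_trans ?_ h1
  refine le_trans ?_ ((Finset.single_le_sum (f := fun j => T a j) (hT a ha) hb).trans
    (Finset.single_le_sum (f := fun i => ∑ j ∈ s, T i j)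
      (fun i hi => Finset.sum_nonneg (hT i hi)) ha))
  refine mul_le_mul_of_nonneg_right ?_ (sub_nonneg.2 (Real.cos_le_one _))
  rw [sq]
  exact mul_le_mul hqa hqb hq (hw a ha)

/-- The Gaussian integral over a period. -/
lemma integral_gauss_le {c : ℝ} (hc : 0 < c) (k : ℕ) :
    ∫ t, Real.exp (-(c * k) * t ^ 2) ∂volume.restrict (Icc (-Real.pi) Real.pi)
      ≤ Real.exp (c * Real.pi ^ 2) * Real.sqrt (Real.pi / (c * ((k : ℝ) + 1))) := by
  have hk : 0 < c * ((k : ℝ) + 1) := by positivity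
  rw [← integral_gaussian, ← integral_const_mul]
  refine le_trans (integral_mono_of_nonneg (ae_of_all _ fun t => (Real.exp_pos _).le)
    ((integrable_exp_neg_mul_sq hk).const_mul _).restrict ?_)
    (setIntegral_le_integral ((integrable_exp_neg_mul_sq hk).const_mul _)
      (ae_of_all _ fun t => by positivity))
  filter_upwards [ae_restrict_mem measurableSet_Icc] with t ht
  rw [← Real.exp_add]
  refine Real.exp_le_exp.2 ?_
  have : t ^ 2 ≤ Real.pi ^ 2 := sq_le_sq' ht.1 ht.2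
  nlinarith

theorem localOut [IsProbabilityMeasure μ] {p : ℝ≥0∞} (hd : 2 ≤ d)
    (hell : ∀ᵐ r ∂μ, ∀ a : Step d, 0 < r.1 a) (hp : p ≠ 0) (hu : ∀ J, p ≤ u μ e J) :
    LocalOut μ e := by
  classical
  have hfin : ∀ γ, Irr e γ → cw μ γ ≠ ∞ := fun γ hγ => ne_top_of_le_ne_top ENNReal.one_ne_top
    ((Finset.single_le_sum (f := cw μ) (fun _ _ => bot_le)
      (mem_capPieces_iff.2 ⟨Nat.lt_succ_self γ.length, hγ⟩)).trans (sum_capPieces_le hp hu _))
  -- a lower bound for the weights of the two kinds of atoms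
  set atoms : Finset (List (Step d)) := insert [e]
    ((Finset.univ.filter fun a : Step d => a.1 ≠ e.1).image fun a => [a, e])
  have hirr : ∀ γ ∈ atoms, Irr e γ ∧ γ.length < 3 := by
    intro γ hγ
    rcases Finset.mem_insert.1 hγ with rfl | h
    · exact ⟨Bal.irr_single, by simp⟩
    · obtain ⟨a, ha, rfl⟩ := Finset.mem_image.1 h
      exact ⟨Bal.irr_pair (Finset.mem_filter.1 ha).2, by simp⟩
  have hne : atoms.Nonempty := Finset.insert_nonempty _ _
  set q := atoms.inf' hne fun γ => (cw μ γ).toReal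
  have hq : 0 < q := (Finset.lt_inf'_iff hne).2 fun γ hγ =>
    ENNReal.toReal_pos (Bal.cw_ne_zero hell γ) (hfin γ (hirr γ hγ).1)
  have hdpos : (0 : ℝ) < d := by exact_mod_cast (show 0 < d by omega)
  set c : ℝ := q ^ 2 / (Real.pi ^ 2 * d) with hc_def
  have hc : 0 < c := by positivity
  set G : ℝ := Real.exp (c * Real.pi ^ 2) * Real.sqrt (Real.pi / c)
  refine ⟨G ^ (d - 1) / (2 * Real.pi) ^ (d - 1), fun P hP k y => ?_⟩
  set w : List (Step d) → ℝ := fun γ => (cw μ γ).toReal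
  have hw : ∀ γ, 0 ≤ w γ := fun γ => ENNReal.toReal_nonneg
  have hsum : ∑ γ ∈ capPieces e P.M, w γ ≤ 1 := by
    rw [← ENNReal.toReal_sum fun γ hγ => hfin γ (mem_capPieces_iff.1 hγ).2]
    exact ENNReal.toReal_le_of_le_ofReal zero_le_one
      (by simpa using sum_capPieces_le hp hu P.M)
  set φ : (Fin d → ℝ) → ℂ := fun θ =>
    ∑ γ ∈ capPieces e P.M, (w γ : ℂ) * chr (dsp γ) θ
  have hmem : ∀ γ ∈ atoms, γ ∈ capPieces e P.M := fun γ hγ =>
    mem_capPieces_iff.2 ⟨(hirr γ hγ).2.trans_le hP, (hirr γ hγ).1⟩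
  -- the transform decays in the transverse coordinates
  have hphi : ∀ θ : Fin d → ℝ, (∀ j, |θ j| ≤ Real.pi) →
      ‖φ θ‖ ^ 2 ≤ 1 - 2 * c * ∑ j ∈ Finset.univ.erase e.1, θ j ^ 2 := by
    intro θ hθ
    have hj : ∀ j ∈ Finset.univ.erase e.1,
        2 * q ^ 2 / Real.pi ^ 2 * θ j ^ 2 ≤ 1 - ‖φ θ‖ ^ 2 := by
      intro j hj
      have hje : ((j, true) : Step d).1 ≠ e.1 := (Finset.mem_erase.1 hj).1
      have hA : [(j, true), e] ∈ atoms :=
        Finset.mem_insert_of_mem (Finset.mem_image.2 ⟨(j, true), by simp [hje], rfl⟩)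
      have hB : [e] ∈ atoms := Finset.mem_insert_self _ _
      have h := one_sub_sq_norm_ge (capPieces e P.M) w (fun γ => dsp γ) (fun γ _ => hw γ) hsum
        hq.le (hmem _ hA) (hmem _ hB) (Finset.inf'_le _ hA) (Finset.inf'_le _ hB) θ
      simp only [Proj.dsp_cons, Proj.dsp_nil, add_zero, Bal.Fourier.dot_add, add_sub_cancel_right,
        Bal.Fourier.dot_vec, Bal.Fourier.cos_sgn_mul] at h
      refine le_trans ?_ h
      have h2 := Real.cos_le_one_sub_mul_cos_sq (hθ j)
      rw [show 2 * q ^ 2 / Real.pi ^ 2 * θ j ^ 2 = q ^ 2 * (2 / Real.pi ^ 2 * θ j ^ 2) by ring]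
      exact mul_le_mul_of_nonneg_left (by linarith) (sq_nonneg q)
    have hnn : 0 ≤ 1 - ‖φ θ‖ ^ 2 := by
      have h1 : ‖φ θ‖ ≤ 1 := (norm_sum_le _ _).trans (le_trans (le_of_eq
        (Finset.sum_congr rfl fun γ _ => by
          rw [norm_mul, Bal.Fourier.norm_chr, mul_one, Complex.norm_real,
            Real.norm_of_nonneg (hw γ)])) hsum)
      nlinarith [norm_nonneg (φ θ)]
    have := Finset.sum_le_sum hj
    rw [← Finset.mul_sum, Finset.sum_const, nsmul_eq_mul] at this
    have hcard : ((Finset.univ.erase e.1).card : ℝ) ≤ d := by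
      exact_mod_cast (Finset.card_le_univ _).trans (by simp)
    have h2 := mul_le_mul_of_nonneg_right hcard hnn
    have h3 : 2 * c * ∑ j ∈ Finset.univ.erase e.1, θ j ^ 2 =
        (2 * q ^ 2 / Real.pi ^ 2 * ∑ j ∈ Finset.univ.erase e.1, θ j ^ 2) / d := by
      rw [hc_def]; field_simp
    have h4 : (2 * q ^ 2 / Real.pi ^ 2 * ∑ j ∈ Finset.univ.erase e.1, θ j ^ 2) / d
        ≤ 1 - ‖φ θ‖ ^ 2 := by
      rw [div_le_iff₀ hdpos]; linarith
    linarith
  have hgauss : ∀ θ : Fin d → ℝ, (∀ j, |θ j| ≤ Real.pi) → ‖φ θ‖ ^ k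
      ≤ ∏ j, (if j = e.1 then 1 else Real.exp (-(c * k) * θ j ^ 2)) := by
    intro θ hθ
    rw [Finset.prod_ite, Finset.prod_const_one, one_mul, ← Real.exp_sum,
      show (Finset.univ.filter fun j => ¬j = e.1) = Finset.univ.erase e.1 by ext; simp]
    set S := ∑ j ∈ Finset.univ.erase e.1, θ j ^ 2
    have h1 : ‖φ θ‖ ^ 2 ≤ Real.exp (-(c * S)) ^ 2 := by
      refine (hphi θ hθ).trans ?_
      rw [← Real.exp_nat_mul]
      refine le_trans (le_of_eq ?_) (Real.add_one_le_exp _)
      push_cast; ring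
    have h2 := pow_le_pow_left₀ (norm_nonneg _)
      ((pow_le_pow_iff_left₀ (norm_nonneg _) (Real.exp_pos _).le two_ne_zero).1 h1) k
    refine h2.trans (le_of_eq ?_)
    rw [← Real.exp_nat_mul]
    congr 1
    rw [← Finset.mul_sum]
    ring
  -- Fourier inversion
  have hpm : pointMass μ e P k y = ENNReal.ofReal
      (∑ t : Tup e P k, if tsumDsp t.lists = y then ∏ i, w (t i).1 else 0) := by
    rw [ENNReal.ofReal_sum_of_nonneg (fun t _ => by
      split_ifs
      · exact Finset.prod_nonneg fun i _ => hw _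
      · exact le_rfl)]
    refine Finset.sum_congr rfl fun t _ => ?_
    split_ifs
    · rw [ENNReal.ofReal_prod_of_nonneg fun i _ => hw _]
      exact Finset.prod_congr rfl fun i _ =>
        (ENNReal.ofReal_toReal (hfin _ (mem_capPieces_iff.1 (t i).2).2)).symm
    · simp
  have hexp : ∀ θ, φ θ ^ k * chr (-y) θ
      = ∑ t : Tup e P k, ((∏ i, w (t i).1 : ℝ) : ℂ) * chr (tsumDsp t.lists + -y) θ := by
    intro θ
    rw [show φ θ = ∑ γ : ↥(capPieces e P.M), (w γ.1 : ℂ) * chr (dsp γ.1) θ from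
      (Finset.sum_coe_sort (capPieces e P.M) fun γ => (w γ : ℂ) * chr (dsp γ) θ).symm,
      Fintype.sum_pow, Finset.sum_mul]
    refine Finset.sum_congr rfl fun t _ => ?_
    rw [Bal.Fourier.chr_add, tsumDsp, chr_sum, Finset.prod_mul_distrib, Complex.ofReal_prod]
    simp only [Tup.lists, mul_assoc]
  have hint : ∫ θ, φ θ ^ k * chr (-y) θ ∂box d = (((2 * Real.pi) ^ d *
      ∑ t : Tup e P k, if tsumDsp t.lists = y then ∏ i, w (t i).1 else 0 : ℝ) : ℂ) := by
    simp only [hexp]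
    rw [integral_finsetSum _ fun t _ => (Bal.Fourier.integrable_chr _).const_mul _]
    simp only [integral_const_mul, Bal.Fourier.integral_chr, ← sub_eq_add_neg, sub_eq_zero,
      Complex.ofReal_mul, Complex.ofReal_sum, Finset.mul_sum]
    refine Finset.sum_congr rfl fun t _ => ?_
    split_ifs <;> simp [mul_comm]
  have hbound : ‖∫ θ, φ θ ^ k * chr (-y) θ ∂box d‖
      ≤ 2 * Real.pi * (G / Real.sqrt ((k : ℝ) + 1)) ^ (d - 1) := by
    refine (norm_integral_le_integral_norm _).trans ?_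
    have hgi : Integrable (fun θ : Fin d → ℝ =>
        ∏ j, (fun (j : Fin d) (t : ℝ) =>
          if j = e.1 then 1 else Real.exp (-(c * k) * t ^ 2)) j (θ j)) (box d) := by
      refine Integrable.fintype_prod (μ := fun _ : Fin d => volume.restrict (Icc (-Real.pi) Real.pi))
        (f := fun (j : Fin d) (t : ℝ) => if j = e.1 then (1 : ℝ) else Real.exp (-(c * k) * t ^ 2))
        fun j => ?_
      refine Integrable.mono' (integrable_const 1) ?_ (ae_of_all _ fun t => ?_)
      · split_ifs <;> fun_prop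
      · split_ifs
        · simp
        · rw [Real.norm_of_nonneg (Real.exp_pos _).le]
          exact Real.exp_le_one_iff.2 (by
            have : 0 ≤ c * k * t ^ 2 := by positivity
            linarith)
    refine (integral_mono_of_nonneg (ae_of_all _ fun θ => norm_nonneg _) hgi ?_).trans ?_
    · filter_upwards [Bal.Fourier.ae_box_bound d] with θ hθ
      rw [norm_mul, Bal.Fourier.norm_chr, mul_one, norm_pow]
      exact hgauss θ fun j => (hθ j).1
    rw [box, integral_fintype_prod_eq_prod (𝕜 := ℝ)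
      (fun (j : Fin d) (t : ℝ) => if j = e.1 then 1 else Real.exp (-(c * k) * t ^ 2)),
      ← Finset.mul_prod_erase _ _ (Finset.mem_univ e.1)]
    refine mul_le_mul (le_of_eq ?_) ?_ (Finset.prod_nonneg fun j _ =>
      integral_nonneg fun t => by split_ifs <;> positivity) (by positivity)
    · simp [two_mul, Real.pi_pos.le]
    refine (Finset.prod_le_prod (fun j _ => integral_nonneg fun t => by split_ifs <;> positivity)
      (g := fun _ => G / Real.sqrt ((k : ℝ) + 1)) fun j hj => ?_).trans (le_of_eq ?_)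
    · simp only [if_neg (Finset.mem_erase.1 hj).1]
      refine (integral_gauss_le hc k).trans (le_of_eq ?_)
      rw [mul_div_assoc, ← Real.sqrt_div (by positivity), div_div]
    · simp [div_pow]
  -- conclusion
  rw [hpm]
  refine ENNReal.ofReal_le_ofReal ?_
  rw [hint, Complex.norm_real, Real.norm_eq_abs] at hbound
  have h0 := (le_abs_self _).trans hbound
  have hsk : (1 : ℝ) ≤ Real.sqrt ((k : ℝ) + 1) := by
    rw [Real.one_le_sqrt]; linarith [k.cast_nonneg (α := ℝ)]
  have hden : ((k : ℝ) + 1) ^ ((d - 1) / 2) ≤ Real.sqrt ((k : ℝ) + 1) ^ (d - 1) := by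
    refine le_trans (le_of_eq ?_) (pow_le_pow_right₀ hsk
      (show 2 * ((d - 1) / 2) ≤ d - 1 by omega))
    rw [pow_mul, Real.sq_sqrt (by positivity)]
  have h2π : (0 : ℝ) < 2 * Real.pi := by positivity
  have hsplit : (2 * Real.pi) ^ d = 2 * Real.pi * (2 * Real.pi) ^ (d - 1) := by
    rw [← pow_succ', Nat.sub_add_cancel (by omega)]
  rw [div_pow, hsplit, mul_assoc] at h0
  have h5 := le_of_mul_le_mul_left h0 h2π
  rw [mul_comm] at h5
  refine ((le_div_iff₀ (by positivity)).2 h5).trans ?_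
  rw [div_right_comm]
  exact div_le_div_of_nonneg_left (by positivity) (by positivity) hden

end Vale.Agent.P147.Thin
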