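import Vale.Agent.P147.Thin.Out

/-!
# Polynomial range escape gives a mass of good capped pieces bounded below

An escaping path attains its minimal level and keeps a polynomial range from there on. Its prefixes
up to level `J` are concatenations of irreducible pieces, so the product law of the pieces gives the
good sequences at least the annealed mass of staying. The strong law bounds the heights linearly.
-/

open MeasureTheory Set Filter Topology ProbabilityTheory
open scoped ENNReal

namespace Vale.Agent.P147.Thin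

open Vale.Agent.P147.Proj (dsp verts iid)
open Vale.Agent.P147.Bal (lev pw cw u Pre Adm Irr hgt Piece pieceLaw flat nnPaths lcyl stayMass)

variable {d : ℕ}

/-- Escape above the start with range constant `C`. -/
def thinStay (e : Step d) (b C : ℕ) : Set (ℕ → Site d) :=
  {X | Tendsto (fun n => (lev e (X n) : ℝ)) atTop atTop} ∩ (StayEv e ∩ RangeBound e b C)

lemma measurable_lev (e : Step d) (k : ℕ) : Measurable fun X : ℕ → Site d => lev e (X k) :=
  (measurable_of_countable fun x : Site d => lev e x).comp (measurable_pi_apply k)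

lemma measurableSet_rangeBound (e : Step d) (b C : ℕ) : MeasurableSet (RangeBound e b C) := by
  simp only [RangeBound, ofPred_forall]
  refine MeasurableSet.iInter fun n => MeasurableSet.iInter fun J => ?_
  set g : (Fin (n + 1) → Site d) → Prop := fun v =>
    (∀ k : Fin (n + 1), (k : ℕ) < n → lev e (v k) - lev e (v 0) < (J : ℤ)) →
      ((Finset.univ.filter fun k : Fin (n + 1) => (k : ℕ) < n).image v).card ≤ C * (J + 1) ^ b
  have hm : Measurable fun X : ℕ → Site d => fun k : Fin (n + 1) => X k :=
    measurable_pi_lambda _ fun k => measurable_pi_apply _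
  convert hm (MeasurableSet.of_discrete (s := {v | g v})) using 1
  ext X
  simp only [mem_ofPred_eq, mem_preimage, g]
  have e1 : ((Finset.univ.filter fun k : Fin (n + 1) => (k : ℕ) < n).image fun k : Fin (n + 1) => X k)
      = (Finset.range n).image X := by
    ext x
    simp only [Finset.mem_image, Finset.mem_filter, Finset.mem_univ, true_and, Finset.mem_range]
    exact ⟨fun ⟨k, hk, hx⟩ => ⟨k, hk, hx⟩, fun ⟨k, hk, hx⟩ => ⟨⟨k, by omega⟩, hk, hx⟩⟩
  rw [e1]
  exact ⟨fun h hk => h fun k hk' => hk ⟨k, by omega⟩ hk', fun h hk => h fun k hk' => hk k hk'⟩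

lemma measurableSet_stayEv_mass (e : Step d) : MeasurableSet (StayEv e) := by
  simp only [StayEv, ofPred_forall]
  exact MeasurableSet.iInter fun k => measurableSet_le (measurable_lev e 0) (measurable_lev e k)

lemma measurableSet_thinStay (e : Step d) (b C : ℕ) : MeasurableSet (thinStay e b C) :=
  (measurableSet_tendsto _ fun n => Bal.measurable_levSeq e n).inter
    ((measurableSet_stayEv_mass e).inter (measurableSet_rangeBound e b C))

lemma rangeBound_mono {e : Step d} {b C C' : ℕ} (h : C ≤ C') :
    RangeBound e b C ⊆ RangeBound e b C' := fun _ hX n J hk =>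
  (hX n J hk).trans (Nat.mul_le_mul_right _ h)

/-- After the time of its minimum an escaping path stays above it, with a polynomial range. -/
lemma exists_thinStay {e : Step d} {b : ℕ} {X : ℕ → Site d} (hX : X ∈ thinEscape e b) :
    ∃ n C, ptail^[n] X ∈ thinStay e b C := by
  obtain ⟨ht, C, hC⟩ := hX
  obtain ⟨M, hM⟩ := Filter.eventually_atTop.1 (ht.eventually_ge_atTop (lev e (X 0) : ℝ))
  obtain ⟨n, -, hn⟩ := Finset.exists_min_image (Finset.range (M + 1)) (fun k => lev e (X k))
    ⟨0, by simp⟩
  set D : ℕ := (Finset.range (n + 1)).sup fun k => (lev e (X k) - lev e (X 0)).toNat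
  have hit : ∀ k, (ptail^[n] X) k = X (k + n) := fun k => Bal.iterate_ptail n k X
  refine ⟨n, C * (D + 2) ^ b, ?_, fun k => ?_, fun m J hJ => ?_⟩
  · show Tendsto (fun k => (lev e ((ptail^[n] X) k) : ℝ)) atTop atTop
    simp only [hit]
    exact ht.comp (tendsto_add_atTop_nat n)
  · rw [hit, hit, zero_add]
    by_cases hk : k + n < M + 1
    · exact hn _ (Finset.mem_range.2 hk)
    · have h1 : lev e (X 0) ≤ lev e (X (k + n)) := by exact_mod_cast hM (k + n) (by omega)
      exact (hn 0 (by simp)).trans h1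
  · simp only [hit, zero_add] at hJ
    have hD : ∀ k ≤ n, lev e (X k) - lev e (X 0) ≤ (D : ℤ) := fun k hk => by
      have := Finset.le_sup (f := fun k => (lev e (X k) - lev e (X 0)).toNat)
        (Finset.mem_range.2 (show k < n + 1 by omega))
      have := Int.self_le_toNat (lev e (X k) - lev e (X 0))
      simp only [D]
      omega
    have hk : ∀ k < n + m, lev e (X k) - lev e (X 0) < ((D + J + 1 : ℕ) : ℤ) := fun k hk => by
      rcases le_or_gt k n with h | h
      · have := hD k h; push_cast; omega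
      · have h1 := hJ (k - n) (by omega)
        rw [Nat.sub_add_cancel h.le] at h1
        have := hD n le_rfl
        push_cast; omega
    calc ((Finset.range m).image (ptail^[n] X)).card ≤ ((Finset.range (n + m)).image X).card := by
          refine Finset.card_le_card fun x hx => ?_
          simp only [Finset.mem_image, Finset.mem_range] at hx ⊢
          obtain ⟨k, hk, rfl⟩ := hx
          exact ⟨k + n, by omega, (hit k).symm⟩
      _ ≤ C * (D + J + 1 + 1) ^ b := hC _ _ hk
      _ ≤ C * ((D + 2) * (J + 1)) ^ b :=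
          Nat.mul_le_mul_left _ (Nat.pow_le_pow_left (by nlinarith) _)
      _ = _ := by rw [mul_pow, mul_assoc]

lemma thinStay_translate (e : Step d) (b C : ℕ) (z : Site d) :
    (fun (X : ℕ → Site d) k => X k - z) ⁻¹' thinStay e b C = thinStay e b C := by
  ext X
  have hl : ∀ y, lev e (y - z) = lev e y - lev e z := fun y => Bal.lev_sub e y z
  have hc : ∀ n, ((Finset.range n).image fun k => X k - z).card
      = ((Finset.range n).image X).card := fun n => by
    rw [show (fun k => X k - z) = (fun y => y - z) ∘ X from rfl, ← Finset.image_image,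
      Finset.card_image_of_injective _ sub_left_injective]
  simp only [mem_preimage, thinStay, mem_inter_iff, StayEv, RangeBound, mem_ofPred_eq, hl,
    sub_le_sub_iff_right, sub_sub_sub_cancel_right, hc]
  refine and_congr_left fun _ => ?_
  simp only [sub_eq_add_neg, Int.cast_add]
  refine ⟨fun h => ?_, fun h => tendsto_atTop_add_const_right _ _ h⟩
  simpa [add_assoc] using tendsto_atTop_add_const_right _ ((lev e z : ℝ)) h

variable {μ : Measure (Row d)} [IsProbabilityMeasure μ]
  {Q : Env d → Site d → Measure (ℕ → Site d)} {e : Step d} {b : ℕ}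

lemma exists_thinStay_pos (hQ : IsQuenchedLaw Q)
    (h : ∫⁻ ω, Q ω 0 (thinEscape e b) ∂iid μ ≠ 0) :
    ∃ C, 1 ≤ C ∧ ∫⁻ ω, Q ω 0 (thinStay e b C) ∂iid μ ≠ 0 := by
  by_contra hno
  push Not at hno
  have h0 : ∀ C, ∫⁻ ω, Q ω 0 (thinStay e b C) ∂iid μ = 0 := fun C => by
    refine le_antisymm ?_ bot_le
    rw [← hno (C + 1) (by omega)]
    exact lintegral_mono fun ω => measure_mono
      (inter_subset_inter_right _ (inter_subset_inter_right _ (rangeBound_mono (by omega))))
  refine h ?_
  have hmeas : ∀ C x, Measurable fun ω => Q ω x (thinStay e b C) := fun C x =>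
    (Measure.measurable_coe (measurableSet_thinStay e b C)).comp (hQ.measurable x)
  have hx : ∀ᵐ ω ∂iid μ, ∀ C x, Q ω x (thinStay e b C) = 0 := by
    refine ae_all_iff.2 fun C => ae_all_iff.2 fun x => ?_
    have e1 : ∀ ω, Q ω x (thinStay e b C) = Q (shiftEnv x ω) 0 (thinStay e b C) := fun ω => by
      have hm : Measurable fun (X : ℕ → Site d) k => X k - x := measurable_pi_lambda _ fun k =>
        (measurable_of_countable fun y : Site d => y - x).comp (measurable_pi_apply k)
      rw [hQ.shift ω x 0, zero_add, Measure.map_apply hm (measurableSet_thinStay e b C),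
        thinStay_translate]
    have h2 : ∫⁻ ω, Q ω x (thinStay e b C) ∂iid μ = 0 := by
      simp only [e1]
      rw [Proj.lintegral_shift μ (hmeas C 0) x, h0]
    exact (lintegral_eq_zero_iff (hmeas C x)).1 h2
  refine lintegral_eq_zero_of_ae_eq_zero ?_
  filter_upwards [hx] with ω hω
  have hit : ∀ n C x, Q ω x ((ptail^[n]) ⁻¹' thinStay e b C) = 0 := by
    intro n
    induction n with
    | zero => exact hω
    | succ n ih =>
        intro C x
        rw [Function.iterate_succ, preimage_comp, Bal.apply_ptail hQ ω x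
          ((measurable_ptail.iterate n) (measurableSet_thinStay e b C))]
        exact Finset.sum_eq_zero fun a _ => mul_eq_zero_of_right _ (ih C _)
  have hnull : Q ω 0 (⋃ n : ℕ, ⋃ C : ℕ, (ptail^[n]) ⁻¹' thinStay e b C) = 0 :=
    measure_iUnion_null fun n => measure_iUnion_null fun C => hit n C 0
  exact measure_mono_null (fun X hX => by
    obtain ⟨n, C, hn⟩ := exists_thinStay hX
    exact mem_iUnion.2 ⟨n, mem_iUnion.2 ⟨C, hn⟩⟩) hnull

/-- The annealed mass of a union of cylinders. -/
lemma lintegral_le_tsum_cw (hQ : IsQuenchedLaw Q) (T : Set (ℕ → Site d)) (P : List (Step d) → Prop)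
    [DecidablePred P] (h : ∀ ω, ∀ᵐ X ∂Q ω 0, X ∈ T → ∃ γ, P γ ∧ X ∈ lcyl 0 γ) :
    ∫⁻ ω, Q ω 0 T ∂iid μ ≤ ∑' γ, if P γ then cw μ γ else 0 := by
  have hle : ∀ ω, Q ω 0 T ≤ ∑' γ, if P γ then pw ω 0 γ else 0 := by
    intro ω
    refine le_trans (measure_mono_ae ?_) ((measure_iUnion_le
      fun γ => if P γ then lcyl 0 γ else ∅).trans (ENNReal.tsum_le_tsum fun γ => ?_))
    · filter_upwards [h ω] with X hX hm
      obtain ⟨γ, hγ, hc⟩ := hX hm
      exact mem_iUnion.2 ⟨γ, by rw [if_pos hγ]; exact hc⟩
    · split_ifs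
      · rw [Bal.apply_lcyl hQ]
      · simp
  refine (lintegral_mono hle).trans (le_of_eq ?_)
  rw [lintegral_tsum fun γ => ?_]
  · refine tsum_congr fun γ => ?_
    split_ifs <;> simp [cw]
  · split_ifs
    · exact (Bal.measurable_pw 0 γ).aemeasurable
    · exact aemeasurable_const

omit [IsProbabilityMeasure μ] in
lemma thinStay_good (hQ : IsQuenchedLaw Q) (C : ℕ) (ω : Env d) :
    ∀ᵐ X ∂Q ω 0, X ∈ thinStay e b C →
      X ∈ nnPaths d ∧ X 0 = 0 ∧ ∀ n, 0 ≤ lev e (X n) := by
  filter_upwards [hQ.ae_start ω 0, Bal.ae_nnPaths hQ ω 0] with X h0 hn hX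
  exact ⟨hn, h0, fun n => by simpa [h0] using hX.2.1 n⟩

/-- A prefix all of whose cut prefixes have polynomial range. -/
def Gd (e : Step d) (b C : ℕ) (γ : List (Step d)) : Prop :=
  ∀ η δ, γ = η ++ δ → Adm e η → (verts 0 η).toFinset.card ≤ C * (hgt e η + 1) ^ b

lemma thinStay_le_tsum (hQ : IsQuenchedLaw Q) (C J : ℕ) :
    ∫⁻ ω, Q ω 0 (thinStay e b C) ∂iid μ
      ≤ open Classical in ∑' γ, if Pre e J γ ∧ Gd e b C γ then cw μ γ else 0 := by
  classical
  refine lintegral_le_tsum_cw (μ := μ) hQ _ _ fun ω => ?_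
  filter_upwards [thinStay_good hQ C ω] with X hX hm
  obtain ⟨h1, h2, h3⟩ := hX hm
  obtain ⟨n, hn⟩ := ((hm.1 : Tendsto _ _ _).eventually_ge_atTop ((J : ℤ) : ℝ)).exists
  obtain ⟨γ, hγ, -, hc⟩ := Bal.exists_pre h1 h2 h3 J n (by exact_mod_cast hn)
  refine ⟨γ, ⟨hγ, fun η δ hηδ hη => ?_⟩, hc⟩
  subst hηδ
  have hcη : X ∈ lcyl 0 η := Bal.mem_lcyl_left hc
  refine le_trans (Finset.card_le_card fun v hv => ?_) (hm.2.2 η.length (hgt e η) fun k hk => ?_)
  · obtain ⟨k, hk, rfl⟩ := Bal.exists_of_mem_verts η 0 v (List.mem_toFinset.1 hv)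
    exact Finset.mem_image.2 ⟨k, Finset.mem_range.2 hk, hcη k hk.le⟩
  · have hmem : dsp (η.take k) ∈ verts 0 η := by
      have h4 := Bal.verts_append (0 : Site d) (η.take k) (η.drop k)
      rw [List.take_append_drop] at h4
      rw [h4, zero_add]
      exact List.mem_append_right _ (Bal.self_mem_verts _ (by simp; omega))
    rw [h2, Bal.lev_zero, sub_zero, hcη k hk.le, zero_add]
    exact (hη.1 _ hmem).2

omit [IsProbabilityMeasure μ] in
lemma exists_flatten : ∀ {γ : List (Step d)}, Adm e γ →
    ∃ t : List (List (Step d)), (∀ η ∈ t, Irr e η) ∧ t.flatten = γ := by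
  intro γ
  induction hl : γ.length using Nat.strong_induction_on generalizing γ with
  | _ k ih =>
      intro h
      subst hl
      by_cases hne : γ = []
      · exact ⟨[], by simp, by simp [hne]⟩
      obtain ⟨η, δ, rfl, hη, hδ⟩ := h.exists_head hne
      obtain ⟨t, ht, hf⟩ := ih δ.length (by
        have := List.length_pos_iff.2 hη.1
        simp; omega) rfl hδ
      exact ⟨η :: t, List.forall_mem_cons.2 ⟨hη, ht⟩, by simp [hf]⟩

omit [IsProbabilityMeasure μ] in
lemma pi_cyl [IsProbabilityMeasure (pieceLaw μ e)] {k : ℕ} (t : Fin k → Piece e) :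
    Measure.infinitePi (fun _ : ℕ => pieceLaw μ e) {w | ∀ i : Fin k, w i = t i}
      = ∏ i, cw μ (t i).1 := by
  classical
  set B : ℕ → Set (Piece e) := fun i => if h : i < k then {t ⟨i, h⟩} else univ
  have hset : {w : ℕ → Piece e | ∀ i : Fin k, w i = t i}
      = Set.pi (Finset.range k : Finset ℕ) B := by
    ext w
    simp only [mem_ofPred_eq, Set.mem_pi, Finset.mem_coe, Finset.mem_range, B]
    refine ⟨fun h i hi => ?_, fun h i => ?_⟩
    · rw [dif_pos hi]
      exact h ⟨i, hi⟩
    · have := h i i.2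
      rwa [dif_pos i.2] at this
  rw [hset, Measure.infinitePi_pi _ fun i _ => MeasurableSet.of_discrete, Finset.prod_range]
  refine Finset.prod_congr rfl fun i _ => ?_
  simp only [B, dif_pos i.2]
  exact Bal.pieceLaw_singleton _

lemma cw_le_pi [IsProbabilityMeasure (pieceLaw μ e)] {γ : List (Step d)} (h : Adm e γ) :
    cw μ γ ≤ Measure.infinitePi (fun _ : ℕ => pieceLaw μ e) {w | ∃ m, flat w m = γ} := by
  obtain ⟨t, ht, rfl⟩ := exists_flatten h
  set T : Fin t.length → Piece e := fun i => ⟨t[i], ht _ (List.getElem_mem i.2)⟩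
  refine le_trans (le_of_eq ?_) (measure_mono (s := {w | ∀ i : Fin t.length, w i = T i})
    fun w hw => ⟨t.length, ?_⟩)
  · rw [pi_cyl, Bal.cw_flatten ht, ← List.prod_ofFn]
    congr 1
    refine List.ext_getElem (by simp) fun i h1 h2 => ?_
    simp [T]
  · simp only [flat, Bal.pieces]
    congr 1
    refine List.ext_getElem (by simp) fun i h1 h2 => ?_
    simp only [List.getElem_ofFn]
    rw [hw ⟨i, h2⟩]
    rfl

omit [IsProbabilityMeasure μ] in
lemma hgt_flat_strictMono (w : ℕ → Piece e) : StrictMono fun k => hgt e (flat w k) :=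
  strictMono_nat_of_lt_succ fun k => by
    have := (w k).2.one_le_hgt
    show hgt e (flat w k) < hgt e (flat w (k + 1))
    rw [(Bal.adm_flat w (k + 1)).2, Finset.sum_range_succ, ← (Bal.adm_flat w k).2]
    omega

/-- The first `n` pieces have polynomial range. -/
def rangeGood (e : Step d) (b C n : ℕ) : Set (ℕ → Piece e) :=
  {w | ∀ i < n, (verts 0 (w i).1).toFinset.card ≤ C * (hgt e (flat w (i + 1)) + 1) ^ b}

lemma le_rangeGood (hQ : IsQuenchedLaw Q) [IsProbabilityMeasure (pieceLaw μ e)] (C n : ℕ) :
    ∫⁻ ω, Q ω 0 (thinStay e b C) ∂iid μ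
      ≤ Measure.infinitePi (fun _ : ℕ => pieceLaw μ e) (rangeGood e b C n) := by
  classical
  set ν := Measure.infinitePi (fun _ : ℕ => pieceLaw μ e)
  have hflatm : ∀ k γ, MeasurableSet {w : ℕ → Piece e | flat w k = γ} := fun k γ =>
    (measurable_pi_lambda (fun (w : ℕ → Piece e) (i : Fin k) => w i) fun i => measurable_pi_apply _)
      (MeasurableSet.of_discrete (s := {t : Fin k → Piece e |
        (List.ofFn fun i => (t i).1).flatten = γ}))
  have hhgtm : ∀ k, Measurable fun w : ℕ → Piece e => hgt e (flat w k) := fun k => by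
    let g : (Fin k → Piece e) → ℕ := fun t => hgt e (List.ofFn fun i => (t i).1).flatten
    exact (measurable_of_countable g).comp (measurable_pi_lambda _ fun i => measurable_pi_apply _)
  have hJ : ∀ J, ∫⁻ ω, Q ω 0 (thinStay e b C) ∂iid μ
      ≤ ν (rangeGood e b C n) + ν {w | J < hgt e (flat w n)} := by
    intro J
    refine (thinStay_le_tsum hQ C J).trans ?_
    set S : List (Step d) → Set (ℕ → Piece e) := fun γ =>
      if Pre e J γ ∧ Gd e b C γ then {w | ∃ m, flat w m = γ} else ∅
    have hSm : ∀ γ, MeasurableSet (S γ) := fun γ => by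
      simp only [S]
      split_ifs
      · simp only [ofPred_exists]
        exact MeasurableSet.iUnion fun m => hflatm m γ
      · exact MeasurableSet.empty
    have hdis : Pairwise (Function.onFun Disjoint S) := fun γ γ' hne => by
      simp only [Function.onFun, S]
      split_ifs with h h' h'
      · refine Set.disjoint_left.2 fun w ⟨m, hm⟩ ⟨m', hm'⟩ => hne ?_
        have := (hgt_flat_strictMono w).injective (a₁ := m) (a₂ := m')
          (by simp only [hm, hm', h.1.hgt_eq, h'.1.hgt_eq])
        rw [← hm, ← hm', this]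
      all_goals simp
    calc ∑' γ, (if Pre e J γ ∧ Gd e b C γ then cw μ γ else 0) ≤ ∑' γ, ν (S γ) := by
          refine ENNReal.tsum_le_tsum fun γ => ?_
          simp only [S]
          split_ifs with h
          · exact cw_le_pi h.1.adm
          · exact zero_le
      _ = ν (⋃ γ, S γ) := (measure_iUnion hdis hSm).symm
      _ ≤ ν (rangeGood e b C n ∪ {w | J < hgt e (flat w n)}) := by
          refine measure_mono (iUnion_subset fun γ w hw => ?_)
          simp only [S] at hw
          split_ifs at hw with h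
          · obtain ⟨m, hm⟩ := hw
            by_cases hlt : J < hgt e (flat w n)
            · exact Or.inr hlt
            refine Or.inl fun i hi => ?_
            have hnm : n ≤ m := by
              by_contra hc
              have := hgt_flat_strictMono w (not_le.1 hc)
              simp only [hm, h.1.hgt_eq] at this
              omega
            obtain ⟨δ, hδ⟩ := Bal.flat_prefix w (show i + 1 ≤ m by omega)
            refine le_trans ?_ (h.2 _ δ (hm.symm.trans hδ.symm) (Bal.adm_flat w (i + 1)).1)
            rw [Bal.flat_succ, Bal.verts_append, List.toFinset_append, zero_add,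
              show verts (dsp (flat w i)) (w i).1
                = (verts 0 (w i).1).map (· + dsp (flat w i)) by
                  rw [← Proj.verts_shift, zero_add]]
            refine le_trans (le_of_eq ?_) (Finset.card_le_card Finset.subset_union_right)
            rw [← Finset.card_image_of_injective _ (add_left_injective (dsp (flat w i)))]
            congr 1; ext v
            simp only [List.mem_toFinset, Finset.mem_image, List.mem_map]
          · exact absurd hw (notMem_empty w)
      _ ≤ _ := measure_union_le _ _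
  have hlim : Tendsto (fun J : ℕ => ν {w | J < hgt e (flat w n)}) atTop (𝓝 0) := by
    have h := tendsto_measure_iInter_atTop (μ := ν) (s := fun J : ℕ => {w | J < hgt e (flat w n)})
      (fun J => (hhgtm n (measurableSet_Ioi (a := J))).nullMeasurableSet)
      (fun a c hac w (hw : c < _) => lt_of_le_of_lt hac hw) ⟨0, measure_ne_top _ _⟩
    rw [show (⋂ J : ℕ, {w : ℕ → Piece e | J < hgt e (flat w n)}) = ∅ by
      ext w; simpa using ⟨_, le_rfl⟩, measure_empty] at h
    exact h
  have := hlim.const_add (ν (rangeGood e b C n))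
  rw [add_zero] at this
  exact ge_of_tendsto' this hJ

omit [IsProbabilityMeasure μ] in
/-- Linear growth of the heights. -/
lemma ae_exists_linear [IsProbabilityMeasure (pieceLaw μ e)]
    (hfin : ∫⁻ a : Piece e, (hgt e a.1 : ℝ≥0∞) ∂pieceLaw μ e ≠ ∞) :
    ∀ᵐ w ∂Measure.infinitePi (fun _ : ℕ => pieceLaw μ e),
      ∃ K : ℕ, ∀ k, hgt e (flat w (k + 1)) ≤ K * (k + 1) := by
  set ν := Measure.infinitePi (fun _ : ℕ => pieceLaw μ e)
  set g : Piece e → ℝ := fun a => (hgt e a.1 : ℝ)
  have hgm : Measurable g := measurable_from_top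
  have hint : Integrable g (pieceLaw μ e) := by
    refine ⟨hgm.aestronglyMeasurable, ?_⟩
    refine lt_of_le_of_lt (lintegral_mono fun a => ?_) hfin.lt_top
    simp [g]
  have hmp := fun i : ℕ => measurePreserving_eval_infinitePi (fun _ : ℕ => pieceLaw μ e) i
  have hid : ∀ i : ℕ, IdentDistrib (fun w : ℕ → Piece e => g (w i)) (fun w => g (w 0)) ν ν := by
    intro i
    refine ⟨(hgm.comp (measurable_pi_apply i)).aemeasurable,
      (hgm.comp (measurable_pi_apply 0)).aemeasurable, ?_⟩
    rw [show (fun w : ℕ → Piece e => g (w i)) = g ∘ Function.eval i from rfl,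
      show (fun w : ℕ → Piece e => g (w 0)) = g ∘ Function.eval 0 from rfl,
      ← Measure.map_map hgm (hmp i).measurable, ← Measure.map_map hgm (hmp 0).measurable,
      (hmp i).map_eq, (hmp 0).map_eq]
  have hind : Pairwise fun i j : ℕ => IndepFun (fun w : ℕ → Piece e => g (w i))
      (fun w => g (w j)) ν := fun i j hij =>
    (iIndepFun_infinitePi (P := fun _ : ℕ => pieceLaw μ e) (X := fun _ a => g a)
      fun _ => hgm).indepFun hij
  filter_upwards [strong_law_ae_real _ ((hmp 0).integrable_comp_of_integrable hint) hind hid]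
    with w hw
  obtain ⟨R, hR⟩ := hw.bddAbove_range
  obtain ⟨K, hK⟩ := exists_nat_ge R
  refine ⟨K, fun k => ?_⟩
  have h1 := (hR (mem_range_self (k + 1))).trans hK
  rw [div_le_iff₀ (by positivity)] at h1
  rw [(Bal.adm_flat w (k + 1)).2, ← Nat.cast_le (α := ℝ)]
  push_cast
  simpa [g] using h1

omit [IsProbabilityMeasure μ] in
lemma measure_le_mass [IsProbabilityMeasure (pieceLaw μ e)] (C K M n : ℕ)
    (S : Set (ℕ → Piece e))
    (hS : ∀ w ∈ S, w ∈ rangeGood e b C n ∧ (∀ k, hgt e (flat w (k + 1)) ≤ K * (k + 1)) ∧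
      ∀ i < n, (w i).1.length < M) :
    Measure.infinitePi (fun _ : ℕ => pieceLaw μ e) S ≤ mass μ e ⟨b, C, K, M⟩ n := by
  classical
  set P : Par := ⟨b, C, K, M⟩
  set cyl : Tup e P n → Set (ℕ → Piece e) := fun t =>
    if t.Good then {w | ∀ i : Fin n, (w i).1 = (t i).1} else ∅
  have hsub : S ⊆ ⋃ t, cyl t := by
    intro w hw
    obtain ⟨h1, h2, h3⟩ := hS w hw
    set t : Tup e P n := fun i =>
      ⟨(w i).1, Finset.mem_filter.2 ⟨Proj.mem_short.2 (h3 i i.2), (w i).2⟩⟩
    have hg : ∀ k ≤ n, GoodSeq e b C K (fun i : Fin k => (w i).1) := by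
      intro k
      induction k with
      | zero => exact fun _ => trivial
      | succ k ih =>
          intro hk
          have hsum : hsum e (fun i : Fin k => (w i).1) = hgt e (flat w k) := by
            rw [(Bal.adm_flat w k).2, hsum, Fin.sum_univ_eq_sum_range fun i => hgt e (w i).1]
          have hflat : hgt e (flat w k) + hgt e (w k).1 = hgt e (flat w (k + 1)) := by
            rw [(Bal.adm_flat w (k + 1)).2, Finset.sum_range_succ, (Bal.adm_flat w k).2]
          refine ⟨ih (by omega), ?_⟩
          show Ok e b C K k (Thin.hsum e fun i : Fin k => (w i).1) (w k).1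
          rw [Ok, hsum, hflat]
          exact ⟨h1 k (by omega), h2 k⟩
    refine mem_iUnion.2 ⟨t, ?_⟩
    simp only [cyl]
    rw [if_pos (show t.Good from hg n le_rfl)]
    exact fun i => rfl
  refine (measure_mono hsub).trans ((measure_iUnion_le _).trans ?_)
  rw [tsum_fintype, mass]
  refine Finset.sum_le_sum fun t _ => ?_
  simp only [cyl]
  split_ifs
  · refine le_of_eq ?_
    have hi : ∀ i, Irr e (t i).1 := fun i => (Finset.mem_filter.1 (t i).2).2
    rw [show {w : ℕ → Piece e | ∀ i : Fin n, (w i).1 = (t i).1}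
        = {w | ∀ i : Fin n, w i = (fun i => (⟨(t i).1, hi i⟩ : Piece e)) i} by
      ext w; simp [Subtype.ext_iff], pi_cyl]
    rfl
  · simp

theorem massOut (hQ : IsQuenchedLaw Q) : MassOut μ Q e b := by
  classical
  intro hpos
  obtain ⟨C, hC, hp⟩ := exists_thinStay_pos hQ hpos
  set p := ∫⁻ ω, Q ω 0 (thinStay e b C) ∂iid μ
  have hu : ∀ J, p ≤ u μ e J := fun J => by
    refine (thinStay_le_tsum hQ C J).trans (le_of_le_of_eq (ENNReal.tsum_le_tsum fun γ => ?_) rfl)
    split_ifs with h1 h2
    · exact le_rfl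
    · exact absurd h1.1 h2
    · exact zero_le
    · exact zero_le
  have hstay : ∀ n, p ≤ stayMass μ e n := fun n => by
    refine (lintegral_le_tsum_cw (μ := μ) hQ _ (fun γ => γ.length = n ∧ Bal.Stay e 0 0 γ)
      fun ω => ?_).trans (le_of_eq (tsum_congr fun γ => by congr))
    filter_upwards [thinStay_good hQ C ω] with X hX hm
    obtain ⟨h1, h2, h3⟩ := hX hm
    obtain ⟨γ, hl, hγ⟩ := Bal.exists_steps n X h1
    rw [h2] at hγ
    refine ⟨γ, ⟨hl, fun w hw => ?_, ?_⟩, hγ⟩
    · obtain ⟨k, hk, rfl⟩ := Bal.exists_of_mem_verts γ 0 w hw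
      rw [← hγ k hk.le]
      exact h3 k
    · have := hγ _ le_rfl
      rw [List.take_length] at this
      rw [← this]
      exact h3 _
  have := Bal.isProbabilityMeasure_pieceLaw hp hu
  set ν := Measure.infinitePi (fun _ : ℕ => pieceLaw μ e)
  refine ⟨p, hp, lintegral_mono fun ω => measure_mono fun X hX => hX.2.1, hu, hstay, C, ?_⟩
  have hfin : ∫⁻ a : Piece e, (hgt e a.1 : ℝ≥0∞) ∂pieceLaw μ e ≠ ∞ := by
    rw [lintegral_countable']
    simp only [Bal.pieceLaw_singleton]
    refine ne_top_of_le_ne_top (ENNReal.inv_ne_top.2 hp)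
      (le_of_eq_of_le ?_ (Bal.hlaw_mean hp hu))
    have h2 := Bal.tsum_hlaw_mul (μ := μ) (e := e) fun s => (s : ℝ≥0∞)
    rw [tsum_congr fun (s : ℕ) => mul_comm (s : ℝ≥0∞) (Bal.hlaw μ e s), h2]
    refine (tsum_subtype {γ : List (Step d) | Irr e γ}
      (fun γ => (hgt e γ : ℝ≥0∞) * cw μ γ)).trans (tsum_congr fun γ => ?_)
    by_cases hγ : Irr e γ <;> simp [hγ, mul_comm]
  have hflatm : ∀ k, Measurable fun w : ℕ → Piece e => hgt e (flat w k) := fun k => by
    let g : (Fin k → Piece e) → ℕ := fun t => hgt e (List.ofFn fun i => (t i).1).flatten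
    exact (measurable_of_countable g).comp (measurable_pi_lambda _ fun i => measurable_pi_apply _)
  have hrm : ∀ n, MeasurableSet (rangeGood e b C n) := fun n => by
    simp only [rangeGood, ofPred_forall]
    refine MeasurableSet.iInter fun i => MeasurableSet.iInter fun _ => measurableSet_le
      ((measurable_of_countable fun a : Piece e => (verts 0 a.1).toFinset.card).comp
        (measurable_pi_apply i))
      ((measurable_of_countable fun m : ℕ => C * (m + 1) ^ b).comp (hflatm (i + 1)))
  have hR : p ≤ ν (⋂ n, rangeGood e b C n) := by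
    have hanti : Antitone fun n => rangeGood e b C n := fun a c hac w hw i hi => hw i (hi.trans_le hac)
    rw [hanti.measure_iInter (fun n => (hrm n).nullMeasurableSet) ⟨0, measure_ne_top ν _⟩]
    exact le_iInf fun n => le_rangeGood hQ C n
  obtain ⟨K, hK⟩ : ∃ K : ℕ, ν ((⋂ n, rangeGood e b C n) ∩
      {w | ∀ k, hgt e (flat w (k + 1)) ≤ K * (k + 1)}) ≠ 0 := by
    by_contra hno
    push Not at hno
    refine hp (le_antisymm (hR.trans ?_) bot_le)
    refine (measure_mono_ae ?_).trans (le_of_eq (measure_iUnion_null hno))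
    filter_upwards [ae_exists_linear (μ := μ) hfin] with w ⟨K, hw⟩ hm
    exact mem_iUnion.2 ⟨K, hm, hw⟩
  refine ⟨K + 1, hC, by omega, _, (ENNReal.half_pos hK).ne', fun n => ?_⟩
  set A := (⋂ n, rangeGood e b C n) ∩ {w | ∀ k, hgt e (flat w (k + 1)) ≤ K * (k + 1)}
  have hmono : Monotone fun M => A ∩ {w : ℕ → Piece e | ∀ i < n, (w i).1.length < M} :=
    fun a c hac w hw => ⟨hw.1, fun i hi => (hw.2 i hi).trans_le hac⟩
  have hA : (⋃ M, A ∩ {w : ℕ → Piece e | ∀ i < n, (w i).1.length < M}) = A := by
    refine Subset.antisymm (iUnion_subset fun M => inter_subset_left) fun w hw => ?_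
    refine mem_iUnion.2 ⟨(Finset.range n).sup (fun i => (w i).1.length) + 1, hw, fun i hi => ?_⟩
    exact Nat.lt_succ_of_le (Finset.le_sup (f := fun i => (w i).1.length) (Finset.mem_range.2 hi))
  have hlim := tendsto_measure_iUnion_atTop (μ := ν) hmono
  rw [hA] at hlim
  obtain ⟨M, hM, h3⟩ := ((hlim.eventually (eventually_ge_nhds
    (ENNReal.half_lt_self hK (measure_ne_top _ _)))).and (eventually_ge_atTop 3)).exists
  refine ⟨M, h3, hM.trans (measure_le_mass C (K + 1) M n _ fun w hw => ⟨mem_iInter.1 hw.1.1 n,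
    fun k => (hw.1.2 k).trans (Nat.mul_le_mul_right _ (by omega)), hw.2⟩)⟩

end Vale.Agent.P147.Thin
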