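import Vale.Agent.P147.Thin.Defs

/-!
# The interfaces between the modules of the polynomial range escape development
-/

open MeasureTheory Set Filter Topology
open scoped ENNReal

namespace Vale.Agent.P147.Thin

open Vale.Agent.P147.Proj (dsp verts iid)
open Vale.Agent.P147.Bal (lev pw pq cw u Hit1)

variable {d : ℕ}

/-- Local bound: `k` pieces seldom have a given displacement, uniformly in the cap. -/
def LocalOut (μ : Measure (Row d)) (e : Step d) : Prop :=
  ∃ A : ℝ, ∀ P : Par, 3 ≤ P.M → ∀ (k : ℕ) (y : Site d),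
    pointMass μ e P k y ≤ ENNReal.ofReal (A / ((k : ℝ) + 1) ^ ((d - 1) / 2))

/-- The annealed probability of one step `g`. -/
noncomputable def qstep (μ : Measure (Row d)) (g : Step d) : ℝ≥0∞ := ∫⁻ r, pq r g ∂μ

/-- First arrivals at `m` along `a` within the levels `[lo, lo + H)` along `g`. -/
def confSet (g a : Step d) (lo : ℤ) (H m : ℕ) : Set (List (Step d)) :=
  {γ | Hit1 a (m : ℤ) 0 γ ∧ ∀ v ∈ verts 0 γ, lo ≤ lev g v ∧ lev g v < lo + H}

/-- Confinement is geometric in each lateral record. -/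
def ConfOut (μ : Measure (Row d)) : Prop :=
  ∀ g a : Step d, a.1 ≠ g.1 → ∀ (lo : ℤ) (H m : ℕ),
    ∑' γ, (confSet g a lo H m).indicator (cw μ) γ ≤ (1 - qstep μ g ^ H) ^ m

/-- Slabs are left almost surely. -/
def SlabOut (μ : Measure (Row d)) (Q : Env d → Site d → Measure (ℕ → Site d)) : Prop :=
  ∀ (g : Step d) (lo hi : ℤ), ∀ᵐ ω ∂iid μ,
    Q ω 0 {X | ∀ k, lo ≤ lev g (X k) ∧ lev g (X k) ≤ hi} = 0

/-- The probability of an invariant event times the probability of its complement tends to zero at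
the ends of prefixes. -/
def FlatEndOut (μ : Measure (Row d)) (Q : Env d → Site d → Measure (ℕ → Site d)) : Prop :=
  ∀ (g : Step d) (S : Set (ℕ → Site d)), MeasurableSet S → Proj.Invariant S →
    Tendsto (fun J => open Classical in ∫⁻ ω, ∑' γ, (if Bal.Pre g J γ then
      pw ω 0 γ * (Q ω (dsp γ) S * Q ω (dsp γ) Sᶜ) else 0) ∂iid μ) atTop (𝓝 0)

/-- The quenched probability of an event together with staying above the start reads only the rows
at the levels of the start and above. -/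
def StayDepOut (Q : Env d → Site d → Measure (ℕ → Site d)) : Prop :=
  ∀ (g : Step d) (x : Site d) (S : Set (ℕ → Site d)), MeasurableSet S →
    DepOnSet (fun ω => Q ω x (S ∩ StayEv g)) {v | lev g x ≤ lev g v}

/-- From a positive probability of escape with polynomial range: a positive probability of doing so
while staying above the start, and a mass of good capped pieces bounded below, uniformly in their
number. -/
def MassOut (μ : Measure (Row d)) (Q : Env d → Site d → Measure (ℕ → Site d)) (e : Step d)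
    (b : ℕ) : Prop :=
  ∫⁻ ω, Q ω 0 (thinEscape e b) ∂iid μ ≠ 0 →
    ∃ p : ℝ≥0∞, p ≠ 0 ∧ p ≤ ∫⁻ ω, Q ω 0 (StayEv e) ∂iid μ ∧ (∀ J, p ≤ u μ e J) ∧
      (∀ n, p ≤ Bal.stayMass μ e n) ∧
      ∃ C K : ℕ, 1 ≤ C ∧ 1 ≤ K ∧ ∃ c : ℝ≥0∞, c ≠ 0 ∧
        ∀ n, ∃ M, 3 ≤ M ∧ c ≤ mass μ e ⟨b, C, K, M⟩ n

/-- The fat flow: a part of the flow of prefixes along `opp e` into `-vec e` of mass bounded below,
uniformly in the height `J`, which for every `s` is at most a sum of `2 ^ (A (s + 1))` functions of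
mean at most one of the rows at the levels above `s`. -/
def TrailOut (μ : Measure (Row d)) (e : Step d) : Prop :=
  ∀ p : ℝ≥0∞, p ≠ 0 → (∀ J, p ≤ u μ (opp e) J) → ∃ A : ℕ, ∀ J : ℕ, ∃ W : Env d → ℝ≥0∞,
    Measurable W ∧ DepOnSet W {v | 0 ≤ lev e v ∧ lev e v < (J : ℤ)} ∧
    p / 2 ≤ ∫⁻ ω, W ω ∂iid μ ∧ ∫⁻ ω, W ω ∂iid μ ≤ 1 ∧
    (∀ ω, W ω ≤ open Classical in ∑' γ, if Bal.Pre (opp e) J γ then
      pw ω (-vec e - dsp γ) γ else 0) ∧
    ∀ s : ℕ, ∃ Ds : Finset (Site d), Ds.card ≤ 2 ^ (A * (s + 1)) ∧ ∃ V : Site d → Env d → ℝ≥0∞,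
      (∀ D ∈ Ds, Measurable (V D) ∧ DepOnSet (V D) {v | (s : ℤ) + 1 ≤ lev e v} ∧
        ∫⁻ ω, V D ω ∂iid μ ≤ 1) ∧
      ∀ ω, W ω ≤ ∑ D ∈ Ds, V D ω

end Vale.Agent.P147.Thin
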