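import Vale.Agent.P147.Thin.Core
import Vale.Agent.P147.Bernoulli

/-!
# Escape with polynomial range forces the zero-one law
-/

open MeasureTheory Set Filter Topology
open scoped ENNReal

namespace Vale.Agent.P147.Thin

open Vale.Agent.P147.Proj (dsp verts iid Invariant)
open Vale.Agent.P147.Bal (lev pw pq cw Pre u lcyl stayMass)

variable {d b : ℕ} {e : Step d} {μ : Measure (Row d)} [IsProbabilityMeasure μ]
  {Q : Env d → Site d → Measure (ℕ → Site d)} {S A : Set (ℕ → Site d)}

omit [IsProbabilityMeasure μ] in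
lemma lev_opp (e : Step d) (x : Site d) : lev (opp e) x = -lev e x := by
  obtain ⟨i, s⟩ := e
  cases s <;> simp [lev, opp]

omit [IsProbabilityMeasure μ] in
lemma lev_eq_zero_iff {e : Step d} {y : Site d} : lev e y = 0 ↔ y e.1 = 0 := by
  unfold lev
  split_ifs <;> simp

/-- Unchanged by translations of paths. -/
def TransInv (S : Set (ℕ → Site d)) : Prop := ∀ z : Site d, (fun X k => X k - z) ⁻¹' S = S

omit [IsProbabilityMeasure μ] in
lemma transInv_stayEv (e : Step d) : TransInv (StayEv (d := d) e) := fun z => by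
  ext X
  simp [StayEv, Bal.lev_sub]

omit [IsProbabilityMeasure μ] in
lemma measurable_translate (z : Site d) : Measurable fun (X : ℕ → Site d) k => X k - z :=
  measurable_pi_lambda _ fun k =>
    (measurable_of_countable fun y : Site d => y - z).comp (measurable_pi_apply k)

omit [IsProbabilityMeasure μ] in
lemma quenched_shift (hQ : IsQuenchedLaw Q) (hS : MeasurableSet S) (hT : TransInv S) (ω : Env d)
    (z x : Site d) : Q (shiftEnv z ω) x S = Q ω (x + z) S := by
  rw [hQ.shift, Measure.map_apply (measurable_translate z) hS, hT z]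

omit [IsProbabilityMeasure μ] in
lemma measurable_quenched (hQ : IsQuenchedLaw Q) (hS : MeasurableSet S) (x : Site d) :
    Measurable fun ω => Q ω x S :=
  (Measure.measurable_coe hS).comp (hQ.measurable x)

/-- A translation invariant event which is annealed null is null from every start. -/
lemma ae_null (hQ : IsQuenchedLaw Q) (hS : MeasurableSet S) (hT : TransInv S)
    (h0 : ∫⁻ ω, Q ω 0 S ∂iid μ = 0) : ∀ᵐ ω ∂iid μ, ∀ x, Q ω x S = 0 := by
  refine ae_all_iff.2 fun x => ?_
  have e1 : ∀ ω, Q ω x S = Q (shiftEnv x ω) 0 S := fun ω => by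
    rw [quenched_shift hQ hS hT, zero_add]
  have h2 : ∫⁻ ω, Q ω x S ∂iid μ = 0 := by
    simp only [e1]
    rw [Proj.lintegral_shift μ (measurable_quenched hQ hS 0) x, h0]
  exact (lintegral_eq_zero_iff (measurable_quenched hQ hS x)).1 h2

/-- A null translation invariant event is null at all later times. -/
lemma ae_null_iterate (hQ : IsQuenchedLaw Q) (hS : MeasurableSet S) (hT : TransInv S)
    (h0 : ∫⁻ ω, Q ω 0 S ∂iid μ = 0) :
    ∀ᵐ ω ∂iid μ, ∀ (n : ℕ) (x : Site d), Q ω x ((ptail^[n]) ⁻¹' S) = 0 := by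
  filter_upwards [ae_null hQ hS hT h0] with ω hω n
  induction n with
  | zero => exact hω
  | succ n ih =>
    intro x
    rw [Function.iterate_succ, preimage_comp,
      Bal.apply_ptail hQ ω x ((measurable_ptail.iterate n) hS)]
    exact Finset.sum_eq_zero fun a _ => mul_eq_zero_of_right _ (ih _)

omit [IsProbabilityMeasure μ] in
lemma depOnSet_shift {α : Type*} {f : Env d → α} {T T' : Set (Site d)} (h : DepOnSet f T)
    (z : Site d) (hz : ∀ x ∈ T, x + z ∈ T') : DepOnSet (fun ω => f (shiftEnv z ω)) T' :=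
  fun _ _ hx => h _ _ fun x hxT => hx (x + z) (hz x hxT)

omit [IsProbabilityMeasure μ] in
/-- Steps across the axis keep the level. -/
lemma lev_lateral : ∀ {σ : List (Step d)}, (∀ a ∈ σ, a.1 ≠ e.1) → ∀ x : Site d,
    (∀ v ∈ verts x σ, lev e v = lev e x) ∧ lev e (x + dsp σ) = lev e x
  | [], _, x => by simp [verts]
  | a :: σ, h, x => by
    obtain ⟨h1, h2⟩ := lev_lateral (σ := σ) (fun c hc => h c (List.mem_cons_of_mem _ hc)) (x + vec a)
    have h3 : lev e (x + vec a) = lev e x := by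
      rw [Bal.lev_add, Bal.lev_vec_ne e a (h a List.mem_cons_self), add_zero]
    refine ⟨fun v hv => ?_, ?_⟩
    · simp only [verts, List.mem_cons] at hv
      rcases hv with rfl | hv
      · rfl
      · rw [h1 v hv, h3]
    · rw [Proj.dsp_cons, ← add_assoc, h2, h3]

omit [IsProbabilityMeasure μ] in
/-- A site of level zero is reached by steps across the axis. -/
lemma exists_lateral {y : Site d} (hy : lev e y = 0) :
    ∃ σ : List (Step d), (∀ a ∈ σ, a.1 ≠ e.1) ∧ dsp σ = y := by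
  obtain ⟨σ, rfl⟩ := Proj.exists_list y
  refine ⟨σ.filter fun a => decide (a.1 ≠ e.1), fun a ha => by simpa using (List.mem_filter.1 ha).2, ?_⟩
  funext j
  have key : ∀ τ : List (Step d), dsp (τ.filter fun a => decide (a.1 ≠ e.1)) j
      = if j = e.1 then 0 else dsp τ j := by
    intro τ
    induction τ with
    | nil => simp
    | cons a τ ih =>
      by_cases ha : a.1 = e.1
      · rw [List.filter_cons_of_neg (by simp [ha]), ih, Proj.dsp_cons, Pi.add_apply]
        by_cases hj : j = e.1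
        · simp [hj]
        · simp [hj, vec, ha]
      · rw [List.filter_cons_of_pos (by simp [ha]), Proj.dsp_cons, Pi.add_apply, ih, Proj.dsp_cons,
          Pi.add_apply]
        by_cases hj : j = e.1
        · simp [hj, vec, Pi.single_eq_of_ne (Ne.symm ha)]
        · simp [hj]
  rw [key]
  split_ifs with hj
  · subst hj
    exact (lev_eq_zero_iff.1 hy).symm
  · rfl

lemma ae_pw_pos (hell : ∀ᵐ q ∂μ, ∀ a : Step d, 0 < q.1 a) :
    ∀ᵐ ω ∂iid μ, ∀ (x : Site d) (γ : List (Step d)), pw ω x γ ≠ 0 := by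
  have hall : ∀ᵐ ω ∂iid μ, ∀ x, ∀ a : Step d, 0 < (ω x).1 a := ae_all_iff.2 fun x =>
    (measurePreserving_eval_infinitePi (fun _ : Site d => μ) x).quasiMeasurePreserving.ae hell
  filter_upwards [hall] with ω hω x γ
  exact Bal.pw_ne_zero (fun x a => hω x a) γ x

/-- Escape along `e`. -/
def escEv (e : Step d) : Set (ℕ → Site d) :=
  {X | Tendsto (fun n => (lev e (X n) : ℝ)) atTop atTop}

omit [IsProbabilityMeasure μ] in
lemma escEv_eq (e : Step d) : escEv e = dirEscape fun j => (vec e j : ℝ) := by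
  ext X
  simp [escEv, dirEscape, Bal.proj_eq_lev]

omit [IsProbabilityMeasure μ] in
lemma escEv_invariant (e : Step d) : Invariant (escEv e) ∧ MeasurableSet (escEv e) := by
  rw [escEv_eq]
  exact Proj.invariant_dirEscape _

omit [IsProbabilityMeasure μ] in
lemma escEv_inv_compl (e : Step d) : Invariant (escEv e)ᶜ :=
  ⟨fun x => by rw [preimage_compl, (escEv_invariant e).1.1],
    fun z => by rw [preimage_compl, (escEv_invariant e).1.2]⟩

omit [IsProbabilityMeasure μ] in
/-- A path which does not escape returns below some level infinitely often. -/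
lemma exists_return {X : ℕ → Site d} (hX : X ∉ escEv e) :
    ∃ r : ℕ, ∃ᶠ n in atTop, lev e (X n) < r := by
  obtain ⟨c, hc⟩ : ∃ c : ℝ, ∃ᶠ n in atTop, (lev e (X n) : ℝ) < c := by
    by_contra hno
    push Not at hno
    exact hX (tendsto_atTop.2 hno)
  obtain ⟨r, hr⟩ := exists_nat_ge c
  exact ⟨r, hc.mono fun n hn => by exact_mod_cast lt_of_lt_of_le hn hr⟩

omit [IsProbabilityMeasure μ] in
lemma lateral_line (hd : 2 ≤ d) (e : Step d) : ∃ j : Fin d, j ≠ e.1 := by
  by_contra hno
  push Not at hno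
  have h := (hno ⟨0, by omega⟩).trans (hno ⟨1, by omega⟩).symm
  simp [Fin.ext_iff] at h

/-- Staying above the start means escape, almost surely. -/
lemma stay_esc (hQ : IsQuenchedLaw Q) {p : ℝ≥0∞} (hp : p ≠ 0) (hs : ∀ n, p ≤ stayMass μ e n)
    (hslab : SlabOut μ Q) : ∀ᵐ ω ∂iid μ, ∀ x, Q ω x (StayEv e ∩ (escEv e)ᶜ) = 0 := by
  refine ae_null hQ ((measurableSet_stayEv e).inter (escEv_invariant e).2.compl)
    (fun z => by rw [preimage_inter, transInv_stayEv e z, (escEv_inv_compl e).2 z]) ?_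
  refine lintegral_eq_zero_of_ae_eq_zero ?_
  filter_upwards [ae_all_iff.2 fun h : ℕ => hslab e 0 (h : ℤ),
    ae_all_iff.2 fun r : ℕ => Bal.return_null (e := e) hQ hp hs r] with ω hsl hre
  refine measure_mono_null (t := {X | X 0 ≠ 0} ∪ ((⋃ h : ℕ,
      {X | ∀ k, 0 ≤ lev e (X k) ∧ lev e (X k) ≤ (h : ℤ)}) ∪ ⋃ r : ℕ,
      {X | (∀ M : ℤ, ∃ n, M ≤ lev e (X n)) ∧ ∃ᶠ n in atTop, lev e (X n) < r})) ?_
    (measure_union_null (ae_iff.1 (hQ.ae_start ω 0))
      (measure_union_null (measure_iUnion_null hsl) (measure_iUnion_null hre)))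
  rintro X ⟨hst, hne⟩
  by_cases h0 : X 0 = 0
  swap
  · exact Or.inl h0
  refine Or.inr ?_
  have hge : ∀ k, 0 ≤ lev e (X k) := fun k => by simpa [h0] using hst k
  by_cases hup : ∀ M : ℤ, ∃ n, M ≤ lev e (X n)
  · obtain ⟨r, hr⟩ := exists_return hne
    exact Or.inr (mem_iUnion.2 ⟨r, hup, hr⟩)
  · push Not at hup
    obtain ⟨M, hM⟩ := hup
    exact Or.inl (mem_iUnion.2 ⟨M.toNat, fun k => ⟨hge k, by have := hM k; omega⟩⟩)

open Classical in
/-- Staying above the start forever reaches every level. -/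
lemma stay_le_u (hQ : IsQuenchedLaw Q) (hslab : SlabOut μ Q) (g : Step d) (J : ℕ) :
    ∫⁻ ω, Q ω 0 (StayEv g) ∂iid μ ≤ u μ g J := by
  have hle : ∀ᵐ ω ∂iid μ, Q ω 0 (StayEv g) ≤ ∑' γ, if Pre g J γ then pw ω 0 γ else 0 := by
    filter_upwards [hslab g 0 (J : ℤ)] with ω hω
    refine le_trans (measure_mono_ae ?_) ((measure_iUnion_le
      fun γ => if Pre g J γ then lcyl 0 γ else ∅).trans (ENNReal.tsum_le_tsum fun γ => ?_))
    · filter_upwards [hQ.ae_start ω 0, Bal.ae_nnPaths hQ ω 0, measure_eq_zero_iff_ae_notMem.1 hω]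
        with X h0 hnn hns hm
      have hge : ∀ k, 0 ≤ lev g (X k) := fun k => by simpa [h0] using hm k
      simp only [not_forall, not_and, not_le] at hns
      obtain ⟨n, hn⟩ := hns
      obtain ⟨γ, hγ, -, hc⟩ := Bal.exists_pre hnn h0 hge J n (hn (hge n)).le
      exact mem_iUnion.2 ⟨γ, by rw [if_pos hγ]; exact hc⟩
    · split_ifs
      · rw [Bal.apply_lcyl hQ]
      · simp
  refine (lintegral_mono_ae hle).trans (le_of_eq ?_)
  rw [lintegral_tsum fun γ => ?_]
  · unfold u
    refine tsum_congr fun γ => ?_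
    split_ifs <;> simp [cw]
  · split_ifs
    · exact (Bal.measurable_pw 0 γ).aemeasurable
    · exact aemeasurable_const

/-- Without escape the walk has a positive chance to stay below its start. -/
lemma opp_stay_pos (hQ : IsQuenchedLaw Q) {p : ℝ≥0∞} (hp : p ≠ 0)
    (hs : ∀ n, p ≤ stayMass μ e n) (hne : ∫⁻ ω, Q ω 0 (escEv e)ᶜ ∂iid μ ≠ 0) :
    ∫⁻ ω, Q ω 0 (StayEv (opp e)) ∂iid μ ≠ 0 := by
  intro h0
  refine hne (lintegral_eq_zero_of_ae_eq_zero ?_)
  filter_upwards [ae_null_iterate hQ (measurableSet_stayEv _) (transInv_stayEv _) h0,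
    ae_all_iff.2 fun r : ℕ => Bal.return_null (e := e) hQ hp hs r] with ω hit hre
  refine measure_mono_null (t := (⋃ n : ℕ, (ptail^[n]) ⁻¹' StayEv (opp e)) ∪ ⋃ r : ℕ,
    {X | (∀ M : ℤ, ∃ n, M ≤ lev e (X n)) ∧ ∃ᶠ n in atTop, lev e (X n) < r}) ?_
    (measure_union_null (measure_iUnion_null fun n => hit n 0) (measure_iUnion_null hre))
  intro X hX
  by_cases hup : ∀ M : ℤ, ∃ n, M ≤ lev e (X n)
  · obtain ⟨r, hr⟩ := exists_return hX
    exact Or.inr (mem_iUnion.2 ⟨r, hup, hr⟩)
  · push Not at hup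
    obtain ⟨M, hM⟩ := hup
    have hbdd : ∃ M : ℤ, ∀ z : ℤ, (∃ n, lev e (X n) = z) → z ≤ M :=
      ⟨M, fun z ⟨n, hn⟩ => hn ▸ (hM n).le⟩
    obtain ⟨z, ⟨n, hn⟩, hz⟩ := Int.exists_greatest_of_bdd hbdd ⟨_, 0, rfl⟩
    refine Or.inl (mem_iUnion.2 ⟨n, fun k => ?_⟩)
    rw [Bal.iterate_ptail, Bal.iterate_ptail, zero_add, lev_opp, lev_opp, hn]
    have := hz _ ⟨k + n, rfl⟩
    omega

open Classical in
/-- The flow into a site sees little of the product of the two probabilities. -/
lemma tendsto_flow_prod (hQ : IsQuenchedLaw Q) (hS : MeasurableSet S) (hinv : Invariant S)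
    (g : Step d) (z₀ : Site d) :
    Tendsto (fun J => ∫⁻ ω, (∑' γ, if Pre g J γ then pw ω (z₀ - dsp γ) γ else 0) *
      (Q ω z₀ S * Q ω z₀ Sᶜ) ∂iid μ) atTop (𝓝 0) := by
  have hinvc : TransInv Sᶜ := fun z => by rw [preimage_compl, hinv.2]
  refine (flatEndOut (μ := μ) hQ g S hS hinv).congr fun J => ?_
  have hm : ∀ x, Measurable fun ω => Q ω x S * Q ω x Sᶜ := fun x =>
    (measurable_quenched hQ hS x).mul (measurable_quenched hQ hS.compl x)
  have h1 : ∀ γ : List (Step d),
      Measurable fun ω => if Pre g J γ then pw ω 0 γ * (Q ω (dsp γ) S * Q ω (dsp γ) Sᶜ) else 0 :=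
    fun γ => by
      split_ifs
      · exact (Bal.measurable_pw 0 γ).mul (hm _)
      · exact measurable_const
  have h2 : ∀ γ : List (Step d), Measurable fun ω =>
      (if Pre g J γ then pw ω (z₀ - dsp γ) γ else 0) * (Q ω z₀ S * Q ω z₀ Sᶜ) := fun γ => by
    refine Measurable.mul ?_ (hm z₀)
    split_ifs
    · exact Bal.measurable_pw _ γ
    · exact measurable_const
  rw [lintegral_tsum fun γ => (h1 γ).aemeasurable]
  simp only [← ENNReal.tsum_mul_right]
  rw [lintegral_tsum fun γ => (h2 γ).aemeasurable]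
  refine tsum_congr fun γ => ?_
  rw [← Proj.lintegral_shift μ (h1 γ) (z₀ - dsp γ)]
  refine lintegral_congr fun ω => ?_
  rw [quenched_shift hQ hS hinv.2, quenched_shift hQ hS.compl hinvc, Bal.pw_shift, zero_add,
    add_sub_cancel]
  split_ifs <;> simp

open Classical in
/-- With a positive probability of escape with polynomial range there is almost surely escape. -/
lemma esc_full (hd : 4 * b + 11 ≤ d) (hQ : IsQuenchedLaw Q)
    (hell : ∀ᵐ q ∂μ, ∀ a : Step d, 0 < q.1 a) (hloc : LocalOut μ e) (htrail : TrailOut μ e)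
    (hslab : SlabOut μ Q) {p : ℝ≥0∞} (hp : p ≠ 0)
    (hps : p ≤ ∫⁻ ω, Q ω 0 (StayEv e) ∂iid μ) (hu : ∀ J, p ≤ u μ e J)
    (hs : ∀ n, p ≤ stayMass μ e n) {C K : ℕ} (hC : 1 ≤ C) (hK : 1 ≤ K) {c : ℝ≥0∞} (hc : c ≠ 0)
    (hmass : ∀ n, ∃ M, 3 ≤ M ∧ c ≤ mass μ e ⟨b, C, K, M⟩ n) :
    ∫⁻ ω, Q ω 0 (escEv e)ᶜ ∂iid μ = 0 := by
  by_contra hne
  have hpf := opp_stay_pos hQ hp hs hne
  set pf := ∫⁻ ω, Q ω 0 (StayEv (opp e)) ∂iid μ
  obtain ⟨B, hlev, c', hc', hcore⟩ :=
    core hd hQ hloc htrail hp hps hu hpf (stay_le_u hQ hslab (opp e)) hC hK hc hmass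
  obtain ⟨hinv, hAm⟩ := escEv_invariant e
  set z₀ : Site d := -vec e
  set W : ℕ → Env d → ℝ≥0∞ := fun J ω =>
    ∑' γ, if Pre (opp e) J γ then pw ω (z₀ - dsp γ) γ else 0
  have hWm : ∀ J, Measurable (W J) := fun J => Measurable.tsum fun γ => by
    split_ifs
    · exact Bal.measurable_pw _ _
    · exact measurable_const
  have hz₀ : lev e z₀ = -1 := by simp [z₀, Bal.lev_neg, Bal.lev_vec_self]
  set S₀ : Set (Site d) := {v | 0 ≤ lev e v}
  have hWd : ∀ J, DepOnSet (W J) S₀ := by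
    intro J ω ω' hx
    refine tsum_congr fun γ => ?_
    split_ifs with hγ
    · refine Proj.wt_congr _ _ γ fun v hv => hx v ?_
      have hv2 : v - (z₀ - dsp γ) ∈ verts 0 γ := by
        rw [← Bal.mem_verts_shift, zero_add]; exact hv
      have h1 := hγ.1 _ hv2
      have h2 := hγ.2
      rw [lev_opp] at h2
      rw [lev_opp, Bal.lev_sub, Bal.lev_sub, hz₀] at h1
      show 0 ≤ lev e v
      omega
    · rfl
  have hlim : ∀ a ∈ B, Tendsto (fun J => ∫⁻ ω, W J ω * stayP Q e ω a ∂iid μ) atTop (𝓝 0) := by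
    intro a ha
    obtain ⟨σ, hσ, hσd⟩ := exists_lateral (e := e) (hlev a ha)
    set F : Env d → ℝ≥0∞ := fun ω => pw ω z₀ (σ ++ [e]) * stayP Q (opp e) ω z₀
    have hend : z₀ + dsp (σ ++ [e]) = a := by
      rw [Proj.dsp_append, hσd]; simp [z₀]
    have hFm : Measurable F := (Bal.measurable_pw _ _).mul (measurable_stayP hQ _)
    have hFd : DepOnSet F S₀ᶜ := by
      refine (depOnSet_pw z₀ (σ ++ [e]) fun v hv => ?_).map₂
        ((depOnSet_stayP (stayDepOut hQ) z₀).mono fun v hv => ?_) (· * ·)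
      · rw [Bal.verts_append, List.mem_append] at hv
        show ¬ 0 ≤ lev e v
        rcases hv with hv | hv
        · rw [(lev_lateral hσ z₀).1 v hv, hz₀]; omega
        · simp only [verts, List.mem_singleton] at hv
          rw [hv, (lev_lateral hσ z₀).2, hz₀]; omega
      · have hv' : lev (opp e) z₀ ≤ lev (opp e) v := hv
        rw [lev_opp, lev_opp, hz₀] at hv'
        show ¬ 0 ≤ lev e v
        omega
    have hF0 : ∫⁻ ω, F ω ∂iid μ ≠ 0 := by
      intro h0
      refine hpf ?_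
      show ∫⁻ ω, Q ω 0 (StayEv (opp e)) ∂iid μ = 0
      rw [← lintegral_stayP (e := opp e) hQ z₀]
      refine lintegral_eq_zero_of_ae_eq_zero ?_
      filter_upwards [(lintegral_eq_zero_iff hFm).1 h0, ae_pw_pos hell] with ω hω hpos
      exact (mul_eq_zero.1 hω).resolve_left (hpos _ _)
    have hFt : ∫⁻ ω, F ω ∂iid μ ≠ ∞ := by
      refine ne_top_of_le_ne_top ENNReal.one_ne_top
        ((lintegral_mono (g := fun _ => (1 : ℝ≥0∞)) fun ω => ?_).trans_eq (by simp))
      exact mul_le_one₀ (pw_le_one _ _ _) zero_le (stayP_le_one hQ _ _)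
    have hle : ∀ J, (∫⁻ ω, W J ω * stayP Q e ω a ∂iid μ) * ∫⁻ ω, F ω ∂iid μ
        ≤ ∫⁻ ω, W J ω * (Q ω z₀ (escEv e) * Q ω z₀ (escEv e)ᶜ) ∂iid μ := by
      intro J
      rw [← lintegral_mul_depOnSet μ (f := fun ω => W J ω * stayP Q e ω a) (g := F)
        ((hWm J).mul (measurable_stayP hQ a)) hFm (S := S₀)
        ((hWd J).map₂ ((depOnSet_stayP (stayDepOut hQ) a).mono fun v hv => ?_) (· * ·)) hFd]
      · refine lintegral_mono_ae ?_
        filter_upwards [stay_esc hQ hp hs hslab] with ω hω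
        simp only [F]
        calc W J ω * stayP Q e ω a * (pw ω z₀ (σ ++ [e]) * stayP Q (opp e) ω z₀)
            = W J ω * ((pw ω z₀ (σ ++ [e]) * stayP Q e ω (z₀ + dsp (σ ++ [e])))
                * stayP Q (opp e) ω z₀) := by rw [hend]; ring
          _ ≤ _ := by
              refine mul_le_mul_right (mul_le_mul' ?_ (measure_mono ?_)) _
              · have h3 : stayP Q e ω (z₀ + dsp (σ ++ [e])) ≤ Q ω (z₀ + dsp (σ ++ [e])) (escEv e) := by
                  rw [stayP]
                  refine (measure_le_inter_add_sdiff _ _ (escEv e)).trans ?_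
                  rw [sdiff_eq, hω, add_zero]
                  exact measure_mono inter_subset_right
                refine (mul_le_mul_right h3 _).trans ?_
                rw [← apply_lcyl_inter hQ ω hAm (σ ++ [e]) z₀]
                exact measure_mono fun X hX => (iterate_mem_iff hinv _ X).1 hX.2
              · intro X hX hesc
                obtain ⟨n, hn⟩ := (hesc.eventually_ge_atTop ((lev e (X 0) : ℝ) + 1)).exists
                have h4 := hX n
                rw [lev_opp, lev_opp] at h4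
                have h5 : lev e (X 0) + 1 ≤ lev e (X n) := by exact_mod_cast hn
                omega
      · have hv' : lev e a ≤ lev e v := hv
        rw [hlev a ha] at hv'
        exact hv'
    have hdiv : Tendsto (fun J => (∫⁻ ω, W J ω * (Q ω z₀ (escEv e) * Q ω z₀ (escEv e)ᶜ) ∂iid μ)
        / ∫⁻ ω, F ω ∂iid μ) atTop (𝓝 0) := by
      simpa using ENNReal.Tendsto.div_const (tendsto_flow_prod hQ hAm hinv (opp e) z₀) (Or.inr hF0)
    exact tendsto_of_tendsto_of_tendsto_of_le_of_le tendsto_const_nhds hdiv (fun J => zero_le)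
      fun J => (ENNReal.le_div_iff_mul_le (Or.inl hF0) (Or.inl hFt)).2 (hle J)
  have hsum : Tendsto (fun J => ∑ a ∈ B, ∫⁻ ω, W J ω * stayP Q e ω a ∂iid μ) atTop (𝓝 0) := by
    simpa using tendsto_finsetSum B hlim
  exact hc' (le_antisymm (ge_of_tendsto' hsum hcore) bot_le)

open Classical in
/-- The event and its complement cannot both have a chance to go on staying above the start. -/
lemma stay_dichotomy (hd : 2 ≤ d) (hQ : IsQuenchedLaw Q)
    (hell : ∀ᵐ q ∂μ, ∀ a : Step d, 0 < q.1 a) {p : ℝ≥0∞} (hp : p ≠ 0) (hu : ∀ J, p ≤ u μ e J)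
    (hS : MeasurableSet S) (hinv : Invariant S) :
    ∫⁻ ω, Q ω 0 (S ∩ StayEv e) ∂iid μ = 0 ∨ ∫⁻ ω, Q ω 0 (Sᶜ ∩ StayEv e) ∂iid μ = 0 := by
  obtain ⟨j, hj⟩ := lateral_line hd e
  set v : Site d := Pi.single j (1 : ℤ)
  have hv : lev e v = 0 := lev_eq_zero_iff.2 (Pi.single_eq_of_ne hj.symm _)
  have hlevk : ∀ k : ℤ, lev e (k • v) = 0 := fun k => by
    rw [lev_eq_zero_iff, Pi.smul_apply, lev_eq_zero_iff.1 hv, smul_zero]
  have hinvc : Invariant Sᶜ := ⟨fun x => by rw [preimage_compl, hinv.1],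
    fun z => by rw [preimage_compl, hinv.2]⟩
  have hT : ∀ {T : Set (ℕ → Site d)}, Invariant T → TransInv (T ∩ StayEv e) := fun h z => by
    rw [preimage_inter, h.2 z, transInv_stayEv e z]
  set g : Env d → Site d → ℝ≥0∞ := fun ω x => Q ω x (Sᶜ ∩ StayEv e)
  have hgm : ∀ x, Measurable fun ω => g ω x :=
    measurable_quenched hQ (hS.compl.inter (measurableSet_stayEv e))
  have hzero : ∀ k : ℤ, ∀ᵐ ω ∂iid μ, Q ω 0 (S ∩ StayEv e) * g ω (k • v) = 0 := by
    intro k
    obtain ⟨σ, hσ, hσd⟩ := exists_lateral (e := e) (hlevk k)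
    set F : Env d → ℝ≥0∞ := fun ω => pw ω 0 σ * (Q ω 0 (S ∩ StayEv e) * g ω (k • v))
    have hFm : Measurable F := (Bal.measurable_pw 0 σ).mul
      ((measurable_quenched hQ (hS.inter (measurableSet_stayEv e)) 0).mul (hgm _))
    have hFd : DepOnSet F {w | 0 ≤ lev e w} := by
      refine (depOnSet_pw 0 σ fun w hw => ?_).map₂ (DepOnSet.map₂
        ((stayDepOut hQ e 0 S hS).mono fun w hw => ?_)
        ((stayDepOut hQ e (k • v) Sᶜ hS.compl).mono fun w hw => ?_) (· * ·)) (· * ·)
      · show 0 ≤ lev e w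
        rw [(lev_lateral hσ 0).1 w hw, Bal.lev_zero]
      · simpa using hw
      · have hw' : lev e (k • v) ≤ lev e w := hw
        rw [hlevk k] at hw'
        exact hw'
    have hFle : ∀ ω, F ω ≤ Q ω 0 S * Q ω 0 Sᶜ := by
      intro ω
      calc F ω = Q ω 0 (S ∩ StayEv e) * (pw ω 0 σ * g ω (0 + dsp σ)) := by
            simp only [F, hσd, zero_add]; ring
        _ ≤ _ := by
            refine mul_le_mul' (measure_mono inter_subset_left) ?_
            simp only [g]
            rw [← apply_lcyl_inter hQ ω (hS.compl.inter (measurableSet_stayEv e)) σ 0]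
            exact measure_mono fun X hX => (iterate_mem_iff hinvc _ X).1 hX.2.1
    have hup : ∀ J, p * ∫⁻ ω, F ω ∂iid μ
        ≤ ∫⁻ ω, ∑' γ, (if Pre e J γ then pw ω 0 γ * (Q ω (dsp γ) S * Q ω (dsp γ) Sᶜ) else 0)
          ∂iid μ := by
      intro J
      refine (mul_le_mul_left (hu J) _).trans ?_
      have hm : ∀ γ, Measurable fun ω => if Pre e J γ then pw ω 0 γ * F (shiftEnv (dsp γ) ω) else 0 :=
        fun γ => by
          split_ifs
          · exact (Bal.measurable_pw 0 γ).mul (hFm.comp (shiftEnv_iid μ (dsp γ)).measurable)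
          · exact measurable_const
      calc u μ e J * ∫⁻ ω, F ω ∂iid μ
          = ∫⁻ ω, ∑' γ, (if Pre e J γ then pw ω 0 γ * F (shiftEnv (dsp γ) ω) else 0) ∂iid μ := by
            rw [lintegral_tsum fun γ => (hm γ).aemeasurable, u, ← ENNReal.tsum_mul_right]
            refine tsum_congr fun γ => ?_
            split_ifs with hγ
            · rw [lintegral_mul_depOnSet μ (f := fun ω => pw ω 0 γ)
                (g := fun ω => F (shiftEnv (dsp γ) ω)) (S := {w | lev e w < (J : ℤ)})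
                (Bal.measurable_pw 0 γ) (hFm.comp (shiftEnv_iid μ (dsp γ)).measurable)
                (depOnSet_pw 0 γ fun w hw => (hγ.1 w hw).2)
                (depOnSet_shift hFd (dsp γ) fun w hw => ?_),
                Proj.lintegral_shift μ hFm (dsp γ), Bal.lintegral_pw]
              show ¬ lev e (w + dsp γ) < (J : ℤ)
              have hw' : 0 ≤ lev e w := hw
              rw [Bal.lev_add, hγ.2]
              omega
            · simp
        _ ≤ _ := by
            refine lintegral_mono fun ω => ENNReal.tsum_le_tsum fun γ => ?_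
            split_ifs
            · refine mul_le_mul_right ((hFle _).trans (le_of_eq ?_)) _
              rw [quenched_shift hQ hS hinv.2, quenched_shift hQ hS.compl hinvc.2, zero_add]
            · exact le_rfl
    have hF0 : ∫⁻ ω, F ω ∂iid μ = 0 := by
      have h := ge_of_tendsto' (flatEndOut (μ := μ) hQ e S hS hinv) hup
      simpa [hp] using h
    filter_upwards [(lintegral_eq_zero_iff hFm).1 hF0, ae_pw_pos hell] with ω hω hpos
    exact (mul_eq_zero.1 hω).resolve_left (hpos _ _)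
  set G : Set (Env d) := {ω | ∃ k : ℤ, g ω (k • v) ≠ 0}
  have hGm : MeasurableSet G := by
    simp only [G, ofPred_exists]
    exact MeasurableSet.iUnion fun k => (hgm _ (measurableSet_singleton 0)).compl
  have hGinv : shiftEnv v ⁻¹' G = G := by
    have hs : ∀ ω (k : ℤ), g (shiftEnv v ω) (k • v) = g ω ((k + 1) • v) := fun ω k => by
      show Q (shiftEnv v ω) _ _ = _
      rw [quenched_shift hQ (hS.compl.inter (measurableSet_stayEv e)) (hT hinvc), add_smul, one_smul]
    ext ω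
    simp only [G, mem_preimage, mem_ofPred_eq, hs]
    exact ⟨fun ⟨k, hk⟩ => ⟨k + 1, hk⟩, fun ⟨k, hk⟩ => ⟨k - 1, by rwa [sub_add_cancel]⟩⟩
  rcases eventuallyConst_set.1 ((ergodic_iid μ j).aeconst_set hGm hGinv) with h1 | h1
  · refine Or.inl (lintegral_eq_zero_of_ae_eq_zero ?_)
    filter_upwards [h1, ae_all_iff.2 hzero] with ω hω hz
    obtain ⟨k, hk⟩ := hω
    exact (mul_eq_zero.1 (hz k)).resolve_right hk
  · refine Or.inr (lintegral_eq_zero_of_ae_eq_zero ?_)
    filter_upwards [h1] with ω hω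
    by_contra hne
    exact hω ⟨0, by simpa [g] using hne⟩

/-- If escape is certain then an event which cannot go on staying above the start is null. -/
lemma null_of_stay (hQ : IsQuenchedLaw Q) (hS : MeasurableSet S) (hinv : Invariant S)
    (h0 : ∫⁻ ω, Q ω 0 (S ∩ StayEv e) ∂iid μ = 0)
    (hfull : ∀ᵐ ω ∂iid μ, ∀ x, Q ω x (escEv e)ᶜ = 0) :
    ∀ᵐ ω ∂iid μ, ∀ x, Q ω x S = 0 := by
  filter_upwards [ae_null_iterate hQ (hS.inter (measurableSet_stayEv e))
    (fun z => by rw [preimage_inter, hinv.2 z, transInv_stayEv e z]) h0, hfull] with ω hit hA x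
  refine measure_mono_null (t := (⋃ n : ℕ, (ptail^[n]) ⁻¹' (S ∩ StayEv e)) ∪ (escEv e)ᶜ) ?_
    (measure_union_null (measure_iUnion_null fun n => hit n x) (hA x))
  intro X hX
  by_cases hesc : X ∈ escEv e
  swap
  · exact Or.inr hesc
  obtain ⟨M, hM⟩ := Filter.eventually_atTop.1 (hesc.eventually_ge_atTop (lev e (X 0) : ℝ))
  obtain ⟨n, -, hn⟩ := Finset.exists_min_image (Finset.range (M + 1)) (fun k => lev e (X k))
    ⟨0, by simp⟩
  refine Or.inl (mem_iUnion.2 ⟨n, (iterate_mem_iff hinv n X).2 hX, fun k => ?_⟩)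
  rw [Bal.iterate_ptail, Bal.iterate_ptail, zero_add]
  by_cases hk : k + n < M + 1
  · exact hn _ (Finset.mem_range.2 hk)
  · have h1 : lev e (X 0) ≤ lev e (X (k + n)) := by exact_mod_cast hM (k + n) (by omega)
    exact (hn 0 (by simp)).trans h1

/-- The zero-one law from escape with polynomial range. -/
theorem zero_one_of_thin (hd : 4 * b + 11 ≤ d) (hQ : IsQuenchedLaw Q)
    (hell : ∀ᵐ q ∂μ, ∀ a : Step d, 0 < q.1 a) (hloc : ∀ p : ℝ≥0∞, p ≠ 0 → (∀ J, p ≤ u μ e J) → LocalOut μ e)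
    (htrail : TrailOut μ e) (hslab : SlabOut μ Q) (hmass : MassOut μ Q e b)
    (hpos : ∫⁻ ω, Q ω 0 (thinEscape e b) ∂iid μ ≠ 0) :
    (∀ᵐ ω ∂iid μ, ∀ x, Q ω x (escEv e) = 1) ∧
      ∀ S : Set (ℕ → Site d), MeasurableSet S → Invariant S →
        ∃ q : ℝ≥0∞, (q = 0 ∨ q = 1) ∧ (∀ᵐ ω ∂iid μ, ∀ x, Q ω x S = q) ∧
          ∫⁻ ω, Q ω 0 S ∂iid μ = q := by
  obtain ⟨p, hp, hps, hu, hs, C, K, hC, hK, c, hc, hm⟩ := hmass hpos
  have h0 := esc_full hd hQ hell (hloc p hp hu) htrail hslab hp hps hu hs hC hK hc hm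
  have hfull := ae_null hQ (escEv_invariant e).2.compl (escEv_inv_compl e).2 h0
  refine ⟨?_, fun S hS hinv => ?_⟩
  · filter_upwards [hfull] with ω hω x
    have := hQ.prob ω x
    exact (prob_compl_eq_zero_iff (escEv_invariant e).2).1 (hω x)
  have hinvc : Invariant Sᶜ := ⟨fun x => by rw [preimage_compl, hinv.1],
    fun z => by rw [preimage_compl, hinv.2]⟩
  rcases stay_dichotomy (by omega) hQ hell hp hu hS hinv with h | h
  · have hz := null_of_stay hQ hS hinv h hfull
    exact ⟨0, Or.inl rfl, hz, by rw [lintegral_congr_ae (hz.mono fun ω hω => hω 0)]; simp⟩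
  · have hz : ∀ᵐ ω ∂iid μ, ∀ x, Q ω x S = 1 := by
      filter_upwards [null_of_stay hQ hS.compl hinvc h hfull] with ω hω x
      have := hQ.prob ω x
      exact (prob_compl_eq_zero_iff hS).1 (hω x)
    exact ⟨1, Or.inr rfl, hz, by rw [lintegral_congr_ae (hz.mono fun ω hω => hω 0)]; simp⟩

end Vale.Agent.P147.Thin
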