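import Vale.Agent.P147.Thin.Indep
import Vale.Agent.P147.Thin.Out
import Vale.Agent.P147.Thin.Extent

/-!
# The fat flow

The prefixes along `opp e` into `-vec e` whose final stretches stay in small boxes. Their mass is
bounded below, and at every depth `s` they are counted by the boxes' many restarted flows, each of
which reads the rows above `s` only.
-/

open MeasureTheory Set Filter Topology
open scoped ENNReal

namespace Vale.Agent.P147.Thin

open Vale.Agent.P147.Proj (dsp verts iid)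
open Vale.Agent.P147.Bal (lev pw pq cw u Hit1 Pre Adm Irr hgt)

variable {d : ℕ} {μ : Measure (Row d)}

lemma one_sub_pow_mul_le {x : ℝ≥0∞} (hx : x ≤ 1) (R : ℕ) : (1 - x) ^ R * ((R : ℝ≥0∞) * x) ≤ 1 := by
  have hxt : x ≠ ∞ := ne_top_of_le_ne_top ENNReal.one_ne_top hx
  set t := x.toReal with ht
  have ht0 : 0 ≤ t := ENNReal.toReal_nonneg
  have ht1 : t ≤ 1 := ENNReal.toReal_le_of_le_ofReal zero_le_one (by simpa using hx)
  have hxe : x = ENNReal.ofReal t := (ENNReal.ofReal_toReal hxt).symm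
  have key : (1 - t) ^ R * ((R : ℝ) * t) ≤ 1 := by
    have h1 : (1 : ℝ) + R * t ≤ (1 + t) ^ R := one_add_mul_le_pow (by linarith) R
    have h2 : ((1 - t) * (1 + t)) ^ R ≤ 1 :=
      pow_le_one₀ (by nlinarith) (by nlinarith [mul_self_nonneg t])
    rw [mul_pow] at h2
    have h0 : (0 : ℝ) ≤ (1 - t) ^ R := pow_nonneg (by linarith) R
    nlinarith [mul_le_mul_of_nonneg_left h1 h0]
  rw [hxe, ← ENNReal.ofReal_one, ← ENNReal.ofReal_sub _ ht0,
    ← ENNReal.ofReal_pow (by linarith), ← ENNReal.ofReal_natCast,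
    ← ENNReal.ofReal_mul (Nat.cast_nonneg R), ← ENNReal.ofReal_mul (pow_nonneg (by linarith) R)]
  exact ENNReal.ofReal_le_ofReal key

lemma exists_qstep_ge [IsProbabilityMeasure μ] (hell : ∀ᵐ q ∂μ, ∀ a : Step d, 0 < q.1 a)
    (g : Step d) : ∃ N : ℕ, 1 ≤ qstep μ g * 2 ^ N := by
  obtain ⟨N, hN⟩ := ENNReal.exists_nat_mul_gt (qstep_ne_zero hell g) ENNReal.one_ne_top
  refine ⟨N, hN.le.trans ?_⟩
  rw [mul_comm]
  exact mul_le_mul_right (by exact_mod_cast Nat.lt_two_pow_self.le) _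

/-- The last piece which takes a prefix above the height `s`, and what follows it. -/
lemma exists_tail_split {g : Step d} (s : ℕ) : ∀ (n : ℕ) (γ : List (Step d)), γ.length ≤ n →
    Adm g γ → s < hgt g γ → ∃ α I β, γ = α ++ (I ++ β) ∧ Irr g I ∧ Adm g α ∧ Adm g β ∧
      s < hgt g (I ++ β) ∧ hgt g β ≤ s := by
  intro n
  induction n with
  | zero =>
      intro γ hl _ hs
      rw [List.length_eq_zero_iff.1 (Nat.le_zero.1 hl), Bal.hgt_nil] at hs
      omega
  | succ n ih =>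
      intro γ hl hγ hs
      have hne : γ ≠ [] := fun h => by rw [h, Bal.hgt_nil] at hs; omega
      obtain ⟨η, δ, rfl, hη, hδ⟩ := hγ.exists_head hne
      by_cases hd : hgt g δ ≤ s
      · exact ⟨[], η, δ, by simp, hη, Bal.adm_nil, hδ, hs, hd⟩
      have hpos : 0 < η.length := List.length_pos_iff.2 hη.1
      rw [List.length_append] at hl
      obtain ⟨α, I, β, rfl, hI, hα, hβ, h1, h2⟩ := ih δ (by omega) hδ (by omega)
      exact ⟨η ++ α, I, β, by simp, hI, (hη.2.1.append hα).1, hβ, h1, h2⟩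

/-- Some piece is much higher than what follows it. -/
def HighPiece (g : Step d) (K : ℕ) (γ : List (Step d)) : Prop :=
  ∃ α I β, γ = α ++ (I ++ β) ∧ Irr g I ∧ Adm g α ∧ Adm g β ∧ K * (hgt g β + 1) < hgt g I

/-- Some final stretch of bounded height leaves the box of radius `R`. -/
def WideTail (g : Step d) (H R : ℕ) (γ : List (Step d)) : Prop :=
  ∃ α δ, γ = α ++ δ ∧ Adm g α ∧ Adm g δ ∧ hgt g δ ≤ H ∧ ∃ j, (R : ℤ) < |dsp δ j|

/-- The final stretches above every height stay in their boxes. -/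
def Boxed (g : Step d) (R : ℕ → ℕ) (γ : List (Step d)) : Prop :=
  ∀ s : ℕ, ∃ α δ, γ = α ++ δ ∧ Adm g α ∧ Adm g δ ∧ (α = [] ∨ s < hgt g δ) ∧
    ∀ j, |dsp δ j| ≤ (R s : ℤ)

lemma boxed_or {g : Step d} {K : ℕ} {R : ℕ → ℕ} {γ : List (Step d)} (hγ : Adm g γ)
    (h : ¬ Boxed g R γ) :
    HighPiece g K γ ∨ ∃ s, WideTail g ((K + 1) * (s + 1)) (R s) γ := by
  by_contra hno
  push Not at hno
  obtain ⟨hP, hT⟩ := hno
  refine h fun s => ?_
  have hs1 : s ≤ (K + 1) * (s + 1) :=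
    le_trans (Nat.le_succ s) (Nat.le_mul_of_pos_left _ (Nat.succ_pos K))
  by_cases hs : s < hgt g γ
  · obtain ⟨α, I, β, rfl, hI, hα, hβ, h1, h2⟩ := exists_tail_split s γ.length γ le_rfl hγ hs
    refine ⟨α, I ++ β, rfl, hα, (hI.2.1.append hβ).1, Or.inr h1, fun j => ?_⟩
    by_contra hj
    have hle : hgt g I ≤ K * (hgt g β + 1) :=
      not_lt.1 fun hc => hP ⟨α, I, β, rfl, hI, hα, hβ, hc⟩
    refine hT s ⟨α, I ++ β, rfl, hα, (hI.2.1.append hβ).1, ?_, j, not_le.1 hj⟩
    rw [(hI.2.1.append hβ).2]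
    have h3 := Nat.mul_le_mul_left K (Nat.add_le_add_right h2 1)
    rw [add_mul, one_mul]
    omega
  · refine ⟨[], γ, by simp, Bal.adm_nil, hγ, Or.inl rfl, fun j => ?_⟩
    by_contra hj
    exact hT s ⟨[], γ, by simp, Bal.adm_nil, hγ, by omega, j, not_le.1 hj⟩

variable [IsProbabilityMeasure μ]

open Classical in
/-- Summing over the part before a split costs at most one. -/
lemma tsum_before_le (g : Step d) (J : ℕ) (B : List (Step d) → ℝ≥0∞)
    (P : List (Step d) → Prop) (hB : ∀ ρ, P ρ → Adm g ρ ∧ cw μ ρ ≤ B ρ) :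
    ∑' γ, (if Pre g J γ ∧ ∃ α ρ, γ = α ++ ρ ∧ Adm g α ∧ P ρ then cw μ γ else 0) ≤ ∑' ρ, B ρ := by
  refine (Proj.tsum_le_split _
    (fun z => (if Pre g (J - hgt g z.2) z.1 then cw μ z.1 else 0) * B z.2) fun γ hγ => ?_).trans ?_
  · by_cases h : Pre g J γ ∧ ∃ α ρ, γ = α ++ ρ ∧ Adm g α ∧ P ρ
    swap
    · exact absurd (if_neg h) hγ
    rw [if_pos h]
    obtain ⟨hJ, α, ρ, rfl, hα, hρ⟩ := h
    obtain ⟨hρA, hle⟩ := hB ρ hρ
    refine ⟨α, ρ, rfl, ?_⟩
    have hh : hgt g α = J - hgt g ρ := by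
      rw [← hJ.hgt_eq, (hα.append hρA).2, Nat.add_sub_cancel]
    rw [if_pos (Bal.pre_iff_adm.2 ⟨hα, hh⟩), Bal.cw_append hα hρA]
    exact mul_le_mul_right hle _
  · rw [ENNReal.tsum_prod', ENNReal.tsum_comm]
    refine ENNReal.tsum_le_tsum fun ρ => ?_
    simp only []
    rw [ENNReal.tsum_mul_right]
    exact mul_le_of_le_one_left zero_le (Bal.u_le_one _)

open Classical in
lemma tsum_highPiece_le (g : Step d) {p : ℝ≥0∞} (hp : p ≠ 0) (hu : ∀ J, p ≤ u μ g J) {K : ℕ}
    (hK : K ≠ 0) (J : ℕ) :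
    ∑' γ, (if Pre g J γ ∧ HighPiece g K γ then cw μ γ else 0) ≤ p⁻¹ * (K : ℝ≥0∞)⁻¹ := by
  set P : List (Step d) → Prop := fun ρ =>
    ∃ I β, ρ = I ++ β ∧ Irr g I ∧ Adm g β ∧ K * (hgt g β + 1) < hgt g I
  have hPA : ∀ ρ, P ρ → Adm g ρ := by
    rintro _ ⟨I, β, rfl, hI, hβ, -⟩
    exact (hI.2.1.append hβ).1
  refine le_trans (ENNReal.tsum_le_tsum fun γ => ?_) ((tsum_before_le g J
    (fun ρ => if P ρ then cw μ ρ else 0) P fun ρ hρ => ⟨hPA ρ hρ, by rw [if_pos hρ]⟩).trans ?_)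
  · by_cases h : Pre g J γ ∧ HighPiece g K γ
    · obtain ⟨hJ, α, I, β, rfl, hI, hα, hβ, hc⟩ := h
      rw [if_pos ⟨hJ, α, I, β, rfl, hI, hα, hβ, hc⟩,
        if_pos ⟨hJ, α, I ++ β, rfl, hα, I, β, rfl, hI, hβ, hc⟩]
    · rw [if_neg h]
      exact zero_le
  refine (Proj.tsum_le_split _ (fun z => (if Irr g z.1 then cw μ z.1 else 0) *
    (if Adm g z.2 ∧ K * (hgt g z.2 + 1) < hgt g z.1 then cw μ z.2 else 0)) fun ρ hρ => ?_).trans ?_
  · by_cases h : P ρ
    swap
    · exact absurd (if_neg h) hρ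
    rw [if_pos h]
    obtain ⟨I, β, rfl, hI, hβ, hc⟩ := h
    exact ⟨I, β, rfl, by rw [if_pos hI, if_pos ⟨hβ, hc⟩, Bal.cw_append hI.2.1 hβ]⟩
  rw [ENNReal.tsum_prod']
  have hin : ∀ H : ℕ, ∑' β, (if Adm g β ∧ K * (hgt g β + 1) < H then cw μ β else 0)
      ≤ (H : ℝ≥0∞) * (K : ℝ≥0∞)⁻¹ := by
    intro H
    refine le_trans (ENNReal.tsum_le_tsum (g := fun β =>
      ∑ h ∈ Finset.range (H / K), if Pre g h β then cw μ β else 0) fun β => ?_) ?_
    · by_cases hb : Adm g β ∧ K * (hgt g β + 1) < H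
      · rw [if_pos hb]
        have hlt : hgt g β < H / K := by
          have := (Nat.le_div_iff_mul_le (Nat.pos_of_ne_zero hK)).2
            (show (hgt g β + 1) * K ≤ H by rw [mul_comm]; exact hb.2.le)
          omega
        refine le_trans ?_ (Finset.single_le_sum (fun _ _ => zero_le) (Finset.mem_range.2 hlt))
        rw [if_pos (Bal.pre_iff_adm.2 ⟨hb.1, rfl⟩)]
      · rw [if_neg hb]
        exact zero_le
    rw [Summable.tsum_finsetSum fun _ _ => ENNReal.summable]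
    refine (Finset.sum_le_sum (g := fun _ => (1 : ℝ≥0∞)) fun h _ => Bal.u_le_one h).trans ?_
    rw [Finset.sum_const, Finset.card_range, nsmul_eq_mul, mul_one, ← div_eq_mul_inv,
      ENNReal.le_div_iff_mul_le (Or.inl (by exact_mod_cast hK)) (Or.inl (ENNReal.natCast_ne_top K))]
    exact_mod_cast Nat.div_mul_le_self H K
  calc ∑' I, ∑' β, (if Irr g I then cw μ I else 0) *
        (if Adm g β ∧ K * (hgt g β + 1) < hgt g I then cw μ β else 0)
      ≤ ∑' I, (if Irr g I then cw μ I * (hgt g I : ℝ≥0∞) else 0) * (K : ℝ≥0∞)⁻¹ := by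
        refine ENNReal.tsum_le_tsum fun I => ?_
        rw [ENNReal.tsum_mul_left]
        refine (mul_le_mul_right (hin _) _).trans ?_
        split_ifs
        · rw [mul_assoc]
        · simp
    _ ≤ _ := by
        rw [ENNReal.tsum_mul_right, ← Bal.tsum_hlaw_mul fun s => (s : ℝ≥0∞)]
        refine mul_le_mul_left (le_of_eq_of_le ?_ (Bal.hlaw_mean hp hu)) _
        exact tsum_congr fun s => mul_comm _ _

open Classical in
lemma tsum_wideTail_le (hconf : ConfOut μ) (g : Step d) {H R : ℕ} (hHR : H ≤ R) (J : ℕ) :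
    ∑' γ, (if Pre g J γ ∧ WideTail g H R γ then cw μ γ else 0)
      ≤ ((H + 1 : ℕ) : ℝ≥0∞) * ((2 * d : ℕ) : ℝ≥0∞) * (1 - qstep μ g ^ H) ^ R := by
  set P : List (Step d) → Prop := fun δ => Adm g δ ∧ hgt g δ ≤ H ∧ ∃ j, (R : ℤ) < |dsp δ j|
  refine le_trans (ENNReal.tsum_le_tsum fun γ => ?_) ((tsum_before_le g J
    (fun δ => if P δ then cw μ δ else 0) P fun δ hδ => ⟨hδ.1, by rw [if_pos hδ]⟩).trans ?_)
  · by_cases h : Pre g J γ ∧ WideTail g H R γ
    · obtain ⟨hJ, α, δ, rfl, hα, hδ, hH, hj⟩ := h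
      rw [if_pos ⟨hJ, α, δ, rfl, hα, hδ, hH, hj⟩, if_pos ⟨hJ, α, δ, rfl, hα, hδ, hH, hj⟩]
    · rw [if_neg h]
      exact zero_le
  set T : ℕ → Step d → Set (List (Step d)) := fun h a =>
    {δ | Pre g h δ ∧ h ≤ H ∧ a.1 ≠ g.1 ∧ (R : ℤ) ≤ lev a (dsp δ)}
  calc ∑' δ, (if P δ then cw μ δ else 0)
      ≤ ∑' δ, ∑ h ∈ Finset.range (H + 1), ∑ a : Step d, (T h a).indicator (cw μ) δ := by
        refine ENNReal.tsum_le_tsum fun δ => ?_
        by_cases h : P δ
        swap
        · rw [if_neg h]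
          exact zero_le
        rw [if_pos h]
        obtain ⟨hA, hH, j, hj⟩ := h
        have hjg : j ≠ g.1 := by
          rintro rfl
          have h1 : lev g (dsp δ) = hgt g δ := hA.2
          have h2 : |dsp δ g.1| = |lev g (dsp δ)| := by
            unfold lev
            split_ifs <;> simp
          rw [h2, h1, Nat.abs_cast] at hj
          omega
        obtain ⟨b, hb⟩ : ∃ b, (R : ℤ) ≤ lev (j, b) (dsp δ) := by
          rcases le_total 0 (dsp δ j) with h0 | h0
          · exact ⟨true, by rw [abs_of_nonneg h0] at hj; simp [lev]; omega⟩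
          · exact ⟨false, by rw [abs_of_nonpos h0] at hj; simp [lev]; omega⟩
        refine le_trans ?_ (Finset.single_le_sum (fun _ _ => zero_le)
          (Finset.mem_range.2 (show hgt g δ < H + 1 by omega)))
        refine le_trans ?_ (Finset.single_le_sum (fun _ _ => zero_le) (Finset.mem_univ (j, b)))
        rw [indicator_of_mem (show δ ∈ T (hgt g δ) (j, b) from
          ⟨Bal.pre_iff_adm.2 ⟨hA, rfl⟩, hH, hjg, hb⟩)]
    _ = ∑ h ∈ Finset.range (H + 1), ∑ a : Step d, ∑' δ, (T h a).indicator (cw μ) δ := by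
        rw [Summable.tsum_finsetSum fun _ _ => ENNReal.summable]
        exact Finset.sum_congr rfl fun h _ => Summable.tsum_finsetSum fun _ _ => ENNReal.summable
    _ ≤ ∑ h ∈ Finset.range (H + 1), ∑ a : Step d, (1 - qstep μ g ^ H) ^ R := by
        refine Finset.sum_le_sum fun h _ => Finset.sum_le_sum fun a _ => ?_
        by_cases ha : a.1 = g.1
        · refine le_of_eq_of_le (ENNReal.tsum_eq_zero.2 fun δ => ?_) zero_le
          exact indicator_of_notMem (fun hδ => hδ.2.2.1 ha) _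
        refine le_trans ?_ (hconf g a ha 0 H R)
        have e : ∀ (S : Set (List (Step d))), ∑' γ, S.indicator (cw μ) γ
            = ∑' γ, S.indicator (fun γ => ∫⁻ ω, (1 : ℝ≥0∞) * pw ω 0 γ ∂iid μ) γ := fun S => by
          simp only [one_mul]
          rfl
        rw [e, e]
        refine Bal.tsum_cut_le measurable_const 0 _ _
          (fun γ δ h1 h2 => Bal.pre_prefix_free h1.1 h2.1) fun δ hδ => ?_
        obtain ⟨η, ρ, rfl, h3, h4⟩ :=
          Bal.exists_climb δ (e := a) (t := (R : ℤ)) 0 (by simp) (by simpa using hδ.2.2.2)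
        refine ⟨η, ρ, rfl, ⟨h3, h4⟩, fun v hv => ?_⟩
        have h5 := hδ.1.1 v (Bal.mem_verts_append.2 (Or.inl hv))
        refine ⟨h5.1, ?_⟩
        have : (h : ℤ) ≤ H := by exact_mod_cast hδ.2.1
        omega
    _ = _ := by
        simp [Finset.card_univ, mul_assoc, mul_comm 2 d]

open Classical in
theorem trailOut_of (hconf : ConfOut μ) (hell : ∀ᵐ q ∂μ, ∀ a : Step d, 0 < q.1 a) (e : Step d) :
    TrailOut μ e := by
  intro p hp hu
  set f := opp e with hf
  have hlev : ∀ x, lev f x = -lev e x := fun x => by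
    simp only [hf, opp, lev]
    cases e.2 <;> simp
  have hptop : p ≠ ∞ := ne_top_of_le_ne_top ENNReal.one_ne_top ((hu 0).trans (Bal.u_le_one 0))
  obtain ⟨N, hN⟩ := exists_qstep_ge hell f
  obtain ⟨K, hK⟩ := ENNReal.exists_nat_mul_gt (mul_ne_zero hp hp)
    (ENNReal.natCast_ne_top 4)
  obtain ⟨G, hG⟩ := ENNReal.exists_nat_mul_gt hp (ENNReal.natCast_ne_top (16 * d + 1))
  have hK0 : K ≠ 0 := fun h => by simp [h] at hK
  have hG0 : G ≠ 0 := fun h => by simp [h] at hG
  set Hs : ℕ → ℕ := fun s => (K + 1) * (s + 1) with hHs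
  set R : ℕ → ℕ := fun s => G * (Hs s + 1) * 2 ^ (N * Hs s) * 2 ^ s with hR
  have hHR : ∀ s, Hs s ≤ R s := fun s => by
    have h1 : 1 ≤ G := Nat.one_le_iff_ne_zero.2 hG0
    calc Hs s ≤ 1 * (Hs s + 1) * 1 * 1 := by omega
      _ ≤ R s := Nat.mul_le_mul (Nat.mul_le_mul (Nat.mul_le_mul h1 le_rfl) Nat.one_le_two_pow)
          Nat.one_le_two_pow
  set A := d * (G + (K + 1) * (N + 1) + 4) with hA
  refine ⟨A, fun J => ?_⟩
  set W : Env d → ℝ≥0∞ := fun ω =>
    ∑' γ, if Pre f J γ ∧ Boxed f R γ then pw ω (-vec e - dsp γ) γ else 0 with hW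
  have hWm : ∀ γ, Measurable fun ω : Env d =>
      if Pre f J γ ∧ Boxed f R γ then pw ω (-vec e - dsp γ) γ else 0 := fun γ => by
    split_ifs
    · exact Bal.measurable_pw _ _
    · exact measurable_const
  have hEW : ∫⁻ ω, W ω ∂iid μ = ∑' γ, if Pre f J γ ∧ Boxed f R γ then cw μ γ else 0 := by
    rw [hW, lintegral_tsum fun γ => (hWm γ).aemeasurable]
    refine tsum_congr fun γ => ?_
    split_ifs
    · exact Bal.lintegral_pw _ _
    · simp
  have hbad : ∑' γ, (if Pre f J γ ∧ ¬ Boxed f R γ then cw μ γ else 0) ≤ p / 2 := by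
    have e1 : ∀ γ, (if Pre f J γ ∧ ¬ Boxed f R γ then cw μ γ else 0) ≤
        (if Pre f J γ ∧ HighPiece f K γ then cw μ γ else 0) +
          ∑' s, if Pre f J γ ∧ WideTail f (Hs s) (R s) γ then cw μ γ else 0 := by
      intro γ
      by_cases h : Pre f J γ ∧ ¬ Boxed f R γ
      swap
      · rw [if_neg h]
        exact zero_le
      rw [if_pos h]
      rcases boxed_or (K := K) h.1.adm h.2 with h1 | ⟨s, h1⟩
      · rw [if_pos ⟨h.1, h1⟩]
        exact le_self_add
      · refine le_trans ?_ le_add_self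
        refine le_trans ?_ (ENNReal.le_tsum s)
        rw [if_pos ⟨h.1, h1⟩]
    refine (ENNReal.tsum_le_tsum e1).trans ?_
    rw [ENNReal.tsum_add, ENNReal.tsum_comm, ← ENNReal.add_halves (p / 2)]
    refine add_le_add ((tsum_highPiece_le f hp hu hK0 J).trans ?_) ?_
    · rw [← ENNReal.mul_inv (Or.inl hp) (Or.inl hptop), ENNReal.inv_le_iff_le_mul ?_ ?_]
      · have h4 : p / 2 / 2 * 4 = p := by
          rw [show (4 : ℝ≥0∞) = 2 * 2 by norm_num, ← mul_assoc,
            ENNReal.div_mul_cancel two_ne_zero ENNReal.ofNat_ne_top,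
            ENNReal.div_mul_cancel two_ne_zero ENNReal.ofNat_ne_top]
        have h5 : (4 : ℝ≥0∞) ≤ K * (p * p) := by exact_mod_cast hK.le
        calc (1 : ℝ≥0∞) = 4⁻¹ * 4 :=
              (ENNReal.inv_mul_cancel (by norm_num) ENNReal.ofNat_ne_top).symm
          _ ≤ 4⁻¹ * (K * (p * p)) := mul_le_mul_right h5 _
          _ = 4⁻¹ * (K * (p * (p / 2 / 2 * 4))) := by rw [h4]
          _ = (4⁻¹ * 4) * (p * K * (p / 2 / 2)) := by ring
          _ = _ := by rw [ENNReal.inv_mul_cancel (by norm_num) ENNReal.ofNat_ne_top, one_mul]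
      · exact fun h => absurd h (ENNReal.div_ne_top (ENNReal.div_ne_top hptop two_ne_zero)
          two_ne_zero)
      · exact fun h => absurd h (ENNReal.mul_ne_top hptop (ENNReal.natCast_ne_top K))
    · have hterm : ∀ s, ∑' γ, (if Pre f J γ ∧ WideTail f (Hs s) (R s) γ then cw μ γ else 0)
          ≤ ((2 * d : ℕ) : ℝ≥0∞) * (G : ℝ≥0∞)⁻¹ * (2 : ℝ≥0∞)⁻¹ ^ s := by
        intro s
        refine (tsum_wideTail_le hconf f (hHR s) J).trans ?_
        set x := qstep μ f ^ Hs s with hx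
        have hx1 : x ≤ 1 := pow_le_one₀ zero_le (qstep_le_one f)
        have h1 := one_sub_pow_mul_le hx1 (R s)
        have h2 : ((Hs s + 1 : ℕ) : ℝ≥0∞) * ((G : ℝ≥0∞) * 2 ^ s) ≤ (R s : ℝ≥0∞) * x := by
          have h3 : (1 : ℝ≥0∞) ≤ x * 2 ^ (N * Hs s) := by
            calc (1 : ℝ≥0∞) ≤ (qstep μ f * 2 ^ N) ^ Hs s := one_le_pow₀ hN
              _ = _ := by rw [hx, mul_pow, ← pow_mul]
          calc ((Hs s + 1 : ℕ) : ℝ≥0∞) * ((G : ℝ≥0∞) * 2 ^ s)
              = (G : ℝ≥0∞) * ((Hs s + 1 : ℕ) : ℝ≥0∞) * 2 ^ s * 1 := by ring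
            _ ≤ (G : ℝ≥0∞) * ((Hs s + 1 : ℕ) : ℝ≥0∞) * 2 ^ s * (x * 2 ^ (N * Hs s)) :=
                mul_le_mul_right h3 _
            _ = (R s : ℝ≥0∞) * x := by
                simp only [hR]
                push_cast
                ring
        have h4 : ((G : ℝ≥0∞) * 2 ^ s) * (((Hs s + 1 : ℕ) : ℝ≥0∞) * (1 - x) ^ R s) ≤ 1 := by
          refine le_trans (le_of_eq ?_) ((mul_le_mul_right h2 _).trans h1)
          ring
        have h5 : ((Hs s + 1 : ℕ) : ℝ≥0∞) * (1 - x) ^ R s ≤ ((G : ℝ≥0∞) * 2 ^ s)⁻¹ := by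
          rw [← one_div, ENNReal.le_div_iff_mul_le
            (Or.inl (mul_ne_zero (by exact_mod_cast hG0) (pow_ne_zero _ two_ne_zero)))
            (Or.inl (ENNReal.mul_ne_top (ENNReal.natCast_ne_top G)
              (ENNReal.pow_ne_top ENNReal.ofNat_ne_top))), mul_comm]
          exact h4
        calc ((Hs s + 1 : ℕ) : ℝ≥0∞) * ((2 * d : ℕ) : ℝ≥0∞) * (1 - x) ^ R s
            = ((2 * d : ℕ) : ℝ≥0∞) * (((Hs s + 1 : ℕ) : ℝ≥0∞) * (1 - x) ^ R s) := by ring
          _ ≤ ((2 * d : ℕ) : ℝ≥0∞) * ((G : ℝ≥0∞) * 2 ^ s)⁻¹ := mul_le_mul_right h5 _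
          _ = _ := by
              rw [ENNReal.mul_inv (Or.inl (by exact_mod_cast hG0))
                (Or.inl (ENNReal.natCast_ne_top G)), ENNReal.inv_pow, mul_assoc]
      refine (ENNReal.tsum_le_tsum hterm).trans ?_
      rw [ENNReal.tsum_mul_left, ENNReal.tsum_geometric, ENNReal.one_sub_inv_two, inv_inv]
      have h6 : (((16 * d + 1 : ℕ)) : ℝ≥0∞) ≤ (G : ℝ≥0∞) * p := hG.le
      rw [ENNReal.le_div_iff_mul_le (Or.inl two_ne_zero) (Or.inl ENNReal.ofNat_ne_top),
        ENNReal.le_div_iff_mul_le (Or.inl two_ne_zero) (Or.inl ENNReal.ofNat_ne_top)]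
      calc ((2 * d : ℕ) : ℝ≥0∞) * (G : ℝ≥0∞)⁻¹ * 2 * 2 * 2
          = (G : ℝ≥0∞)⁻¹ * ((16 * d : ℕ) : ℝ≥0∞) := by push_cast; ring
        _ ≤ (G : ℝ≥0∞)⁻¹ * ((G : ℝ≥0∞) * p) :=
            mul_le_mul_right (le_trans (Nat.cast_le.2 (Nat.le_succ _)) h6) _
        _ = p := by
            rw [← mul_assoc, ENNReal.inv_mul_cancel (by exact_mod_cast hG0)
              (ENNReal.natCast_ne_top G), one_mul]
  refine ⟨W, Measurable.tsum hWm, ?_, ?_, ?_, fun ω => ?_, fun s => ?_⟩
  · intro ω ω' h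
    refine tsum_congr fun γ => ?_
    by_cases hγ : Pre f J γ ∧ Boxed f R γ
    swap
    · rw [if_neg hγ, if_neg hγ]
    rw [if_pos hγ, if_pos hγ]
    refine Proj.wt_congr _ _ _ fun v hv => h v ?_
    have h1 := hγ.1.1 _ (Bal.mem_verts_shift.1 (show v ∈ verts (0 + (-vec e - dsp γ)) γ by
      rwa [zero_add]))
    have h2 := hγ.1.2
    rw [hlev] at h1 h2
    simp only [Bal.lev_sub, Bal.lev_neg, Bal.lev_vec_self] at h1
    show 0 ≤ lev e v ∧ lev e v < (J : ℤ)
    omega
  · rw [hEW]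
    have hsum : u μ f J = (∑' γ, if Pre f J γ ∧ Boxed f R γ then cw μ γ else 0) +
        ∑' γ, (if Pre f J γ ∧ ¬ Boxed f R γ then cw μ γ else 0) := by
      rw [← ENNReal.tsum_add]
      refine tsum_congr fun γ => ?_
      by_cases h1 : Pre f J γ <;> by_cases h2 : Boxed f R γ <;> simp [h1, h2]
    refine le_trans (le_of_eq (ENNReal.sub_half hptop).symm) (tsub_le_iff_right.2 ?_)
    calc p ≤ u μ f J := hu J
      _ ≤ _ := by
          rw [hsum]
          gcongr
  · rw [hEW]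
    refine le_trans (ENNReal.tsum_le_tsum fun γ => ?_) (Bal.u_le_one (μ := μ) (e := f) J)
    by_cases h : Pre f J γ ∧ Boxed f R γ <;> simp [h]
  · refine ENNReal.tsum_le_tsum fun γ => ?_
    by_cases h : Pre f J γ ∧ Boxed f R γ
    · rw [if_pos h, if_pos h.1]
    · rw [if_neg h]
      exact zero_le
  set box : Finset (Site d) :=
    Fintype.piFinset fun _ : Fin d => Finset.Icc (-(R s : ℤ)) (R s)
  set V : Site d → Env d → ℝ≥0∞ := fun D ω => ∑' α,
    if Pre f (J - (lev e D + 1).toNat) α ∧ (α = [] ∨ (s : ℤ) ≤ lev e D) then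
      pw ω (D - dsp α) α else 0 with hV
  have hVm : ∀ D α, Measurable fun ω : Env d =>
      if Pre f (J - (lev e D + 1).toNat) α ∧ (α = [] ∨ (s : ℤ) ≤ lev e D) then
        pw ω (D - dsp α) α else 0 := fun D α => by
    split_ifs
    · exact Bal.measurable_pw _ _
    · exact measurable_const
  refine ⟨box.image fun y => -vec e - y, ?_, V, fun D _ => ⟨Measurable.tsum (hVm D), ?_, ?_⟩,
    fun ω => ?_⟩
  · refine Finset.card_image_le.trans ?_
    rw [Fintype.card_piFinset, Finset.prod_const, Finset.card_univ, Fintype.card_fin, Int.card_Icc,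
      show (R s : ℤ) + 1 - -(R s : ℤ) = ((2 * R s + 1 : ℕ) : ℤ) by push_cast; ring,
      Int.toNat_natCast, hA, mul_assoc, mul_comm d, pow_mul]
    refine Nat.pow_le_pow_left ?_ d
    have h1 : R s ≤ 2 ^ (G + (Hs s + 1) + N * Hs s + s) := by
      simp only [hR, pow_add]
      gcongr
      · exact Nat.lt_two_pow_self.le
      · exact (Nat.lt_two_pow_self (n := Hs s + 1)).le.trans (by rw [pow_add])
    have h2 : 2 * R s + 1 ≤ 2 ^ (G + (Hs s + 1) + N * Hs s + s + 2) := by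
      have := Nat.two_pow_pos (G + (Hs s + 1) + N * Hs s + s)
      rw [pow_add (m := G + (Hs s + 1) + N * Hs s + s)]
      omega
    refine h2.trans (Nat.pow_le_pow_right (by norm_num) ?_)
    simp only [hHs]
    nlinarith [Nat.zero_le (G * s)]
  · intro ω ω' h
    refine tsum_congr fun α => ?_
    by_cases hα : Pre f (J - (lev e D + 1).toNat) α ∧ (α = [] ∨ (s : ℤ) ≤ lev e D)
    swap
    · rw [if_neg hα, if_neg hα]
    rw [if_pos hα, if_pos hα]
    refine Proj.wt_congr _ _ _ fun v hv => h v ?_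
    rcases hα.2 with rfl | hs
    · simp [verts] at hv
    have h1 := hα.1.1 _ (Bal.mem_verts_shift.1 (show v ∈ verts (0 + (D - dsp α)) α by
      rwa [zero_add]))
    have h2 := hα.1.2
    rw [hlev] at h1 h2
    simp only [Bal.lev_sub] at h1
    show (s : ℤ) + 1 ≤ lev e v
    omega
  · rw [hV, lintegral_tsum fun α => (hVm D α).aemeasurable]
    refine le_trans (ENNReal.tsum_le_tsum fun α => ?_)
      (Bal.u_le_one (μ := μ) (e := f) (J - (lev e D + 1).toNat))
    by_cases h : Pre f (J - (lev e D + 1).toNat) α ∧ (α = [] ∨ (s : ℤ) ≤ lev e D)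
    · simp only [if_pos h, if_pos h.1, Bal.lintegral_pw, le_refl]
    · simp [h]
  calc W ω ≤ ∑' z : List (Step d) × List (Step d), ∑ D ∈ box.image fun y => -vec e - y,
        if Pre f (J - (lev e D + 1).toNat) z.1 ∧ (z.1 = [] ∨ (s : ℤ) ≤ lev e D) ∧
            Pre f (lev e D + 1).toNat z.2 ∧ dsp z.2 = -vec e - D then
          pw ω (D - dsp z.1) z.1 * pw ω D z.2 else 0 := by
        rw [hW]
        refine Proj.tsum_le_split _ _ fun γ hγ => ?_
        by_cases h : Pre f J γ ∧ Boxed f R γ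
        swap
        · exact absurd (if_neg h) hγ
        rw [if_pos h]
        obtain ⟨hJ, hB⟩ := h
        obtain ⟨α, δ, rfl, hα, hδ, hs, hj⟩ := hB s
        refine ⟨α, δ, rfl, ?_⟩
        refine le_trans ?_ (Finset.single_le_sum (fun _ _ => zero_le)
          (Finset.mem_image.2 ⟨dsp δ, Fintype.mem_piFinset.2 fun j =>
            Finset.mem_Icc.2 (abs_le.1 (hj j)), rfl⟩))
        have hD : lev e (-vec e - dsp δ) = (hgt f δ : ℤ) - 1 := by
          rw [Bal.lev_sub, Bal.lev_neg, Bal.lev_vec_self]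
          have h3 : lev f (dsp δ) = hgt f δ := hδ.2
          rw [hlev] at h3
          omega
        have hh : (lev e (-vec e - dsp δ) + 1).toNat = hgt f δ := by omega
        have hJs : J - hgt f δ = hgt f α := by
          rw [← hJ.hgt_eq, (hα.append hδ).2, Nat.add_sub_cancel]
        have hcond : Pre f (J - (lev e (-vec e - dsp δ) + 1).toNat) α ∧
            (α = [] ∨ (s : ℤ) ≤ lev e (-vec e - dsp δ)) ∧
            Pre f (lev e (-vec e - dsp δ) + 1).toNat δ ∧
            dsp δ = -vec e - (-vec e - dsp δ) := by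
          refine ⟨?_, ?_, ?_, by abel⟩
          · rw [hh, hJs]
            exact Bal.pre_iff_adm.2 ⟨hα, rfl⟩
          · rcases hs with h4 | h4
            · exact Or.inl h4
            · exact Or.inr (by omega)
          · rw [hh]
            exact Bal.pre_iff_adm.2 ⟨hδ, rfl⟩
        rw [if_pos hcond, Proj.dsp_append,
          show -vec e - (dsp α + dsp δ) = -vec e - dsp δ - dsp α by abel, Bal.pw_append,
          sub_add_cancel]
    _ = ∑ D ∈ box.image fun y => -vec e - y, ∑' α, (if Pre f (J - (lev e D + 1).toNat) α ∧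
          (α = [] ∨ (s : ℤ) ≤ lev e D) then pw ω (D - dsp α) α else 0) *
          ∑' δ, {δ | Pre f (lev e D + 1).toNat δ ∧ dsp δ = -vec e - D}.indicator (pw ω D) δ := by
        rw [Summable.tsum_finsetSum fun _ _ => ENNReal.summable]
        refine Finset.sum_congr rfl fun D _ => ?_
        rw [ENNReal.tsum_prod']
        refine tsum_congr fun α => ?_
        rw [← ENNReal.tsum_mul_left]
        refine tsum_congr fun δ => ?_
        simp only [Set.indicator_apply, mem_ofPred_eq, ite_mul, zero_mul, mul_ite, mul_zero]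
        split_ifs <;> tauto
    _ ≤ _ := by
        refine Finset.sum_le_sum fun D _ => ENNReal.tsum_le_tsum fun α => ?_
        exact mul_le_of_le_one_right zero_le (Bal.tsum_pw_le_one _
          (fun γ δ h h' => Bal.pre_prefix_free h.1 h'.1) ω D)

theorem trailOut (hell : ∀ᵐ q ∂μ, ∀ a : Step d, 0 < q.1 a) (e : Step d) : TrailOut μ e :=
  trailOut_of confOut hell e

end Vale.Agent.P147.Thin
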