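import Vale.Agent.P147.Thin.Flow
import Vale.Agent.P147.Bal.Pair

/-!
# Moments of the errors of the telescope
-/

open MeasureTheory Set Filter Topology
open scoped ENNReal

namespace Vale.Agent.P147.Thin

open Vale.Agent.P147.Proj (dsp verts iid DepOn IsNew)
open Vale.Agent.P147.Bal (lev pw cw Irr hgt Pre Adm u)

variable {d : ℕ} {e : Step d} {P : Par} {μ : Measure (Row d)} [IsProbabilityMeasure μ]
  {Q : Env d → Site d → Measure (ℕ → Site d)} {p : ℝ≥0∞} {A : ℝ}

/-- The range allowed to a piece which ends at level `s`. -/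
def range' (P : Par) (s : ℕ) : ℕ := P.C * (s + 1) ^ P.b

/-- A bound for the annealed flow into a site at the starts of pieces ending at level `s`. -/
noncomputable def usup (A : ℝ) (d N K s : ℕ) : ℝ≥0∞ :=
  min (N : ℝ≥0∞)⁻¹ (ENNReal.ofReal (A * (K : ℝ) ^ ((d - 1) / 2) / (s : ℝ) ^ ((d - 1) / 2)))

/-- The bound on the meeting of footprints of pieces ending at level `s`. -/
noncomputable def meetBound (A : ℝ) (d N : ℕ) (P : Par) (s : ℕ) : ℝ≥0∞ :=
  (s : ℝ≥0∞) * usup A d N P.K s * (range' P s + 1 : ℕ)

open Classical in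
lemma tsum_pointMass_le (hp : p ≠ 0) (hu : ∀ J, p ≤ u μ e J) (k : ℕ) :
    ∑' y, pointMass μ e P k y ≤ 1 := by
  simp only [pointMass]
  rw [Summable.tsum_finsetSum fun _ _ => ENNReal.summable]
  refine le_trans (le_of_eq (Finset.sum_congr rfl fun t _ => ?_)) (sum_tupW_le (P := P) hp hu k)
  rw [tsum_eq_single (tsumDsp t.lists) fun y hy => if_neg hy.symm, if_pos rfl]

open Classical in
/-- The annealed flow into a site after `k` pieces is small. -/
lemma flow_le (hp : p ≠ 0) (hu : ∀ J, p ≤ u μ e J) (hA : 0 ≤ A)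
    (hloc : ∀ k y, pointMass μ e P k y ≤ ENNReal.ofReal (A / ((k : ℝ) + 1) ^ ((d - 1) / 2)))
    (B : Finset (Site d)) {k s : ℕ} (hs : 1 ≤ s) (hks : s ≤ P.K * (k + 1)) (y : Site d) :
    (B.card : ℝ≥0∞)⁻¹ * ∑ a ∈ B, pointMass μ e P k (y - a) ≤ usup A d B.card P.K s := by
  refine le_min ?_ ?_
  · refine mul_le_of_le_one_right zero_le (le_trans ?_ (tsum_pointMass_le (P := P) hp hu k))
    refine le_trans (le_of_eq ?_) (ENNReal.sum_le_tsum (B.image fun a => y - a))
    rw [Finset.sum_image fun a _ b _ h => sub_right_injective h]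
  · set q := (d - 1) / 2
    have hle : A / ((k : ℝ) + 1) ^ q ≤ A * (P.K : ℝ) ^ q / (s : ℝ) ^ q := by
      have h1 : (s : ℝ) ≤ P.K * ((k : ℝ) + 1) := by exact_mod_cast hks
      have h2 : (0 : ℝ) < s := by exact_mod_cast hs
      rw [div_le_div_iff₀ (by positivity) (by positivity), mul_assoc, ← mul_pow]
      exact mul_le_mul_of_nonneg_left (pow_le_pow_left₀ h2.le h1 q) hA
    refine le_trans (mul_le_mul_right (Finset.sum_le_card_nsmul B _ _ fun a _ =>
      (hloc k (y - a)).trans (ENNReal.ofReal_le_ofReal hle)) _) ?_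
    rw [nsmul_eq_mul, ← mul_assoc]
    refine mul_le_of_le_one_left zero_le ?_
    exact ENNReal.inv_mul_le_one _

/-- The annealed mass of small first arrivals at `y`. -/
noncomputable def hitNew (μ : Measure (Row d)) (ℓ : ℕ) (y : Site d) : ℝ≥0∞ :=
  open Classical in ∑' κ : List (Step d),
    if IsNew κ ∧ (verts 0 κ).toFinset.card ≤ ℓ ∧ dsp κ = y then cw μ κ else 0

open Classical in
lemma tsum_hitNew_le (ℓ : ℕ) : ∑' y, hitNew μ ℓ y ≤ ((ℓ + 1 : ℕ) : ℝ≥0∞) := by
  simp only [hitNew]
  rw [ENNReal.tsum_comm]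
  refine le_trans (le_of_eq (tsum_congr fun κ => ?_)) (Bal.tsum_new_le (μ := μ) ℓ)
  rw [tsum_eq_single (dsp κ) fun y hy => if_neg fun h => hy h.2.2.symm]
  simp

open Classical in
/-- Small prefixes of a given height seldom meet a given finite set. -/
lemma meet_pieces_le (M h ℓ : ℕ) (z : Site d) (U : Finset (Site d)) {Y : Env d → ℝ≥0∞}
    (hY : Measurable Y) (hYU : DepOn Y U) :
    ∫⁻ ω, Y ω * ∑ η : ↥(capPieces e M), (if Pre e h η.1 ∧ (verts 0 η.1).toFinset.card ≤ ℓ ∧
        (∃ x ∈ (verts z η.1).toFinset, x ∈ U) then pw ω z η.1 else 0) ∂iid μ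
      ≤ (∫⁻ ω, Y ω ∂iid μ) * ∑ x ∈ U, hitNew μ ℓ (x - z) := by
  set first : List (Step d) → Prop := fun κ =>
    (∀ v ∈ verts z κ, v ∉ U) ∧ z + dsp κ ∈ U ∧ (verts 0 κ).toFinset.card ≤ ℓ
  have hpt : ∀ ω, (∑ η : ↥(capPieces e M), (if Pre e h η.1 ∧ (verts 0 η.1).toFinset.card ≤ ℓ ∧
      (∃ x ∈ (verts z η.1).toFinset, x ∈ U) then pw ω z η.1 else 0))
      ≤ ∑' κ, if first κ then pw ω z κ else 0 := by
    intro ω
    rw [Finset.sum_coe_sort (capPieces e M) fun η => if Pre e h η ∧
      (verts 0 η).toFinset.card ≤ ℓ ∧ (∃ x ∈ (verts z η).toFinset, x ∈ U) then pw ω z η else 0]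
    refine (ENNReal.sum_le_tsum _).trans ?_
    refine (Proj.tsum_le_split _ (fun w => if first w.1 then
      {η | Pre e h η}.indicator (pw ω z) (w.1 ++ w.2) else 0) fun η hη => ?_).trans ?_
    · obtain ⟨⟨h1, h2, x, hx, hxU⟩, -⟩ := ite_ne_right_iff.1 hη
      obtain ⟨κ, δ, rfl, ha, hb⟩ := Proj.exists_first (x := z) (γ := η) (S := (U : Set (Site d)))
        ⟨x, List.mem_append_left _ (List.mem_toFinset.1 hx), hxU⟩
      have hc : (verts 0 κ).toFinset.card ≤ ℓ := by
        refine le_trans (Finset.card_le_card fun v hv => ?_) h2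
        rw [List.mem_toFinset] at hv ⊢
        exact Bal.mem_verts_append.2 (Or.inl hv)
      refine ⟨κ, δ, rfl, ?_⟩
      rw [if_pos ⟨h1, h2, x, hx, hxU⟩, if_pos (show first κ from ⟨ha, hb, hc⟩),
        indicator_of_mem (show κ ++ δ ∈ {η | Pre e h η} from h1)]
    · rw [ENNReal.tsum_prod']
      refine ENNReal.tsum_le_tsum fun κ => ?_
      split_ifs
      · exact Bal.tsum_ext_le _ (fun γ δ (hγ : Pre e h γ) (hδ : Pre e h (γ ++ δ)) =>
          Bal.pre_prefix_free hγ hδ) ω z κ
      · simp
  have hm : ∀ κ, Measurable fun ω => if first κ then pw ω z κ else 0 := fun κ => by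
    split_ifs
    · exact Bal.measurable_pw z κ
    · exact measurable_const
  refine (lintegral_mono fun ω => mul_le_mul_right (hpt ω) _).trans ?_
  simp only [← ENNReal.tsum_mul_left]
  rw [lintegral_tsum (f := fun κ ω => Y ω * if first κ then pw ω z κ else 0)
    fun κ => (hY.mul (hm κ)).aemeasurable]
  calc ∑' κ, ∫⁻ ω, Y ω * (if first κ then pw ω z κ else 0) ∂iid μ
      = ∑' κ, (∫⁻ ω, Y ω ∂iid μ) * (if first κ then cw μ κ else 0) := by
        refine tsum_congr fun κ => ?_
        split_ifs with hκ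
        · rw [Proj.lintegral_mul_disjoint μ (f := Y) (g := fun ω => pw ω z κ) hY
            (Bal.measurable_pw z κ) hYU (Proj.depOn_wt _ z κ)
            (Finset.disjoint_right.2 fun v hv => hκ.1 v (List.mem_toFinset.1 hv)),
            Bal.lintegral_pw]
        · simp
    _ ≤ (∫⁻ ω, Y ω ∂iid μ) * ∑ x ∈ U, hitNew μ ℓ (x - z) := by
        rw [ENNReal.tsum_mul_left]
        refine mul_le_mul_right ?_ _
        simp only [hitNew]
        rw [← Summable.tsum_finsetSum fun _ _ => ENNReal.summable]
        refine ENNReal.tsum_le_tsum fun κ => ?_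
        split_ifs with hκ
        · refine le_trans (le_of_eq ?_) (Finset.single_le_sum (fun _ _ => zero_le) hκ.2.1)
          rw [if_pos ⟨Proj.isNew_of_avoid (v := z + dsp κ) rfl fun hv => hκ.1 _ hv hκ.2.1,
            hκ.2.2, by abel⟩]
        · exact zero_le

lemma sum_height_succ_le (hp : p ≠ 0) (hu : ∀ J, p ≤ u μ e J) (n s : ℕ) :
    ∑ k : Fin n, ∑ t : Tup e P ((k : ℕ) + 1),
      (open Classical in if hsum e t.lists = s then tupW μ t else 0) ≤ 1 := by
  classical
  refine le_trans ?_ (sum_height_le (P := P) hp hu (n + 1) s)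
  rw [Fin.sum_univ_eq_sum_range (fun k => ∑ t : Tup e P (k + 1),
    if hsum e t.lists = s then tupW μ t else 0) n, Finset.sum_range_succ' _ n]
  exact le_self_add

variable {B : Finset (Site d)} {n s : ℕ}

open Classical in
lemma sum_idx_le (F : (k : Fin n) → ↥B → Tup e P ((k : ℕ) + 1) → ℝ≥0∞) :
    ∑ i : Idx e P B n s, F i.1.1 i.1.2.1 i.1.2.2 = ∑ k : Fin n, ∑ a : ↥B,
      ∑ t : Tup e P ((k : ℕ) + 1), if t.Good ∧ hsum e t.lists = s then F k a t else 0 := by
  rw [← Finset.sum_subtype (p := fun i : (k : Fin n) × (↥B × Tup e P ((k : ℕ) + 1)) =>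
      i.2.2.Good ∧ hsum e i.2.2.lists = s)
    (Finset.univ.filter fun i => i.2.2.Good ∧ hsum e i.2.2.lists = s)
    (fun i => by simp) (fun i => F i.1 i.2.1 i.2.2), Finset.sum_filter, Fintype.sum_sigma]
  exact Finset.sum_congr rfl fun k _ => Fintype.sum_prod_type _

omit [IsProbabilityMeasure μ] in
lemma pre_last {k : ℕ} (t : Tup e P k) (η : ↥(capPieces e P.M)) :
    Pre e ((hsum e t.lists + hgt e η.1) - hsum e t.lists) η.1 := by
  rw [Nat.add_sub_cancel_left]
  exact (irr_piece η).2.1

omit [IsProbabilityMeasure μ] in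
lemma card_verts_le (z : Site d) (γ : List (Step d)) :
    (verts z γ).toFinset.card ≤ (verts 0 γ).toFinset.card := by
  classical
  refine le_trans (Finset.card_le_card (t := (verts 0 γ).toFinset.image (· + z)) fun v hv => ?_)
    Finset.card_image_le
  have h : v ∈ verts (0 + z) γ := by rw [zero_add]; exact List.mem_toFinset.1 hv
  exact Finset.mem_image.2 ⟨v - z, List.mem_toFinset.2 (Bal.mem_verts_shift.1 h), sub_add_cancel v z⟩

open Classical in
/-- The pieces ending at level `s` form a spread family. -/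
lemma spread_idx (hp : p ≠ 0) (hu : ∀ J, p ≤ u μ e J) (hA : 0 ≤ A)
    (hloc : ∀ k y, pointMass μ e P k y ≤ ENNReal.ofReal (A / ((k : ℝ) + 1) ^ ((d - 1) / 2)))
    (hB : B.Nonempty) :
    Spread μ (fun i : Idx e P B n s => (verts i.start i.piece).toFinset)
      (fun i ω => pw ω i.start i.piece) (Idx.past μ) (range' P s) (meetBound A d B.card P s) where
  meas i := Bal.measurable_pw _ _
  dep i := Proj.depOn_wt _ _ _
  le_one i ω := pw_le_one ω _ _
  a_top i := ENNReal.mul_ne_top (ENNReal.inv_ne_top.2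
    (Nat.cast_ne_zero.2 (Finset.card_pos.2 hB).ne')) (tupW_ne_top _)
  small i := (card_verts_le _ _).trans (by
    refine i.2.1.last.1.trans (le_of_eq ?_)
    rw [i.2.2]
    rfl)
  total := by
    simp only [Bal.lintegral_pw, Idx.past, Idx.piece]
    refine le_trans (le_of_eq (sum_idx_le fun k (_ : ↥B) t =>
      (B.card : ℝ≥0∞)⁻¹ * tupW μ (Fin.init t) * cw μ (t (Fin.last k)).1)) ?_
    rw [Finset.sum_comm]
    calc ∑ a : ↥B, ∑ k : Fin n, ∑ t : Tup e P ((k : ℕ) + 1), (if t.Good ∧ hsum e t.lists = s then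
          (B.card : ℝ≥0∞)⁻¹ * tupW μ (Fin.init t) * cw μ (t (Fin.last k)).1 else 0)
        ≤ ∑ _a : ↥B, (B.card : ℝ≥0∞)⁻¹ * 1 := by
          refine Finset.sum_le_sum fun a _ => ?_
          refine le_trans ?_ (mul_le_mul_right (sum_height_succ_le (P := P) hp hu n s) _)
          rw [Finset.mul_sum]
          refine Finset.sum_le_sum fun k _ => ?_
          rw [Finset.mul_sum]
          refine Finset.sum_le_sum fun t _ => ?_
          by_cases h : t.Good ∧ hsum e t.lists = s
          · rw [if_pos h, if_pos h.2, mul_assoc, ← tupW_snoc, Fin.snoc_init_self]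
          · rw [if_neg h]
            exact zero_le
      _ ≤ 1 := by
          rw [Finset.sum_const, Finset.card_univ, Fintype.card_coe, nsmul_eq_mul, mul_one]
          exact ENNReal.mul_inv_le_one _
  meet := by
    intro U Y hY hYU
    set N := (B.card : ℝ≥0∞)⁻¹
    set ℓ := range' P s
    set EY := ∫⁻ ω, Y ω ∂iid μ
    set adm : Fin n → Prop := fun k => (k : ℕ) < s ∧ s ≤ P.K * ((k : ℕ) + 1)
    set S : Fin n → ↥B → (k : ℕ) → Tup e P k → Env d → ℝ≥0∞ := fun _ a k t' ω =>
      ∑ η : ↥(capPieces e P.M), if Pre e (s - hsum e t'.lists) η.1 ∧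
        (verts 0 η.1).toFinset.card ≤ ℓ ∧
        (∃ x ∈ (verts (a.1 + tsumDsp t'.lists) η.1).toFinset, x ∈ U) then
          pw ω (a.1 + tsumDsp t'.lists) η.1 else 0
    have hSm : ∀ k a j t', Measurable (S k a j t') := fun k a j t' =>
      Finset.measurable_sum _ fun η _ => by
        split_ifs
        · exact Bal.measurable_pw _ _
        · exact measurable_const
    have hpt : ∀ ω, (∑ i : Idx e P B n s,
        (if (∃ x ∈ (verts i.start i.piece).toFinset, x ∈ U) then
          i.past μ * pw ω i.start i.piece else 0))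
        ≤ ∑ k ∈ Finset.univ.filter adm, ∑ a : ↥B, ∑ t' : Tup e P (k : ℕ),
          N * tupW μ t' * S k a k t' ω := by
      intro ω
      simp only [Idx.past, Idx.start, Idx.piece]
      refine le_trans (le_of_eq (sum_idx_le fun k a t =>
        if (∃ x ∈ (verts (a.1 + tsumDsp (Tup.lists (Fin.init t))) (t (Fin.last k)).1).toFinset, x ∈ U)
          then N * tupW μ (Fin.init t) *
            pw ω (a.1 + tsumDsp (Tup.lists (Fin.init t))) (t (Fin.last k)).1 else 0)) ?_
      rw [Finset.sum_filter]
      refine Finset.sum_le_sum fun k _ => ?_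
      by_cases hk : adm k
      · rw [if_pos hk]
        refine Finset.sum_le_sum fun a _ => ?_
        rw [sum_snoc]
        refine Finset.sum_le_sum fun t' _ => ?_
        simp only [S, Finset.mul_sum, Fin.init_snoc, Fin.snoc_last, lists_snoc, hsum_snoc, good_snoc]
        refine Finset.sum_le_sum fun η _ => ?_
        by_cases h : (t'.Good ∧ Ok e P.b P.C P.K k (hsum e t'.lists) η.1) ∧
            hsum e t'.lists + hgt e η.1 = s
        · rw [if_pos h]
          split_ifs with h1 h2
          · exact le_rfl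
          · refine absurd ⟨h.2 ▸ pre_last t' η, ?_, h1⟩ h2
            refine h.1.2.1.trans (le_of_eq ?_)
            rw [h.2]
            rfl
          · exact zero_le
          · exact zero_le
        · rw [if_neg h]
          exact zero_le
      · rw [if_neg hk]
        refine le_of_eq (Finset.sum_eq_zero fun a _ => Finset.sum_eq_zero fun t _ => if_neg fun h => hk ?_)
        have h1 := le_hsum t
        have h2 := h.1.last.2
        rw [h.2] at h1 h2
        exact ⟨by omega, h2⟩
    refine (lintegral_mono fun ω => mul_le_mul_right (hpt ω) _).trans ?_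
    simp only [Finset.mul_sum]
    have hSY : ∀ (k : Fin n) (a : ↥B) (t : Tup e P (k : ℕ)),
        Measurable fun ω => Y ω * (N * tupW μ t * S k a k t ω) := fun k a t =>
      hY.mul ((hSm k a k t).const_mul _)
    rw [lintegral_finsetSum _ fun k _ => Finset.measurable_sum _ fun a _ =>
      Finset.measurable_sum _ fun t _ => hSY k a t]
    calc _ ≤ ∑ _k ∈ Finset.univ.filter adm,
          EY * (usup A d B.card P.K s * ((ℓ + 1 : ℕ) : ℝ≥0∞) * (U.card : ℝ≥0∞)) := by
          refine Finset.sum_le_sum fun k hk => ?_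
          obtain ⟨hk1, hk2⟩ := (Finset.mem_filter.1 hk).2
          rw [lintegral_finsetSum _ fun a _ => Finset.measurable_sum _ fun t _ => hSY k a t]
          have hterm : ∀ (a : ↥B) (t' : Tup e P (k : ℕ)),
              ∫⁻ ω, Y ω * (N * tupW μ t' * S k a k t' ω) ∂iid μ
                ≤ EY * ∑ x ∈ U, N * tupW μ t' * hitNew μ ℓ (x - (a.1 + tsumDsp t'.lists)) := by
            intro a t'
            simp only [mul_left_comm (Y _) (N * tupW μ t')]
            rw [lintegral_const_mul (μ := iid μ) (N * tupW μ t') (f := fun ω => Y ω * S k a k t' ω)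
              (hY.mul (hSm k a k t'))]
            refine le_trans (mul_le_mul_right (meet_pieces_le (e := e) P.M
              (s - hsum e t'.lists) ℓ (a.1 + tsumDsp t'.lists) U hY hYU) _) (le_of_eq ?_)
            rw [← Finset.mul_sum]
            ring
          calc _ ≤ ∑ a : ↥B, ∑ t' : Tup e P (k : ℕ),
                EY * ∑ x ∈ U, N * tupW μ t' * hitNew μ ℓ (x - (a.1 + tsumDsp t'.lists)) := by
                refine Finset.sum_le_sum fun a _ => ?_
                rw [lintegral_finsetSum _ fun t _ => hSY k a t]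
                exact Finset.sum_le_sum fun t' _ => hterm a t'
            _ = EY * ∑ x ∈ U, ∑ a : ↥B, ∑ t' : Tup e P (k : ℕ),
                N * tupW μ t' * hitNew μ ℓ (x - (a.1 + tsumDsp t'.lists)) := by
                simp only [← Finset.mul_sum]
                congr 1
                conv_rhs => rw [Finset.sum_comm]
                refine Finset.sum_congr rfl fun a _ => ?_
                conv_rhs => rw [Finset.sum_comm]
                exact Finset.sum_congr rfl fun t _ => Finset.mul_sum _ _ _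
            _ ≤ EY * ∑ _x ∈ U, usup A d B.card P.K s * ((ℓ + 1 : ℕ) : ℝ≥0∞) := by
                refine mul_le_mul_right (Finset.sum_le_sum fun x _ => ?_) _
                calc ∑ a : ↥B, ∑ t' : Tup e P (k : ℕ),
                      N * tupW μ t' * hitNew μ ℓ (x - (a.1 + tsumDsp t'.lists))
                    = ∑' y, (N * ∑ a ∈ B, pointMass μ e P k (y - a)) * hitNew μ ℓ (x - y) := by
                      simp only [pointMass, Finset.mul_sum, Finset.sum_mul]
                      rw [Summable.tsum_finsetSum fun _ _ => ENNReal.summable,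
                        ← Finset.sum_coe_sort B]
                      refine Finset.sum_congr rfl fun a _ => ?_
                      rw [Summable.tsum_finsetSum fun _ _ => ENNReal.summable]
                      refine Finset.sum_congr rfl fun t' _ => ?_
                      rw [tsum_eq_single (a.1 + tsumDsp t'.lists) fun y hy => ?_]
                      · rw [add_sub_cancel_left, if_pos rfl]
                      · rw [if_neg fun h => hy (by rw [h]; abel), mul_zero, zero_mul]
                  _ ≤ ∑' y, usup A d B.card P.K s * hitNew μ ℓ (x - y) :=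
                      ENNReal.tsum_le_tsum fun y => mul_le_mul_left
                        (flow_le hp hu hA hloc B (by omega) hk2 y) _
                  _ ≤ _ := by
                      rw [ENNReal.tsum_mul_left,
                        show (∑' y, hitNew μ ℓ (x - y)) = ∑' y, hitNew μ ℓ y from
                          (Equiv.subLeft x).tsum_eq (hitNew μ ℓ)]
                      exact mul_le_mul_right (tsum_hitNew_le ℓ) _
            _ = _ := by rw [Finset.sum_const, nsmul_eq_mul]; ring
      _ ≤ EY * (meetBound A d B.card P s * (U.card : ℝ≥0∞)) := by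
          rw [Finset.sum_const, nsmul_eq_mul, meetBound]
          calc ((Finset.univ.filter adm).card : ℝ≥0∞)
                * (EY * (usup A d B.card P.K s * ((ℓ + 1 : ℕ) : ℝ≥0∞) * (U.card : ℝ≥0∞)))
              ≤ (s : ℝ≥0∞) * (EY * (usup A d B.card P.K s * ((ℓ + 1 : ℕ) : ℝ≥0∞) * (U.card : ℝ≥0∞))) := by
                refine mul_le_mul_left (Nat.cast_le.2 ?_) _
                calc (Finset.univ.filter adm).card
                    = ((Finset.univ.filter adm).image Fin.val).card :=
                      (Finset.card_image_of_injective _ Fin.val_injective).symm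
                  _ ≤ (Finset.range s).card := Finset.card_le_card fun j hj => by
                      obtain ⟨k, hk, rfl⟩ := Finset.mem_image.1 hj
                      exact Finset.mem_range.2 (Finset.mem_filter.1 hk).2.1
                  _ = s := Finset.card_range s
            _ = _ := by simp only [ℓ]; ring

/-- The moments of the error at level `s`, tilted by a function of the rows at the levels `≥ s`. -/
theorem xi_moment (hQ : IsQuenchedLaw Q) (hp : p ≠ 0) (hu : ∀ J, p ≤ u μ e J) (hA : 0 ≤ A)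
    (hloc : ∀ k y, pointMass μ e P k y ≤ ENNReal.ofReal (A / ((k : ℝ) + 1) ^ ((d - 1) / 2)))
    (hB : B.Nonempty) {m : ℕ}
    (hv : meetBound A d B.card P s * ((2 * m * range' P s : ℕ) : ℝ≥0∞) ≤ 1)
    {Y : Env d → ℝ≥0∞} (hY : Measurable Y) (hYs : DepOnSet Y {v | (s : ℤ) ≤ lev e v})
    (hlev : ∀ a ∈ B, lev e a = 0) :
    ∫⁻ ω, Y ω * ENNReal.ofReal (xi μ Q e P B n s ω ^ (2 * m)) ∂iid μ
      ≤ (∫⁻ ω, Y ω ∂iid μ) *
        (36 * (meetBound A d B.card P s * ((2 * m * range' P s : ℕ) : ℝ≥0∞))) ^ m := by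
  set S : Set (Site d) := {v | lev e v < (s : ℤ)}
  have hSc : Sᶜ = {v | (s : ℤ) ≤ lev e v} := by ext v; simp [S, not_lt]
  have hdep := stayDepOut hQ
  have hstop : ∀ i : Idx e P B n s, lev e i.stop = (s : ℤ) := fun i => by
    rw [Idx.stop, Bal.lev_add, hlev _ i.1.2.1.2, lev_tsumDsp, i.2.2, zero_add]
  have hfoot : ∀ i : Idx e P B n s, ∀ v ∈ verts i.start i.piece, v ∈ S := by
    intro i v hv
    have h1 := (lev_verts (irr_piece (i.1.2.2 (Fin.last _))).2.1 hv).2
    have h2 : lev e i.start + hgt e i.piece = (s : ℤ) := by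
      rw [Idx.start, Bal.lev_add, hlev _ i.1.2.1.2, lev_tsumDsp, Idx.piece, zero_add]
      conv_rhs => rw [← i.2.2, ← Fin.snoc_init_self i.1.2.2, lists_snoc, hsum_snoc]
      push_cast
      rfl
    show lev e v < (s : ℤ)
    rw [Idx.piece] at h2
    omega
  have hxi : ∀ z : Env d × Env d, xi μ Q e P B n s (merge S z) = ∑ i : Idx e P B n s,
      centred μ (fun (i : Idx e P B n s) η => pw η i.start i.piece) (Idx.wgt μ Q z.2) i z.1 := by
    intro z
    refine Finset.sum_congr rfl fun i _ => ?_
    simp only [centred]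
    rw [merge_left (depOnSet_pw _ _ (hfoot i)) z]
    congr 1
    simp only [Idx.wgt]
    rw [merge_right (f := fun ω => cont Q e P (n - ((i.1.1 : ℕ) + 1)) ((i.1.1 : ℕ) + 1) s ω i.stop)
      ((depOnSet_cont hdep _ _ _ _).mono fun v hv => by
        rw [hSc]
        simpa [hstop i] using hv) z]
  have hxm : Measurable fun ω => xi μ Q e P B n s ω := Finset.measurable_sum _ fun i _ =>
    ((measurable_cont hQ _ _ _ _).ennreal_toReal.const_mul _).mul
      ((Bal.measurable_pw _ _).ennreal_toReal.sub_const _)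
  have hF : Measurable fun ω => Y ω * ENNReal.ofReal (xi μ Q e P B n s ω ^ (2 * m)) :=
    hY.mul (hxm.pow_const _).ennreal_ofReal
  rw [lintegral_merge μ hF S]
  refine le_trans (lintegral_mono fun η => ?_) (lintegral_mul_const _ hY).le
  simp only [merge_right (hSc ▸ hYs : DepOnSet Y Sᶜ), hxi]
  have hwm : Measurable fun ξ => ENNReal.ofReal ((∑ i : Idx e P B n s,
      centred μ (fun (i : Idx e P B n s) η => pw η i.start i.piece) (Idx.wgt μ Q η) i ξ) ^ (2 * m)) :=
    ((Finset.measurable_sum _ fun i _ =>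
      ((Bal.measurable_pw _ _).ennreal_toReal.sub_const _).const_mul _).pow_const _).ennreal_ofReal
  rw [lintegral_const_mul _ hwm]
  refine mul_le_mul_right (moment_le (spread_idx hp hu hA hloc hB) le_rfl hv _ fun i => ?_) _
  have h1 : (cont Q e P (n - ((i.1.1 : ℕ) + 1)) ((i.1.1 : ℕ) + 1) s η i.stop).toReal ≤ 1 :=
    ENNReal.toReal_le_of_le_ofReal zero_le_one
      (by simpa using (cont_le_stayP hQ η _ _ _ _).trans (stayP_le_one hQ η _))
  exact ⟨mul_nonneg ENNReal.toReal_nonneg ENNReal.toReal_nonneg,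
    mul_le_of_le_one_right ENNReal.toReal_nonneg h1⟩

end Vale.Agent.P147.Thin
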